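import Vale.Agent.P366.T2.U1.Defs
import Vale.Agent.P366.T2.Calc
import Mathlib.LinearAlgebra.Matrix.SchurComplement

/-! Algebra of a complex structure, the inverse metric. -/

open MeasureTheory Metric Filter Topology Set
open scoped ContDiff ENNReal

noncomputable section
namespace Vale.Agent.U1
open Vale.Agent.P366.Stmt

variable {n : ℕ}

theorem sum_sq (x : E n) : ∑ i, x i * x i = len x ^ 2 := by
  unfold len
  rw [EuclideanSpace.norm_eq, Real.sq_sqrt (Finset.sum_nonneg fun i _ => sq_nonneg _)]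
  exact Finset.sum_congr rfl fun i _ => by rw [Real.norm_eq_abs, sq_abs]; ring

theorem len_ne {x : E n} (hx : x ≠ 0) : len x ≠ 0 := by simp [len, hx]

theorem len_pos {x : E n} (hx : x ≠ 0) : 0 < len x := by unfold len; positivity

namespace Cpx

variable (Q : Cpx n)

theorem skew_apply (i j : Fin n) : Q.J j i = -Q.J i j := by
  have := congrFun (congrFun Q.skew i) j
  simpa [Matrix.transpose_apply] using this

theorem diag (i : Fin n) : Q.J i i = 0 := by
  have := Q.skew_apply i i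
  linarith

theorem trace_J : ∑ i, Q.J i i = 0 := by simp [Q.diag]

theorem JJ (i k : Fin n) : ∑ j, Q.J i j * Q.J j k = -(if i = k then 1 else 0) := by
  have := congrFun (congrFun Q.sq i) k
  rw [Matrix.mul_apply, Matrix.neg_apply, Matrix.one_apply] at this
  exact this

theorem JTJ (i k : Fin n) : ∑ j, Q.J j i * Q.J j k = if i = k then 1 else 0 := by
  have h : ∀ j, Q.J j i * Q.J j k = -(Q.J i j * Q.J j k) := fun j => by
    rw [Q.skew_apply i j]; ring
  simp only [h, Finset.sum_neg_distrib, Q.JJ, neg_neg]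

theorem J_x (x : E n) (i : Fin n) : ∑ j, Q.J i j * x j = Q.Y x i := rfl

theorem JT_x (x : E n) (i : Fin n) : ∑ j, Q.J j i * x j = -Q.Y x i := by
  rw [Cpx.Y, ← Finset.sum_neg_distrib]
  exact Finset.sum_congr rfl fun j _ => by rw [Q.skew_apply i j]; ring

theorem J_Y (x : E n) (i : Fin n) : ∑ j, Q.J i j * Q.Y x j = -x i := by
  have h1 : ∑ j, Q.J i j * Q.Y x j = ∑ k, (∑ j, Q.J i j * Q.J j k) * x k := by
    simp only [Cpx.Y, Finset.mul_sum, Finset.sum_mul]
    rw [Finset.sum_comm]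
    exact Finset.sum_congr rfl fun k _ => Finset.sum_congr rfl fun j _ => by ring
  rw [h1]
  simp only [Q.JJ]
  simp

theorem JT_Y (x : E n) (i : Fin n) : ∑ j, Q.J j i * Q.Y x j = x i := by
  have h : ∑ j, Q.J j i * Q.Y x j = -∑ j, Q.J i j * Q.Y x j := by
    rw [← Finset.sum_neg_distrib]
    exact Finset.sum_congr rfl fun j _ => by rw [Q.skew_apply i j]; ring
  rw [h, Q.J_Y, neg_neg]

theorem x_Y (x : E n) : ∑ i, x i * Q.Y x i = 0 := by
  have h : ∑ i, x i * Q.Y x i = -∑ i, x i * Q.Y x i := by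
    have h1 : ∑ i, x i * Q.Y x i = ∑ i, ∑ j, x i * (Q.J i j * x j) := by
      simp only [Cpx.Y, Finset.mul_sum]
    rw [h1]
    conv_lhs => rw [Finset.sum_comm]
    rw [← Finset.sum_neg_distrib]
    refine Finset.sum_congr rfl fun i _ => ?_
    rw [← Finset.sum_neg_distrib]
    refine Finset.sum_congr rfl fun j _ => ?_
    rw [Q.skew_apply i j]; ring
  linarith

theorem Y_x (x : E n) : ∑ i, Q.Y x i * x i = 0 := by
  rw [← Q.x_Y x]; exact Finset.sum_congr rfl fun i _ => mul_comm _ _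

theorem Y_Y (x : E n) : ∑ i, Q.Y x i * Q.Y x i = len x ^ 2 := by
  have h1 : ∑ i, Q.Y x i * Q.Y x i = ∑ j, x j * (∑ i, Q.J i j * Q.Y x i) := by
    simp only [Finset.mul_sum]
    rw [Finset.sum_comm]
    refine Finset.sum_congr rfl fun i _ => ?_
    have h2 : Q.Y x i * Q.Y x i = (∑ j, Q.J i j * x j) * Q.Y x i := rfl
    rw [h2, Finset.sum_mul]
    exact Finset.sum_congr rfl fun j _ => by ring
  rw [h1]
  simp only [Q.JT_Y, sum_sq]

theorem Y_len (x : E n) : len (WithLp.toLp 2 (Q.Y x) : E n) = len x := by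
  have h1 : len (WithLp.toLp 2 (Q.Y x) : E n) ^ 2 = len x ^ 2 := by
    rw [← sum_sq]; exact Q.Y_Y x
  exact (sq_eq_sq₀ (norm_nonneg _) (norm_nonneg _)).1 h1

theorem Pi_symm (x : E n) (i j : Fin n) : Q.Pi x i j = Q.Pi x j i := by
  unfold Cpx.Pi
  simp only [eq_comm (a := i) (b := j), mul_comm (x i) (x j), mul_comm (Q.Y x i) (Q.Y x j)]

theorem Pi_vec (x : E n) (i : Fin n) (u : Fin n → ℝ) : ∑ j, Q.Pi x i j * u j =
    u i - (x i * (∑ j, x j * u j) + Q.Y x i * (∑ j, Q.Y x j * u j)) / len x ^ 2 := by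
  have h0 : ∀ j, Q.Pi x i j * u j = (if i = j then u j else 0) -
      (x i * (x j * u j) + Q.Y x i * (Q.Y x j * u j)) / len x ^ 2 := by
    intro j
    unfold Cpx.Pi
    split_ifs <;> ring
  simp only [h0, Finset.sum_sub_distrib, ← Finset.sum_div, Finset.sum_add_distrib,
    ← Finset.mul_sum]
  simp

theorem Pi_x {x : E n} (hx : x ≠ 0) (i : Fin n) : ∑ j, Q.Pi x i j * x j = 0 := by
  have hr := len_ne hx
  rw [Q.Pi_vec, sum_sq, Q.Y_x]
  field_simp
  ring

theorem Pi_Y {x : E n} (hx : x ≠ 0) (i : Fin n) : ∑ j, Q.Pi x i j * Q.Y x j = 0 := by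
  have hr := len_ne hx
  rw [Q.Pi_vec, Q.x_Y, Q.Y_Y]
  field_simp
  ring

theorem Pi_Pi {x : E n} (hx : x ≠ 0) (i k : Fin n) :
    ∑ j, Q.Pi x i j * Q.Pi x j k = Q.Pi x i k := by
  rw [Q.Pi_vec]
  have h1 : ∑ j, x j * Q.Pi x j k = 0 := by
    rw [← Q.Pi_x hx k]
    exact Finset.sum_congr rfl fun j _ => by rw [Q.Pi_symm x j k]; ring
  have h2 : ∑ j, Q.Y x j * Q.Pi x j k = 0 := by
    rw [← Q.Pi_Y hx k]
    exact Finset.sum_congr rfl fun j _ => by rw [Q.Pi_symm x j k]; ring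
  rw [h1, h2]
  ring

theorem trace_Pi {x : E n} (hx : x ≠ 0) : ∑ i, Q.Pi x i i = (n : ℝ) - 2 := by
  have hr := len_ne hx
  have h0 : ∀ i, Q.Pi x i i = 1 - (x i * x i + Q.Y x i * Q.Y x i) / len x ^ 2 := by
    intro i; simp [Cpx.Pi]
  simp only [h0, Finset.sum_sub_distrib, ← Finset.sum_div, Finset.sum_add_distrib, sum_sq, Q.Y_Y]
  simp
  field_simp
  ring

/-- the normal direction -/
def nv (be : ℝ → ℝ) (i : Fin n) (x : E n) : ℝ := x i - be (len x) * Q.Y x i

theorem x_Z (be : ℝ → ℝ) (x : E n) : ∑ i, x i * Q.Z be x i = be (len x) * len x ^ 2 := by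
  have h : ∀ i, x i * Q.Z be x i = x i * Q.Y x i + be (len x) * (x i * x i) := fun i => by
    unfold Cpx.Z; ring
  simp only [h, Finset.sum_add_distrib, ← Finset.mul_sum, sum_sq, Q.x_Y]
  ring

theorem Y_Z (be : ℝ → ℝ) (x : E n) : ∑ i, Q.Y x i * Q.Z be x i = len x ^ 2 := by
  have h : ∀ i, Q.Y x i * Q.Z be x i = Q.Y x i * Q.Y x i + be (len x) * (Q.Y x i * x i) :=
    fun i => by unfold Cpx.Z; ring
  simp only [h, Finset.sum_add_distrib, ← Finset.mul_sum, Q.Y_x, Q.Y_Y]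
  ring

theorem x_nv (be : ℝ → ℝ) (x : E n) : ∑ i, x i * Q.nv be i x = len x ^ 2 := by
  have h : ∀ i, x i * Q.nv be i x = x i * x i - be (len x) * (x i * Q.Y x i) := fun i => by
    unfold Cpx.nv; ring
  simp only [h, Finset.sum_sub_distrib, ← Finset.mul_sum, sum_sq, Q.x_Y]
  ring

theorem Y_nv (be : ℝ → ℝ) (x : E n) : ∑ i, Q.Y x i * Q.nv be i x = -(be (len x) * len x ^ 2) := by
  have h : ∀ i, Q.Y x i * Q.nv be i x = Q.Y x i * x i - be (len x) * (Q.Y x i * Q.Y x i) :=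
    fun i => by unfold Cpx.nv; ring
  simp only [h, Finset.sum_sub_distrib, ← Finset.mul_sum, Q.Y_x, Q.Y_Y]
  ring

theorem Z_nv (be : ℝ → ℝ) (x : E n) : ∑ i, Q.Z be x i * Q.nv be i x = 0 := by
  have h : ∀ i, Q.Z be x i * Q.nv be i x = Q.Y x i * Q.nv be i x +
      be (len x) * (x i * Q.nv be i x) := fun i => by unfold Cpx.Z; ring
  simp only [h, Finset.sum_add_distrib, ← Finset.mul_sum, Q.Y_nv, Q.x_nv]
  ring

theorem Pi_nv {x : E n} (hx : x ≠ 0) (be : ℝ → ℝ) (i : Fin n) :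
    ∑ j, Q.Pi x i j * Q.nv be j x = 0 := by
  have h : ∀ j, Q.Pi x i j * Q.nv be j x = Q.Pi x i j * x j -
      be (len x) * (Q.Pi x i j * Q.Y x j) := fun j => by unfold Cpx.nv; ring
  simp only [h, Finset.sum_sub_distrib, ← Finset.mul_sum, Q.Pi_x hx, Q.Pi_Y hx]
  ring

theorem Pi_Z {x : E n} (hx : x ≠ 0) (be : ℝ → ℝ) (i : Fin n) :
    ∑ j, Q.Pi x i j * Q.Z be x j = 0 := by
  have h : ∀ j, Q.Pi x i j * Q.Z be x j = Q.Pi x i j * Q.Y x j +
      be (len x) * (Q.Pi x i j * x j) := fun j => by unfold Cpx.Z; ring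
  simp only [h, Finset.sum_add_distrib, ← Finset.mul_sum, Q.Pi_x hx, Q.Pi_Y hx]
  ring

/-- an invariant tensor applied to a vector -/
theorem ten_vec (be f u w s : ℝ → ℝ) (x : E n) (i : Fin n) (a : Fin n → ℝ) :
    ∑ j, Q.ten be f u w s x i j * a j = f (len x) * (∑ j, Q.Pi x i j * a j) +
      (u (len x) * (x i * ∑ j, x j * a j) +
        w (len x) * (x i * (∑ j, Q.Z be x j * a j) + Q.Z be x i * ∑ j, x j * a j) +
        s (len x) * (Q.Z be x i * ∑ j, Q.Z be x j * a j)) / len x ^ 2 := by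
  have h : ∀ j, Q.ten be f u w s x i j * a j = f (len x) * (Q.Pi x i j * a j) +
      (u (len x) * (x i * (x j * a j)) +
        w (len x) * (x i * (Q.Z be x j * a j) + Q.Z be x i * (x j * a j)) +
        s (len x) * (Q.Z be x i * (Q.Z be x j * a j))) / len x ^ 2 := by
    intro j; unfold Cpx.ten; ring
  simp only [h, Finset.sum_add_distrib, ← Finset.mul_sum, ← Finset.sum_div]

theorem ten_symm (be f u w s : ℝ → ℝ) (x : E n) (i j : Fin n) :
    Q.ten be f u w s x i j = Q.ten be f u w s x j i := by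
  unfold Cpx.ten
  rw [Q.Pi_symm x i j]
  ring

theorem ten_nv {x : E n} (hx : x ≠ 0) (be f u w s : ℝ → ℝ) (i : Fin n) :
    ∑ j, Q.ten be f u w s x i j * Q.nv be j x = u (len x) * x i + w (len x) * Q.Z be x i := by
  have hr := len_ne hx
  rw [Q.ten_vec, Q.Pi_nv hx, Q.x_nv, Q.Z_nv]
  field_simp
  ring

theorem ten_Y {x : E n} (hx : x ≠ 0) (be f u w s : ℝ → ℝ) (i : Fin n) :
    ∑ j, Q.ten be f u w s x i j * Q.Y x j = w (len x) * x i + s (len x) * Q.Z be x i := by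
  have hr := len_ne hx
  have h : ∑ j, Q.Z be x j * Q.Y x j = len x ^ 2 := by
    rw [← Q.Y_Z be x]; exact Finset.sum_congr rfl fun j _ => mul_comm _ _
  rw [Q.ten_vec, Q.Pi_Y hx, Q.x_Y, h]
  field_simp
  ring

end Cpx

/-! ### the inverse metric -/

variable {D : Data n} {g K : Field n}

theorem ne_zero_of_le {D : Data n} {x : E n} (hx : D.R ≤ len x) : x ≠ 0 := by
  have := D.hR
  intro h
  rw [h] at hx
  simp [len] at hx
  linarith

/-- the inverse metric -/
def UM (D : Data n) (x : E n) (i j : Fin n) : ℝ :=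
  1 / D.al (len x) * D.Q.Pi x i j + (1 / D.p (len x) * (D.Q.nv D.be i x * D.Q.nv D.be j x) +
    1 / D.q (len x) * (D.Q.Y x i * D.Q.Y x j)) / len x ^ 2

theorem UM_symm (x : E n) (i j : Fin n) : UM D x i j = UM D x j i := by
  unfold UM
  rw [D.Q.Pi_symm x i j]
  ring

theorem g_symm (h : Fits D g K) {x : E n} (hx : D.R ≤ len x) (i j : Fin n) :
    g x i j = g x j i := by
  rw [h.hg x hx, h.hg x hx, D.Q.ten_symm]

theorem K_symm (h : Fits D g K) {x : E n} (hx : D.R ≤ len x) (i j : Fin n) :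
    K x i j = K x j i := by
  rw [h.hK x hx, h.hK x hx, D.Q.ten_symm]

theorem g_nv (h : Fits D g K) {x : E n} (hx : D.R ≤ len x) (i : Fin n) :
    ∑ j, g x i j * D.Q.nv D.be j x = D.p (len x) * x i := by
  simp only [h.hg x hx]
  rw [D.Q.ten_nv (ne_zero_of_le hx)]
  ring

theorem g_Y (h : Fits D g K) {x : E n} (hx : D.R ≤ len x) (i : Fin n) :
    ∑ j, g x i j * D.Q.Y x j = D.q (len x) * D.Q.Z D.be x i := by
  simp only [h.hg x hx]
  rw [D.Q.ten_Y (ne_zero_of_le hx)]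
  ring

theorem g_Pi (h : Fits D g K) {x : E n} (hx : D.R ≤ len x) (i k : Fin n) :
    ∑ j, g x i j * D.Q.Pi x j k = D.al (len x) * D.Q.Pi x i k := by
  have hx0 := ne_zero_of_le hx
  have h1 : ∑ j, x j * D.Q.Pi x j k = 0 := by
    rw [← D.Q.Pi_x hx0 k]
    exact Finset.sum_congr rfl fun j _ => by rw [D.Q.Pi_symm x j k]; ring
  have h2 : ∑ j, D.Q.Z D.be x j * D.Q.Pi x j k = 0 := by
    rw [← D.Q.Pi_Z hx0 D.be k]
    exact Finset.sum_congr rfl fun j _ => by rw [D.Q.Pi_symm x j k]; ring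
  simp only [h.hg x hx]
  rw [D.Q.ten_vec, D.Q.Pi_Pi hx0, h1, h2]
  ring

theorem g_mul_UM (h : Fits D g K) {x : E n} (hx : D.R ≤ len x) :
    mat g x * Matrix.of (UM D x) = 1 := by
  have hx0 := ne_zero_of_le hx
  have hr := len_ne hx0
  have hal := (D.al_pos _ hx).ne'
  have hp := (D.p_pos _ hx).ne'
  have hq := (D.q_pos _ hx).ne'
  ext i k
  rw [Matrix.mul_apply]
  have h1 : ∀ j, mat g x i j * Matrix.of (UM D x) j k = 1 / D.al (len x) *
      (g x i j * D.Q.Pi x j k) + (D.Q.nv D.be k x / D.p (len x) * (g x i j * D.Q.nv D.be j x) +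
      D.Q.Y x k / D.q (len x) * (g x i j * D.Q.Y x j)) / len x ^ 2 := by
    intro j
    rw [Matrix.of_apply, show mat g x i j = g x i j from rfl]
    unfold UM
    ring
  simp only [h1, Finset.sum_add_distrib, ← Finset.mul_sum, ← Finset.sum_div, g_Pi h hx,
    g_nv h hx, g_Y h hx]
  rw [Matrix.one_apply]
  unfold Cpx.Pi Cpx.nv Cpx.Z
  field_simp
  split_ifs <;> ring

theorem up_eq (h : Fits D g K) {x : E n} (hx : D.R ≤ len x) (i j : Fin n) :
    up g i j x = UM D x i j := by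
  unfold up
  rw [Matrix.inv_eq_right_inv (g_mul_UM h hx)]
  rfl

theorem det_ne (h : Fits D g K) {x : E n} (hx : D.R ≤ len x) : (mat g x).det ≠ 0 := by
  have := congrArg Matrix.det (g_mul_UM h hx)
  rw [Matrix.det_mul, Matrix.det_one] at this
  intro h0
  rw [h0, zero_mul] at this
  exact zero_ne_one this

end Vale.Agent.U1
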