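import Vale.Agent.P366.T2.Amin
import Vale.Agent.P366.T2.U1.Alg

/-! The minimal enclosing area for `U(m)`-invariant data. -/

open MeasureTheory Metric Filter Topology Set
open scoped BigOperators ENNReal ContDiff

noncomputable section
namespace Vale.Agent.U1
open Vale.Agent.P366.Stmt
open Vale.Agent.P366.T2 (Amin_le_general)

variable {n : ℕ} (D : Data n)

/-- the orthonormal frame `x / |x|`, `J x / |x|` -/
def fr (D : Data n) (x : E n) : Matrix (Fin n) (Fin 2) ℝ :=
  Matrix.of fun i a => if a = 0 then x i / len x else D.Q.Y x i / len x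

theorem fr_orth {x : E n} (hx : x ≠ 0) : (fr D x).transpose * fr D x = 1 := by
  have hr : len x ≠ 0 := len_ne hx
  have e0 : ∀ i, fr D x i 0 = x i / len x := fun i => by simp [fr]
  have e1 : ∀ i, fr D x i 1 = D.Q.Y x i / len x := fun i => by simp [fr]
  ext a b
  rw [Matrix.mul_apply, Matrix.one_apply]
  simp only [Matrix.transpose_apply]
  fin_cases a <;> fin_cases b
  · simp only [Fin.zero_eta, e0, if_true]
    have h : ∀ i, x i / len x * (x i / len x) = (x i * x i) / len x ^ 2 := fun i => by ring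
    simp only [h, ← Finset.sum_div, sum_sq]
    exact div_self (pow_ne_zero 2 hr)
  · simp only [Fin.zero_eta, Fin.mk_one, e0, e1]
    have h : ∀ i, x i / len x * (D.Q.Y x i / len x) = (x i * D.Q.Y x i) / len x ^ 2 :=
      fun i => by ring
    simp only [h, ← Finset.sum_div, D.Q.x_Y]
    simp
  · simp only [Fin.zero_eta, Fin.mk_one, e0, e1]
    have h : ∀ i, D.Q.Y x i / len x * (x i / len x) = (D.Q.Y x i * x i) / len x ^ 2 :=
      fun i => by ring
    simp only [h, ← Finset.sum_div, D.Q.Y_x]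
    simp
  · simp only [Fin.mk_one, e1, if_true]
    have h : ∀ i, D.Q.Y x i / len x * (D.Q.Y x i / len x) =
        (D.Q.Y x i * D.Q.Y x i) / len x ^ 2 := fun i => by ring
    simp only [h, ← Finset.sum_div, D.Q.Y_Y]
    exact div_self (pow_ne_zero 2 hr)

/-- the metric in the frame -/
def blk (D : Data n) (r : ℝ) : Matrix (Fin 2) (Fin 2) ℝ :=
  !![D.p r + D.q r * D.be r ^ 2, D.q r * D.be r; D.q r * D.be r, D.q r]

theorem blk_det (r : ℝ) : (blk D r).det = D.p r * D.q r := by
  unfold blk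
  rw [Matrix.det_fin_two_of]
  ring

variable {D} {g K : Field n}

theorem mat_eq (h : Fits D g K) {x : E n} (hx : D.R ≤ len x) :
    mat g x = D.al (len x) • (1 : Matrix (Fin n) (Fin n) ℝ) +
      fr D x * (blk D (len x) - D.al (len x) • 1) * (fr D x).transpose := by
  have hr : len x ≠ 0 := len_ne (ne_zero_of_le hx)
  ext i j
  rw [show mat g x i j = g x i j from rfl, h.hg x hx, Matrix.add_apply,
    Matrix.smul_apply, Matrix.one_apply, Matrix.mul_apply]
  simp only [Matrix.mul_apply, Fin.sum_univ_two, Matrix.transpose_apply, fr, Matrix.of_apply,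
    blk, Matrix.sub_apply, Matrix.smul_apply, Matrix.one_apply, Matrix.cons_val', Matrix.cons_val_zero,
    Matrix.cons_val_one, Matrix.cons_val_fin_one, Fin.isValue, one_ne_zero, if_false, if_true,
    zero_ne_one, smul_eq_mul, mul_zero, sub_zero, mul_one, Cpx.ten, Cpx.Pi, Cpx.Z]
  by_cases hij : i = j
  · simp [hij]
    field_simp
    ring
  · simp [hij]
    field_simp
    ring

theorem det_eq (hn : 2 ≤ n) (h : Fits D g K) {x : E n} (hx : D.R ≤ len x) :
    (mat g x).det = D.al (len x) ^ (n - 2) * (D.p (len x) * D.q (len x)) := by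
  have hx0 := ne_zero_of_le hx
  set r := len x with hrdef
  have hal := D.al_pos r hx
  set a := D.al r with ha
  have h1 : mat g x = a • (1 + (fr D x) * ((a⁻¹ • (blk D r - a • 1)) *
      (fr D x).transpose)) := by
    rw [mat_eq h hx, smul_add, ← hrdef, ← ha]
    congr 1
    rw [Matrix.smul_mul, Matrix.mul_smul, smul_smul, mul_inv_cancel₀ hal.ne', one_smul,
      Matrix.mul_assoc]
  rw [h1, Matrix.det_smul, Fintype.card_fin, Matrix.det_one_add_mul_comm, Matrix.mul_assoc,
    fr_orth D hx0, Matrix.mul_one]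
  have h2 : (1 : Matrix (Fin 2) (Fin 2) ℝ) + a⁻¹ • (blk D r - a • 1) = a⁻¹ • blk D r := by
    rw [smul_sub, smul_smul, inv_mul_cancel₀ hal.ne', one_smul]; abel
  rw [h2, Matrix.det_smul, Fintype.card_fin, blk_det]
  have h5 : a ^ n = a ^ (n - 2) * a ^ 2 := by rw [← pow_add]; congr 1; omega
  rw [h5, inv_pow]
  field_simp

/-- `g(v, v) ≥ p (v·N)²` -/
theorem g_ge (h : Fits D g K) {x : E n} (hx : D.R ≤ len x) (v : Fin n → ℝ) :
    D.p (len x) * (∑ i, v i * (x i / len x)) ^ 2 ≤ ∑ i, ∑ j, g x i j * v i * v j := by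
  have hx0 := ne_zero_of_le hx
  have hr : len x ≠ 0 := len_ne hx0
  have hal := (D.al_pos _ hx).le
  have hq := (D.q_pos _ hx).le
  -- horizontal part
  have hPi : 0 ≤ ∑ i, ∑ j, D.Q.Pi x i j * v i * v j := by
    have : ∑ i, ∑ j, D.Q.Pi x i j * v i * v j = ∑ k, (∑ i, D.Q.Pi x k i * v i) ^ 2 := by
      have e1 : ∀ i j, D.Q.Pi x i j * v i * v j =
          ∑ k, (D.Q.Pi x k i * v i) * (D.Q.Pi x k j * v j) := by
        intro i j
        rw [← D.Q.Pi_Pi hx0 i j]
        rw [Finset.sum_mul, Finset.sum_mul]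
        refine Finset.sum_congr rfl fun k _ => ?_
        rw [D.Q.Pi_symm x i k]; ring
      simp only [e1]
      have e2 : ∀ k, (∑ i, D.Q.Pi x k i * v i) ^ 2 =
          ∑ i, ∑ j, (D.Q.Pi x k i * v i) * (D.Q.Pi x k j * v j) := by
        intro k; rw [sq, Finset.sum_mul_sum]
      simp only [e2]
      calc ∑ i, ∑ j, ∑ k, D.Q.Pi x k i * v i * (D.Q.Pi x k j * v j)
          = ∑ i, ∑ k, ∑ j, D.Q.Pi x k i * v i * (D.Q.Pi x k j * v j) :=
            Finset.sum_congr rfl fun i _ => Finset.sum_comm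
        _ = ∑ k, ∑ i, ∑ j, D.Q.Pi x k i * v i * (D.Q.Pi x k j * v j) := Finset.sum_comm
    rw [this]
    exact Finset.sum_nonneg fun k _ => sq_nonneg _
  set y : ℝ := ∑ i, v i * (D.Q.Z D.be x i / len x) with hy
  have hdec : ∑ i, ∑ j, g x i j * v i * v j =
      D.al (len x) * (∑ i, ∑ j, D.Q.Pi x i j * v i * v j) +
      D.p (len x) * (∑ i, v i * (x i / len x)) ^ 2 + D.q (len x) * y ^ 2 := by
    have e0 : ∀ i j, g x i j * v i * v j =
        D.al (len x) * (D.Q.Pi x i j * v i * v j) +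
        D.p (len x) * ((v i * (x i / len x)) * (v j * (x j / len x))) +
        D.q (len x) * ((v i * (D.Q.Z D.be x i / len x)) * (v j * (D.Q.Z D.be x j / len x))) := by
      intro i j
      rw [h.hg x hx]
      unfold Cpx.ten
      field_simp
      ring
    simp only [e0, Finset.sum_add_distrib]
    congr 1
    · congr 1
      · simp only [Finset.mul_sum]
      · rw [sq, Finset.sum_mul_sum, Finset.mul_sum]
        refine Finset.sum_congr rfl fun i _ => ?_
        rw [Finset.mul_sum]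
    · rw [hy, sq, Finset.sum_mul_sum, Finset.mul_sum]
      refine Finset.sum_congr rfl fun i _ => ?_
      rw [Finset.mul_sum]
  rw [hdec]
  have := mul_nonneg hal hPi
  have h3 : 0 ≤ D.q (len x) * y ^ 2 := by positivity
  linarith

/-- **Block [C-C2].** -/
theorem Amin_le (hn : 2 ≤ n) {X : Exterior n} (h : Fits D X.g X.K)
    (hR : IsGreatest {r | ∃ x, X.F x = 0 ∧ len x = r} D.R) {r : ℝ} (hr : D.R ≤ r) :
    X.Amin ≤ ENNReal.ofReal (omega n * D.ar r) := by
  have hr0 : 0 < r := D.hR.trans_le hr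
  have hal := D.al_pos r hr
  have hp := D.p_pos r hr
  have hq := D.q_pos r hr
  have hA : ∀ x : E n, ‖x‖ = r → ∀ v : Fin n → ℝ, ∑ i, ∑ j, X.g x i j * v i * v j ≤ 1 →
      -(√((mat X.g x).det) * ∑ i, v i * (x i / ‖x‖)) ≤
        √(D.al r ^ (n - 2) * D.q r) := by
    intro x hx v hv
    have hlen : len x = r := hx
    have hxR : D.R ≤ len x := by rw [hlen]; exact hr
    have h1 := (g_ge h hxR v).trans hv
    rw [det_eq hn h hxR]
    rw [hlen] at h1 ⊢
    rw [show ‖x‖ = r from hx]
    set t := ∑ i, v i * (x i / r) with ht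
    have h2 : √(D.al r ^ (n - 2) * (D.p r * D.q r)) =
        √(D.al r ^ (n - 2) * D.q r) * √(D.p r) := by
      rw [← Real.sqrt_mul (by positivity)]
      congr 1; ring
    have h3 : √(D.p r) * |t| ≤ 1 := by
      have : (√(D.p r) * |t|) ^ 2 ≤ 1 := by
        rw [mul_pow, Real.sq_sqrt hp.le, sq_abs]; exact h1
      have h0 : 0 ≤ √(D.p r) * |t| := by positivity
      nlinarith
    calc -(√(D.al r ^ (n - 2) * (D.p r * D.q r)) * t)
        = √(D.al r ^ (n - 2) * D.q r) * (√(D.p r) * (-t)) := by rw [h2]; ring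
      _ ≤ √(D.al r ^ (n - 2) * D.q r) * (√(D.p r) * |t|) := by
          gcongr
          exact neg_le_abs t
      _ ≤ √(D.al r ^ (n - 2) * D.q r) * 1 := by gcongr
      _ = _ := mul_one _
  have h1 := Amin_le_general hn X hR hr hA
  refine h1.trans (le_of_eq ?_)
  rw [Vale.Agent.P366.omega_eq]
  congr 2
  unfold Data.ar Data.Yb Data.Yf Data.b
  rw [Real.sqrt_mul (by positivity), Real.sqrt_mul (by positivity), Real.sqrt_sq hr0.le]
  have e3 : √(D.al r ^ (n - 2)) = D.al r ^ (((n : ℝ) - 2) / 2) := by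
    rw [Real.sqrt_eq_rpow, ← Real.rpow_natCast, ← Real.rpow_mul hal.le]
    congr 1
    rw [Nat.cast_sub hn]
    push_cast
    ring
  have e4 : (r ^ 2 * D.al r) ^ (((n : ℝ) - 2) / 2) = r ^ (n - 2) * D.al r ^ (((n : ℝ) - 2) / 2) := by
    rw [Real.mul_rpow (by positivity) hal.le]
    congr 1
    rw [← Real.rpow_natCast r 2, ← Real.rpow_mul hr0.le, ← Real.rpow_natCast r (n - 2)]
    congr 1
    rw [Nat.cast_sub hn]
    push_cast
    ring
  rw [e3, e4]
  have e5 : r ^ (n - 1) = r * r ^ (n - 2) := by rw [← pow_succ']; congr 1; omega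
  rw [e5]
  ring

end Vale.Agent.U1
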