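import Vale.Agent.P366.T2.U1.C68

/-! The dominant energy condition for `U(m)`-invariant data. -/

open MeasureTheory Metric Filter Topology Set
open scoped ContDiff ENNReal

noncomputable section
namespace Vale.Agent.U1
open Vale.Agent.P366.Stmt
open Vale.Agent.P366.T2 (HP hasFDerivAt_len Lg)
open Vale.Agent.Mom68 B68

variable {n : ℕ} {D : Data n} {g K : Field n}

namespace B68

/-- the radial function of `W` -/
def ph (D : Data n) (r : ℝ) : ℝ := D.k r * D.be r + D.v r / D.q r

lemma ph_diff {r : ℝ} (hr : D.R ≤ r) : DifferentiableAt ℝ (ph D) r := by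
  unfold ph
  refine ((D.k_diff hr).mul (hasDeriv D.be_smooth r).differentiableAt).add ?_
  exact (hasDeriv D.v_smooth r).differentiableAt.div (hasDeriv D.q_smooth r).differentiableAt
    (D.q_pos r hr).ne'

lemma div_W (h : Fits D g K) {x : E n} (hx : D.R < len x) :
    ∑ k, pd k (WX g K (D.Q.nv D.be) k) x =
      -(len x * deriv D.k (len x) + n * D.k (len x)) := by
  have hx0 := ne_zero_of_le hx.le
  have hr : 0 < len x := len_pos hx0
  have h1 : ∀ k, pd k (WX g K (D.Q.nv D.be) k) x =
      -(deriv D.k (len x) / len x * (x k * x k)) - D.k (len x) +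
      (deriv (ph D) (len x) / len x * (x k * D.Q.Y x k) + ph D (len x) * D.Q.J k k) := by
    intro k
    have h2 : HP k (fun y => -D.k (len y) * y k + ph D (len y) * D.Q.Y y k) _ x :=
      ((HP.radial hx0 (D.k_diff hx.le).hasDerivAt k).neg.mul (HP.coord k k x)).add
        ((HP.radial hx0 (ph_diff hx.le).hasDerivAt k).mul (HP_Y D.Q k k x))
    have h3 : (WX g K (D.Q.nv D.be) k) =ᶠ[𝓝 x]
        (fun y => -D.k (len y) * y k + ph D (len y) * D.Q.Y y k) := by
      filter_upwards [near hx] with y hy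
      exact WX_eq h hy k
    rw [(h2.congr h3).pd]
    simp only [if_true]
    ring
  simp only [h1, Finset.sum_add_distrib, Finset.sum_sub_distrib, Finset.sum_neg_distrib]
  rw [← Finset.mul_sum, sum_sq, ← Finset.mul_sum, ← Finset.mul_sum, D.Q.x_Y, D.Q.trace_J]
  simp
  field_simp
  ring

/-- logarithmic derivative of the volume density -/
def Lm (D : Data n) (r : ℝ) : ℝ := ((n : ℝ) - 2) * deriv D.al r / D.al r +
  deriv D.p r / D.p r + deriv D.q r / D.q r

lemma L_W (h : Fits D g K) {x : E n} (hx : D.R < len x) :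
    ∑ k, Lg g k x * WX g K (D.Q.nv D.be) k x =
      -(1 / 2) * len x * D.k (len x) * Lm D (len x) := by
  have hx0 := ne_zero_of_le hx.le
  have hr : 0 < len x := len_pos hx0
  have h1 : ∀ k, Lg g k x * WX g K (D.Q.nv D.be) k x =
      (1 / 2) / len x * Lm D (len x) *
        (-D.k (len x) * (x k * x k) + ph D (len x) * (x k * D.Q.Y x k)) := by
    intro k
    rw [L_eq h hx, WX_eq h hx.le]
    unfold Lm ph
    ring
  simp only [h1, ← Finset.mul_sum, Finset.sum_add_distrib]
  rw [sum_sq, D.Q.x_Y]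
  field_simp
  ring

/-- the contraction of `π` with the Lie derivative -/
lemma P_Lie (h : Fits D g K) {x : E n} (hx : D.R < len x) :
    ∑ k, ∑ m, Pu g K k m x * Lie g (D.Q.nv D.be) k m x =
      ((n : ℝ) - 2) * ((D.ka (len x) - (D.k (len x) + D.KN (len x)) * D.al (len x)) /
        D.al (len x)) * ((len x * deriv D.al (len x) + 2 * D.al (len x)) / D.al (len x)) -
      D.k (len x) * ((len x * deriv D.p (len x) + 2 * D.p (len x)) / D.p (len x)) +
      ((D.s (len x) - (D.k (len x) + D.KN (len x)) * D.q (len x)) / D.q (len x)) *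
        ((len x * deriv D.q (len x) + 2 * D.q (len x)) / D.q (len x)) := by
  have hx0 := ne_zero_of_le hx.le
  have hp := (D.p_pos _ hx.le).ne'
  have hLs : ∀ k m, Lie g (D.Q.nv D.be) k m x = Lie g (D.Q.nv D.be) m k x := by
    intro k m
    rw [Lie_eq h hx, Lie_eq h hx, D.Q.ten_symm]
  have h1 : ∑ k, ∑ m, Pu g K k m x * Lie g (D.Q.nv D.be) k m x =
      ∑ k, ∑ l, (∑ i, up g k i x * momT g K x i l) * (∑ m, up g l m x *
        Lie g (D.Q.nv D.be) m k x) := by
    refine Finset.sum_congr rfl fun k _ => ?_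
    unfold Pu
    simp only [Finset.mul_sum, Finset.sum_mul]
    calc ∑ m, ∑ i, ∑ l, up g k i x * (momT g K x i l * up g l m x) * Lie g (D.Q.nv D.be) k m x
        = ∑ m, ∑ l, ∑ i, up g k i x * (momT g K x i l * up g l m x) *
          Lie g (D.Q.nv D.be) k m x :=
          Finset.sum_congr rfl fun m _ => Finset.sum_comm
      _ = ∑ l, ∑ m, ∑ i, up g k i x * (momT g K x i l * up g l m x) *
          Lie g (D.Q.nv D.be) k m x :=
          Finset.sum_comm
      _ = _ := by
        refine Finset.sum_congr rfl fun l _ => Finset.sum_congr rfl fun m _ =>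
          Finset.sum_congr rfl fun i _ => ?_
        rw [hLs k m]
        ring
  rw [h1]
  simp only [Lie_eq h hx, pi_ten h hx.le, UT h hx.le, mt_mul hx0, mt_trace hx0]
  field_simp
  ring

lemma yb_form {r : ℝ} (hr : D.R ≤ r) : D.yb r = 1 / r + deriv D.al r / (2 * D.al r) := by
  have hr0 : 0 < r := lt_of_lt_of_le D.hR hr
  have hal := D.al_pos r hr
  have hsq : HasDerivAt (fun t : ℝ => t ^ 2) (2 * r) r := by
    simpa using hasDerivAt_pow 2 r
  have h1 : deriv D.Yb r = 2 * r * D.al r + r ^ 2 * deriv D.al r :=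
    (hsq.mul (hasDeriv D.al_smooth r)).deriv
  unfold Data.yb
  rw [h1]
  unfold Data.Yb
  field_simp

lemma yf_form {r : ℝ} (hr : D.R ≤ r) : D.yf r = 1 / r + deriv D.q r / (2 * D.q r) := by
  have hr0 : 0 < r := lt_of_lt_of_le D.hR hr
  have hal := D.q_pos r hr
  have hsq : HasDerivAt (fun t : ℝ => t ^ 2) (2 * r) r := by
    simpa using hasDerivAt_pow 2 r
  have h1 : deriv D.Yf r = 2 * r * D.q r + r ^ 2 * deriv D.q r :=
    (hsq.mul (hasDeriv D.q_smooth r)).deriv
  unfold Data.yf
  rw [h1]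
  unfold Data.Yf
  field_simp

end B68

theorem mom_eq (h : Fits D g K) {x : E n} (hx : D.R < len x) :
    ∑ j, D.Q.nv D.be j x / len x * mom g K j x = D.lp (len x) * D.JN (len x) := by
  have hx0 := ne_zero_of_le hx.le
  have hr : 0 < len x := len_pos hx0
  have hc := (D.lp_pos hx.le).ne'
  have hp := (D.p_pos _ hx.le).ne'
  have hal := (D.al_pos _ hx.le).ne'
  have hq := (D.q_pos _ hx.le).ne'
  have h1 : ∑ j, D.Q.nv D.be j x / len x * mom g K j x =
      (1 / len x) * ∑ j, D.Q.nv D.be j x * mom g K j x := by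
    rw [Finset.mul_sum]
    exact Finset.sum_congr rfl fun j _ => by ring
  have hlen : Continuous fun y : E n => len y := continuous_norm
  have hU : IsOpen {y : E n | D.R < len y} := isOpen_lt continuous_const hlen
  have hdiff : ∀ j, DifferentiableAt ℝ (D.Q.nv D.be j) x := fun j => by
    unfold Cpx.nv
    refine (Vale.Agent.C92.diff_coord j x).fun_sub ?_
    refine (Vale.Agent.C92.diff_radial hx0
      (D.be_smooth.differentiable (by norm_num) _)).fun_mul ?_
    unfold Cpx.Y
    exact DifferentiableAt.fun_sum fun i _ => (Vale.Agent.C92.diff_coord i x).const_mul _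
  have h2 := mom_X hU (fun i j => (h.smooth i j).1) (fun i j => (h.smooth i j).2)
    (fun y hy i j => g_symm h (le_of_lt hy) i j) (fun y hy i j => K_symm h (le_of_lt hy) i j)
    (fun y hy => det_ne h (le_of_lt hy)) (X := D.Q.nv D.be) (x := x) hx hdiff
  have h3 : D.lp (len x) * D.JN (len x) = D.lp (len x) * D.H (len x) * D.KN (len x) -
      D.lp (len x) * D.IIK (len x) - deriv D.k (len x) := by
    unfold Data.JN
    field_simp
  have h4 : D.lp (len x) * D.IIK (len x) =
      D.b * D.yb (len x) * (D.ka (len x) / D.al (len x)) +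
        D.yf (len x) * (D.s (len x) / D.q (len x)) := by
    unfold Data.IIK
    rw [mul_div_cancel₀ _ hc]
  have h5 : D.lp (len x) * D.H (len x) = D.b * D.yb (len x) + D.yf (len x) := by
    unfold Data.H
    rw [mul_div_cancel₀ _ hc]
  rw [h1, h2, h3, h4, h5, div_W h hx, L_W h hx, P_Lie h hx, yb_form hx.le, yf_form hx.le]
  have h6 : D.k (len x) = D.b * (D.ka (len x) / D.al (len x)) + D.s (len x) / D.q (len x) := rfl
  have h7 : D.s (len x) = (D.k (len x) - D.b * (D.ka (len x) / D.al (len x))) *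
      D.q (len x) := by
    rw [h6]
    field_simp
    ring
  rw [h7]
  unfold Lm Data.b
  field_simp
  ring

lemma Pi_nonneg (Q : Cpx n) {x : E n} (hx : x ≠ 0) (w : Fin n → ℝ) :
    0 ≤ ∑ i, ∑ j, Q.Pi x i j * (w i * w j) := by
  have h1 : ∑ i, ∑ j, Q.Pi x i j * (w i * w j) = ∑ k, (∑ i, Q.Pi x k i * w i) ^ 2 := by
    have e1 : ∀ k, (∑ i, Q.Pi x k i * w i) ^ 2 =
        ∑ i, ∑ j, (Q.Pi x i k * Q.Pi x k j) * (w i * w j) := by
      intro k
      rw [sq, Finset.sum_mul_sum]
      refine Finset.sum_congr rfl fun i _ => Finset.sum_congr rfl fun j _ => ?_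
      rw [Q.Pi_symm x k i]
      ring
    simp only [e1]
    symm
    rw [Finset.sum_comm]
    refine Finset.sum_congr rfl fun i _ => ?_
    rw [Finset.sum_comm]
    refine Finset.sum_congr rfl fun j _ => ?_
    rw [← Finset.sum_mul, Q.Pi_Pi hx]
  rw [h1]
  exact Finset.sum_nonneg fun k _ => sq_nonneg _

lemma U_ww (h : Fits D g K) {x : E n} (hx : D.R ≤ len x) (w : Fin n → ℝ) :
    (∑ i, D.Q.nv D.be i x * w i) ^ 2 / (D.p (len x) * len x ^ 2) ≤
      ∑ i, ∑ j, up g i j x * w i * w j := by
  have hx0 := ne_zero_of_le hx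
  have hr : 0 < len x := D.hR.trans_le hx
  have hp := D.p_pos _ hx
  have hal := D.al_pos _ hx
  have hq := D.q_pos _ hx
  have h1 : ∑ i, ∑ j, up g i j x * w i * w j =
      1 / D.al (len x) * (∑ i, ∑ j, D.Q.Pi x i j * (w i * w j)) +
      (∑ i, D.Q.nv D.be i x * w i) ^ 2 / (D.p (len x) * len x ^ 2) +
      (∑ i, D.Q.Y x i * w i) ^ 2 / (D.q (len x) * len x ^ 2) := by
    have e1 : ∀ i j, up g i j x * w i * w j =
        1 / D.al (len x) * (D.Q.Pi x i j * (w i * w j)) +
        1 / (D.p (len x) * len x ^ 2) * ((D.Q.nv D.be i x * w i) * (D.Q.nv D.be j x * w j)) +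
        1 / (D.q (len x) * len x ^ 2) * ((D.Q.Y x i * w i) * (D.Q.Y x j * w j)) := by
      intro i j
      rw [up_eq h hx, UM]
      field_simp
      ring
    simp only [e1, Finset.sum_add_distrib]
    congr 1
    · congr 1
      · simp only [Finset.mul_sum]
      · rw [sq (∑ i, D.Q.nv D.be i x * w i), Finset.sum_mul_sum, Finset.sum_div]
        refine Finset.sum_congr rfl fun i _ => ?_
        rw [Finset.sum_div]
        exact Finset.sum_congr rfl fun j _ => by ring
    · rw [sq (∑ i, D.Q.Y x i * w i), Finset.sum_mul_sum, Finset.sum_div]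
      refine Finset.sum_congr rfl fun i _ => ?_
      rw [Finset.sum_div]
      exact Finset.sum_congr rfl fun j _ => by ring
  rw [h1]
  have h2 := Pi_nonneg D.Q hx0 w
  have h4 : 0 ≤ 1 / D.al (len x) * (∑ i, ∑ j, D.Q.Pi x i j * (w i * w j)) := by positivity
  have h5 : 0 ≤ (∑ i, D.Q.Y x i * w i) ^ 2 / (D.q (len x) * len x ^ 2) := by positivity
  linarith

theorem mu_eq (h : Fits D g K) {x : E n} (hx : D.R ≤ len x)
    (hs : scal g x = D.Rg (len x)) : mu g K x = D.mu (len x) := by
  unfold mu Data.mu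
  rw [hs, B68.tr_eq h hx, B68.normSq_eq h hx]
  ring

/-- **Block C-B** -/
theorem dec_eq (h : Fits D g K) {x : E n} (hx : D.R < len x)
    (hD : covNorm g (mom g K) x ≤ mu g K x) (hs : scal g x = D.Rg (len x)) :
    |D.JN (len x)| ≤ D.mu (len x) := by
  have hx0 := ne_zero_of_le hx.le
  have hr : 0 < len x := len_pos hx0
  have hp := D.p_pos _ hx.le
  have hc := D.lp_pos hx.le
  rw [← mu_eq h hx.le hs]
  refine le_trans ?_ hD
  unfold covNorm
  refine Real.abs_le_sqrt ?_
  refine le_trans (le_of_eq ?_) (U_ww h hx.le (fun j => mom g K j x))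
  have h1 := mom_eq h hx
  have h2 : ∑ j, D.Q.nv D.be j x * mom g K j x = len x * (D.lp (len x) * D.JN (len x)) := by
    rw [← h1, Finset.mul_sum]
    refine Finset.sum_congr rfl fun j _ => ?_
    field_simp
  rw [h2]
  have h3 : D.lp (len x) ^ 2 = D.p (len x) := D.lp_sq hx.le
  rw [← h3]
  field_simp

end Vale.Agent.U1
end
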