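import Vale.Agent.P366.T2.U1.E765b

/-! Asymptotics of `U(m)`-invariant asymptotically flat data. -/

open MeasureTheory Metric Filter Topology Set Asymptotics
open scoped ContDiff ENNReal

noncomputable section
namespace Vale.Agent.P366.T2.U1E
open Vale.Agent.P366.T2.E68 (O0 O1 O2)
open Vale.Agent.U1 (Cpx)

variable {n : ℕ} {D : U1.Data n} {g K : Stmt.Field n}

/-! ### the energy -/

lemma gx (h : U1.Fits D g K) {x : E n} (hx : D.R ≤ ‖x‖) (i : Fin n) :
    ∑ j, g x i j * x j = pG D ‖x‖ * x i + wG D ‖x‖ * D.Q.Y x i := by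
  have h1 := D.Q.ten_nv (U1.ne_zero_of_le hx) (fun _ => 0) D.al (pG D) (wG D) D.q i
  simp only [Cpx.nv, Cpx.Z, zero_mul, sub_zero, add_zero] at h1
  refine Eq.trans ?_ h1
  exact Finset.sum_congr rfl fun j _ => by rw [g_ten h hx i j]

lemma trg (h : U1.Fits D g K) {x : E n} (hx : D.R ≤ ‖x‖) :
    ∑ j, g x j j = tau D ‖x‖ + pG D ‖x‖ := by
  have h1 := ten_tr D.Q D.al (pG D) (wG D) D.q (U1.ne_zero_of_le hx)
  have h2 : ∑ j, g x j j = ∑ j, D.Q.ten (fun _ => 0) D.al (pG D) (wG D) D.q x j j :=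
    Finset.sum_congr rfl fun j _ => g_ten h hx j j
  rw [h2, h1]
  unfold tau
  rw [show ‖x‖ = Stmt.len x from rfl]
  ring

/-- The ADM energy integrand on the spheres. -/
lemma energy_pointwise (h : U1.Fits D g K) {x : E n} (hx : D.R < ‖x‖) :
    ∑ i, ∑ j, (pd j (fun y => Stmt.mat g y i j) x - pd i (fun y => Stmt.mat g y j j) x) *
      (x i / ‖x‖) = (((n : ℝ) - 1) * pG D ‖x‖ - tau D ‖x‖) / ‖x‖ - deriv (tau D) ‖x‖ := by
  have hr : 0 < ‖x‖ := D.hR.trans hx
  have hx0 : x ≠ 0 := norm_pos_iff.mp hr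
  have hgd : ∀ i j, DifferentiableAt ℝ (fun y => Stmt.mat g y i j) x := fun i j =>
    ((h.smooth i j).1.differentiable (by norm_num)) x
  have hcd : ∀ i, DifferentiableAt ℝ (fun y : E n => y i) x := fun i =>
    (EuclideanSpace.proj (𝕜 := ℝ) i).differentiableAt
  have hnear : ∀ᶠ y in 𝓝 x, D.R ≤ ‖y‖ := by
    filter_upwards [(isOpen_outside (n := n) D.R).mem_nhds hx] with y hy
    exact le_of_lt hy
  have hpd : DifferentiableAt ℝ (pG D) ‖x‖ := ((pG_smooth D).differentiable (by norm_num)) _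
  have hwd : DifferentiableAt ℝ (wG D) ‖x‖ := ((wG_smooth D).differentiable (by norm_num)) _
  have htd : DifferentiableAt ℝ (tau D) ‖x‖ := ((tau_smooth D).differentiable (by norm_num)) _
  have hYd : ∀ j, DifferentiableAt ℝ (fun y : E n => D.Q.Y y j) x := fun j => by
    unfold Cpx.Y
    exact DifferentiableAt.fun_sum fun k _ => (hcd k).const_mul _
  have hYp : ∀ j, pd j (fun y : E n => D.Q.Y y j) x = 0 := by
    intro j
    have h5 : pd j (fun y : E n => D.Q.Y y j) x = D.Q.J j j := by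
      unfold Cpx.Y
      rw [pd_sum _ (fun k _ => (hcd k).const_mul _)]
      have : ∀ k, pd j (fun y : E n => D.Q.J j k * y k) x =
          D.Q.J j k * (if j = k then 1 else 0) := by
        intro k
        rw [pd_mul (differentiableAt_const _) (hcd k), pd_coord]
        have : pd j (fun _ : E n => D.Q.J j k) x = 0 := by
          unfold pd; simp
        rw [this]; ring
      simp only [this]
      simp
    rw [h5, D.Q.diag]
  -- (A)
  have hA : ∀ j, ∑ i, (pd j (fun y => Stmt.mat g y i j) x * x i) + g x j j =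
      deriv (pG D) ‖x‖ * Nc j x * x j + pG D ‖x‖ +
        deriv (wG D) ‖x‖ * Nc j x * D.Q.Y x j := by
    intro j
    have h1 : (fun y : E n => ∑ i, Stmt.mat g y i j * y i) =ᶠ[𝓝 x] fun y => pG D ‖y‖ * y j +
        wG D ‖y‖ * D.Q.Y y j := by
      filter_upwards [hnear] with y hy
      rw [← gx h hy j]
      exact Finset.sum_congr rfl fun i _ => by
        rw [show Stmt.mat g y i j = g y i j from rfl, g_symm h hy i j]
    have h2 := pd_congr h1 j
    have hsd : DifferentiableAt ℝ (fun y : E n => wG D ‖y‖ * D.Q.Y y j) x :=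
      (differentiableAt_radial hx0 hwd).mul (hYd j)
    rw [pd_sum (f := fun i y => Stmt.mat g y i j * y i) Finset.univ
      (fun i _ => (hgd i j).mul (hcd i)),
      pd_add (f := fun y => pG D ‖y‖ * y j)
        (h := fun y => wG D ‖y‖ * D.Q.Y y j)
        ((differentiableAt_radial hx0 hpd).mul (hcd j)) hsd,
      pd_mul (differentiableAt_radial hx0 hpd) (hcd j), Vale.Agent.P366.pd_radial hx0 hpd, pd_coord,
      pd_mul (differentiableAt_radial hx0 hwd) (hYd j), Vale.Agent.P366.pd_radial hx0 hwd, hYp] at h2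
    simp only [if_true, mul_one, mul_zero, zero_add] at h2
    have h3 : ∀ i, pd j (fun y => Stmt.mat g y i j * y i) x =
        Stmt.mat g x i j * (if j = i then 1 else 0) + pd j (fun y => Stmt.mat g y i j) x * x i := by
      intro i
      rw [pd_mul (hgd i j) (hcd i), pd_coord]
    simp only [h3, Finset.sum_add_distrib, mul_ite, mul_one, mul_zero, Finset.sum_ite_eq,
      Finset.mem_univ, if_true] at h2
    rw [show g x j j = Stmt.mat g x j j from rfl]
    linarith
  -- (B)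
  have hB : ∀ i, ∑ j, pd i (fun y => Stmt.mat g y j j) x =
      (deriv (tau D) ‖x‖ + deriv (pG D) ‖x‖) * Nc i x := by
    intro i
    have h1 : (fun y : E n => ∑ j, Stmt.mat g y j j) =ᶠ[𝓝 x]
        fun y => tau D ‖y‖ + pG D ‖y‖ := by
      filter_upwards [hnear] with y hy
      exact trg h hy
    have h2 := pd_congr h1 i
    rw [pd_sum _ (fun j _ => hgd j j), pd_add (differentiableAt_radial hx0 htd)
      (differentiableAt_radial hx0 hpd), Vale.Agent.P366.pd_radial hx0 hpd,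
      Vale.Agent.P366.pd_radial hx0 htd] at h2
    rw [h2]; ring
  have hS : ∑ j, (deriv (pG D) ‖x‖ * Nc j x * x j + pG D ‖x‖ +
        deriv (wG D) ‖x‖ * Nc j x * D.Q.Y x j) =
      deriv (pG D) ‖x‖ * ‖x‖ + n * pG D ‖x‖ := by
    have h1 : ∀ j, deriv (pG D) ‖x‖ * Nc j x * x j + pG D ‖x‖ =
        deriv (pG D) ‖x‖ * ‖x‖ * Nc j x ^ 2 + pG D ‖x‖ := by
      intro j
      unfold Nc
      field_simp
    have h5 : ∑ j, deriv (wG D) ‖x‖ * Nc j x * D.Q.Y x j = 0 := by
      have h6 : ∀ j, deriv (wG D) ‖x‖ * Nc j x * D.Q.Y x j =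
          deriv (wG D) ‖x‖ / ‖x‖ * (x j * D.Q.Y x j) := by
        intro j
        unfold Nc
        ring
      simp only [h6, ← Finset.mul_sum]
      rw [show ∑ j, x j * D.Q.Y x j = 0 from D.Q.x_Y x, mul_zero]
    rw [Finset.sum_add_distrib, h5, add_zero]
    simp only [h1, Finset.sum_add_distrib]
    rw [← Finset.mul_sum, sum_Nc_sq hx0]
    simp
  have hT : ∑ i, ∑ j, pd j (fun y => Stmt.mat g y i j) x * x i =
      deriv (pG D) ‖x‖ * ‖x‖ + n * pG D ‖x‖ - (tau D ‖x‖ + pG D ‖x‖) := by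
    rw [Finset.sum_comm, ← hS, ← trg h hx.le, ← Finset.sum_sub_distrib]
    refine Finset.sum_congr rfl fun j _ => ?_
    have := hA j
    linarith
  have hU : ∑ i, ∑ j, pd i (fun y => Stmt.mat g y j j) x * x i =
      (deriv (tau D) ‖x‖ + deriv (pG D) ‖x‖) * ‖x‖ := by
    have h1 : ∀ i, ∑ j, pd i (fun y => Stmt.mat g y j j) x * x i =
        (deriv (tau D) ‖x‖ + deriv (pG D) ‖x‖) * ‖x‖ * Nc i x ^ 2 := by
      intro i
      rw [← Finset.sum_mul, hB i]
      unfold Nc
      field_simp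
    simp only [h1]
    rw [← Finset.mul_sum, sum_Nc_sq hx0, mul_one]
  have hV : ∑ i, ∑ j, (pd j (fun y => Stmt.mat g y i j) x - pd i (fun y => Stmt.mat g y j j) x) *
      (x i / ‖x‖) = (∑ i, ∑ j, pd j (fun y => Stmt.mat g y i j) x * x i -
        ∑ i, ∑ j, pd i (fun y => Stmt.mat g y j j) x * x i) / ‖x‖ := by
    rw [← Finset.sum_sub_distrib, Finset.sum_div]
    refine Finset.sum_congr rfl fun i _ => ?_
    rw [← Finset.sum_sub_distrib, Finset.sum_div]
    refine Finset.sum_congr rfl fun j _ => ?_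
    ring
  rw [hV, hT, hU]
  field_simp
  ring

/-- The ADM energy as a limit of a radial expression. -/
lemma energy_lim (hn : 3 ≤ n) {X : Stmt.Exterior n} (h : U1.Fits D X.g X.K) {m : ℝ}
    (hm : X.IsEnergy m) :
    Tendsto (fun r : ℝ => r ^ (n - 1) *
      ((((n : ℝ) - 1) * pG D r - tau D r) / r - deriv (tau D) r)) atTop
      (𝓝 (2 * ((n : ℝ) - 1) * m)) := by
  have : Nonempty (Fin n) := ⟨⟨0, by omega⟩⟩
  have : Nontrivial (E n) := inferInstance
  have hn1 : (n : ℝ) - 1 ≠ 0 := by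
    have : (3 : ℝ) ≤ n := by exact_mod_cast hn
    intro h; linarith
  have hω : omega n ≠ 0 := omega_pos'.ne'
  have h1 := energy_bridge X hm
  have h2 : Tendsto (fun R : ℝ => R ^ (n - 1) *
      ((((n : ℝ) - 1) * pG D R - tau D R) / R - deriv (tau D) R) / (2 * ((n : ℝ) - 1))) atTop
      (𝓝 m) := by
    refine h1.congr' ?_
    filter_upwards [eventually_gt_atTop D.R] with R hR
    have hR0 : 0 < R := D.hR.trans hR
    have h3 : sphInt R (fun x =>
        ∑ i, ∑ j, (pd j (fun y => Stmt.mat X.g y i j) x - pd i (fun y => Stmt.mat X.g y j j) x) *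
          (x i / ‖x‖)) = R ^ (n - 1) * sphI (fun _ : E n =>
          ((((n : ℝ) - 1) * pG D R - tau D R) / R - deriv (tau D) R)) R := by
      unfold sphInt
      congr 1
      refine sphI_congr (u := fun x : E n => ∑ i, ∑ j, (pd j (fun y => Stmt.mat X.g y i j) x -
        pd i (fun y => Stmt.mat X.g y j j) x) * (x i / ‖x‖)) hR0.le fun x hx => ?_
      rw [energy_pointwise h (by rw [hx]; exact hR), hx]
    rw [h3, sphI_const]
    field_simp
  have h4 := h2.const_mul (2 * ((n : ℝ) - 1))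
  refine h4.congr fun R => ?_
  field_simp

/-! ### the mass -/

/-- rescaled area -/
def kap (D : U1.Data n) (r : ℝ) : ℝ :=
  (√(D.q r) * D.al r ^ (((n : ℝ) - 2) / 2)) ^ (((n : ℝ) - 2) / ((n : ℝ) - 1))

/-- rescaled super-potential -/
def ell (D : U1.Data n) (r : ℝ) : ℝ := ((n : ℝ) - 2 + 2) / 4 * (D.q r) ^ (-(1 / 2) : ℝ) +
  ((n : ℝ) - 2) / 4 * ((D.q r) ^ ((1 / 2) : ℝ) * (1 / D.al r))

/-- rescaled mean curvature -/
def yy (D : U1.Data n) (r : ℝ) : ℝ :=
  r / 2 * (((n : ℝ) - 2) * (deriv D.al r / D.al r) + deriv D.q r / D.q r)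

lemma kap_lim (ha : Tendsto D.al atTop (𝓝 1)) (hq : Tendsto D.q atTop (𝓝 1)) :
    Tendsto (kap D) atTop (𝓝 1) := by
  have h1 : Tendsto (fun r => √(D.q r) * D.al r ^ (((n : ℝ) - 2) / 2)) atTop
      (𝓝 (√1 * 1 ^ (((n : ℝ) - 2) / 2))) :=
    hq.sqrt.mul (ha.rpow_const (Or.inl one_ne_zero))
  rw [Real.sqrt_one, Real.one_rpow, one_mul] at h1
  have h2 := h1.rpow_const (p := ((n : ℝ) - 2) / ((n : ℝ) - 1)) (Or.inl one_ne_zero)
  rwa [Real.one_rpow] at h2

lemma yb_eq {r : ℝ} (hr : D.R ≤ r) : D.yb r = 1 / r + deriv D.al r / D.al r / 2 := by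
  have hr0 : 0 < r := D.hR.trans_le hr
  have ha := D.al_pos r hr
  have h1 : HasDerivAt D.Yb (2 * r * D.al r + r ^ 2 * deriv D.al r) r := by
    have hsq : HasDerivAt (fun t : ℝ => t ^ 2) (2 * r) r := by
      simpa using hasDerivAt_pow 2 r
    exact hsq.fun_mul (U1.hasDeriv D.al_smooth r)
  unfold U1.Data.yb
  rw [h1.deriv]
  unfold U1.Data.Yb
  field_simp

lemma yf_eq {r : ℝ} (hr : D.R ≤ r) : D.yf r = 1 / r + deriv D.q r / D.q r / 2 := by
  have hr0 : 0 < r := D.hR.trans_le hr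
  have ha := D.q_pos r hr
  have h1 : HasDerivAt D.Yf (2 * r * D.q r + r ^ 2 * deriv D.q r) r := by
    have hsq : HasDerivAt (fun t : ℝ => t ^ 2) (2 * r) r := by
      simpa using hasDerivAt_pow 2 r
    exact hsq.fun_mul (U1.hasDeriv D.q_smooth r)
  unfold U1.Data.yf
  rw [h1.deriv]
  unfold U1.Data.Yf
  field_simp

lemma H_yy {r : ℝ} (hr : D.R ≤ r) :
    D.H r = (((n : ℝ) - 1 + yy D r) / √(D.p r)) / r := by
  have hr0 : 0 < r := D.hR.trans_le hr
  have hlp := D.lp_pos hr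
  unfold U1.Data.H
  rw [yb_eq hr, yf_eq hr]
  unfold U1.Data.b yy
  rw [show √(D.p r) = D.lp r from rfl]
  field_simp
  ring

lemma rho_kap (hn : 3 ≤ n) {r : ℝ} (hr : D.R ≤ r) :
    D.rho r ^ ((n : ℝ) - 2) = r ^ ((n : ℝ) - 1 - 1) * kap D r := by
  have hr0 : 0 < r := D.hR.trans_le hr
  have ha := D.al_pos r hr
  have hq := D.q_pos r hr
  have hn1 : (n : ℝ) - 1 ≠ 0 := by
    have : (3 : ℝ) ≤ n := by exact_mod_cast hn
    intro h; linarith
  have hA : 0 < √(D.q r) * D.al r ^ (((n : ℝ) - 2) / 2) := by positivity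
  have h1 : D.ar r = r ^ ((n : ℝ) - 1) * (√(D.q r) * D.al r ^ (((n : ℝ) - 2) / 2)) := by
    unfold U1.Data.ar U1.Data.Yf U1.Data.Yb U1.Data.b
    rw [Real.sqrt_mul (by positivity), Real.sqrt_sq hr0.le,
      Real.mul_rpow (by positivity) ha.le]
    have e1 : (r ^ 2) ^ (((n : ℝ) - 2) / 2) = r ^ ((n : ℝ) - 2) := by
      rw [← Real.rpow_natCast, ← Real.rpow_mul hr0.le]
      congr 1
      push_cast
      ring
    have e2 : r ^ ((n : ℝ) - 1) = r * r ^ ((n : ℝ) - 2) := by
      rw [← Real.rpow_one_add' hr0.le (by intro h; apply hn1; linarith)]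
      congr 1
      ring
    rw [e1, e2]
    ring
  unfold U1.Data.rho
  rw [h1, ← Real.rpow_mul (by positivity), Real.mul_rpow (by positivity) hA.le,
    ← Real.rpow_mul hr0.le]
  unfold kap
  congr 1
  · congr 1
    field_simp
    ring
  · congr 1
    ring

lemma lam_ell {r : ℝ} (hr : D.R ≤ r) : D.lam r = ell D r / r := by
  have hr0 : 0 < r := D.hR.trans_le hr
  have ha := D.al_pos r hr
  have hq := D.q_pos r hr
  have hs : 0 < √(D.q r) := Real.sqrt_pos.2 hq
  have e1 : √(D.Yf r) = r * √(D.q r) := by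
    unfold U1.Data.Yf
    rw [Real.sqrt_mul (by positivity), Real.sqrt_sq hr0.le]
  have e2 : (D.q r) ^ (-(1 / 2) : ℝ) = (√(D.q r))⁻¹ := by
    rw [Real.rpow_neg hq.le, Real.sqrt_eq_rpow]
  have e3 : (D.q r) ^ ((1 / 2) : ℝ) = √(D.q r) := (Real.sqrt_eq_rpow _).symm
  unfold U1.Data.lam ell U1.Data.Yb U1.Data.b
  rw [e1, e2, e3]
  field_simp

end Vale.Agent.P366.T2.U1E

namespace Vale.Agent.U1
open Vale.Agent.P366 Vale.Agent.P366.T2 Vale.Agent.P366.T2.U1E

variable {n : ℕ}

/-- **Block [C-E]**: the modified Hawking mass tends to twice the energy, spheres far out are not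
trapped, and the momentum vanishes. -/
theorem asympt (hn : 3 ≤ n) (D : U1.Data n) {X : Stmt.Exterior n} (h : U1.Fits D X.g X.K)
    (hAF : X.IsAF) {m : ℝ} {P : Fin n → ℝ} (hm : X.IsEnergy m) (hP : X.IsMomentum P) :
    Tendsto D.mass atTop (𝓝 (2 * m)) ∧ (∀ᶠ r in atTop, |D.k r| < D.H r) ∧ P = 0 := by
  have i0 : Fin n := ⟨0, by omega⟩
  have hn' : (3 : ℝ) ≤ n := by exact_mod_cast hn
  have hb : (n : ℝ) - 2 ≠ 0 := by intro h; linarith
  obtain ⟨q, hq, hAF⟩ := hAF
  have hq0 : 0 < q := by linarith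
  have h1 : ∀ i j, Stmt.BigO q (fun x => X.g x i j - if i = j then 1 else 0) := fun i j =>
    (hAF i j i0 i0).1
  have h2 : ∀ i j k, Stmt.BigO (q + 1) (Stmt.pd k fun x => X.g x i j) := fun i j k =>
    (hAF i j k i0).2.1
  have h3 : ∀ i j, Stmt.BigO (q + 1) (fun x => X.K x i j) := fun i j =>
    (hAF i j i0 i0).2.2.2.1
  have hqd := q_dec h h1 h2 i0
  have had := al_dec h h1 h2 i0 hb
  have hp := p_dec h hq0 h1 h2 i0
  have hk := k_dec h hq0 h1 h2 h3 i0 hb
  have hq1 := lim_of hq0 hqd.1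
  have ha1 := lim_of hq0 had.1
  have hp1 := lim_of hq0 hp.1
  have hE : Tendsto (fun r : ℝ => r ^ ((n : ℝ) - 1 - 1) *
      (((n : ℝ) - 1) * D.p r - (((n : ℝ) - 2) * D.al r + D.q r) -
        r * (((n : ℝ) - 2) * deriv D.al r + deriv D.q r))) atTop
      (𝓝 (2 * ((n : ℝ) - 1) * m)) := by
    have hz : Tendsto (fun r : ℝ => r ^ ((n : ℝ) - 1 - 1) *
        (((n : ℝ) - 1) * (pG D r - D.p r))) atTop (𝓝 0) := by
      have g1 := IsBigO.mul (isBigO_refl (fun r : ℝ => r ^ ((n : ℝ) - 1 - 1)) atTop)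
        (hp.2.cmul ((n : ℝ) - 1))
      refine g1.trans_tendsto ?_
      have g2 : Tendsto (fun r : ℝ => r ^ (-(2 * q - ((n : ℝ) - 1 - 1)))) atTop (𝓝 0) :=
        tendsto_rpow_neg_atTop (by linarith)
      refine g2.congr' ?_
      filter_upwards [eventually_gt_atTop 0] with r hr
      rw [← Real.rpow_add hr, ← Real.rpow_add hr]
      congr 1
      ring
    have hlim := (energy_lim hn h hm).sub hz
    rw [sub_zero] at hlim
    refine hlim.congr' ?_
    filter_upwards [eventually_gt_atTop 0] with r hr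
    have e3 : deriv (tau D) r = ((n : ℝ) - 2) * deriv D.al r + deriv D.q r := by
      have e4 : HasDerivAt (tau D) (deriv D.al r * ((n : ℝ) - 2) + deriv D.q r) r :=
        ((hasDeriv D.al_smooth r).mul_const _).add (hasDeriv D.q_smooth r)
      rw [e4.deriv]
      ring
    rw [e3]
    have e5 : r ^ (n - 1) = r ^ ((n : ℝ) - 1 - 1) * r := by
      rw [← Real.rpow_natCast, ← Real.rpow_add_one hr.ne']
      congr 1
      rw [Nat.cast_sub (by omega)]
      push_cast
      ring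
    rw [e5]
    unfold tau
    field_simp
    ring
  have hmain := U1E.mass_abs (N := (n : ℝ) - 1) (b := (n : ℝ) - 2) (q := q) (m := m)
    (p := D.p) (a := D.al) (a1 := deriv D.al) (c := D.q) (c1 := deriv D.q) (k := D.k)
    (κ := kap D) (ℓ := ell D) (y := yy D) (M := D.mass) (by ring) (by linarith) hq0 (by linarith)
    hp.1 had.1 had.2 hqd.1 hqd.2 hk hE (Eventually.of_forall fun r => rfl)
    (Eventually.of_forall fun r => rfl) ?_ (kap_lim ha1 hq1)
  · refine ⟨hmain.1, ?_, momentum_zero h hP⟩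
    have hy := hmain.2
    have hk0 : Tendsto (fun r => |r * D.k r|) atTop (𝓝 0) := by
      have := (hk.tendsto hq0).abs
      simpa using this
    have hH : Tendsto (fun r => (((n : ℝ) - 1) + yy D r) / √(D.p r)) atTop
        (𝓝 ((n : ℝ) - 1)) := by
      have e1 := (hy.const_add ((n : ℝ) - 1)).div hp1.sqrt (by simp)
      have e2 : Tendsto ((fun r => ((n : ℝ) - 1) + yy D r) / fun r => √(D.p r)) atTop
          (𝓝 ((n : ℝ) - 1)) := by simpa using e1
      exact e2
    have hlt := hk0.eventually_lt hH (by linarith)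
    filter_upwards [hlt, eventually_ge_atTop D.R] with r hr hR
    have hr0 : 0 < r := D.hR.trans_le hR
    rw [H_yy hR, lt_div_iff₀ hr0]
    rw [abs_mul, abs_of_pos hr0] at hr
    linarith
  · filter_upwards [eventually_ge_atTop D.R] with r hR
    have hr0 : 0 < r := D.hR.trans_le hR
    have hc : 0 < D.lp r := D.lp_pos hR
    have hc2 : D.lp r ^ 2 = D.p r := D.lp_sq hR
    have e1 : D.H r = ((n : ℝ) - 1 + yy D r) / (r * D.lp r) := by
      rw [H_yy hR, show √(D.p r) = D.lp r from rfl]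
      field_simp
    unfold Data.mass
    rw [rho_kap hn hR, lam_ell hR, e1, ← hc2]
    congr 2
    by_cases hl : ell D r = 0
    · rw [hl]; simp
    · field_simp

end Vale.Agent.U1
end
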