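import Vale.Agent.P366.T2.U1.Scal0
import Vale.Agent.P366.T2.N1
import Vale.Agent.P366.T2.N3
import Vale.Agent.P366.T2.N6

/-! The scalar curvature of `U(m)`-invariant metrics, with shift. -/

open MeasureTheory Metric Filter Topology Set
open scoped ContDiff ENNReal

noncomputable section
namespace Vale.Agent.U1
open Vale.Agent.P366.Stmt
open Vale.Agent.P366.T2 (HP cut cut_smooth cut_zero cut_one contDiffAt_radial contDiff_coord
  exists_clampN scal_pull)

variable {n : ℕ}

/-! ### realization of the coefficients -/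

theorem contDiff_Y (Q : Cpx n) (i : Fin n) : ContDiff ℝ ∞ (fun y : E n => Q.Y y i) := by
  unfold Cpx.Y
  exact ContDiff.sum fun j _ => contDiff_const.mul (contDiff_coord j)

theorem contDiffAt_tv (Q : Cpx n) {f u s : ℝ → ℝ} (hf : ContDiff ℝ ∞ f) (hu : ContDiff ℝ ∞ u)
    (hs : ContDiff ℝ ∞ s) {x : E n} (hx : x ≠ 0) (i j : Fin n) :
    ContDiffAt ℝ ∞ (fun y => Q.tv (f (len y)) (u (len y)) (s (len y)) y i j) x := by
  have hr : len x ≠ 0 := len_ne hx
  have h1 : ContDiffAt ℝ ∞ (fun y : E n => len y) x := contDiffAt_norm ℝ hx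
  have hN : ∀ i, ContDiffAt ℝ ∞ (fun y : E n => Nn y i) x := fun i =>
    (contDiff_coord i).contDiffAt.div h1 hr
  have hF : ∀ i, ContDiffAt ℝ ∞ (fun y : E n => Q.ff y i) x := fun i =>
    (contDiff_Y Q i).contDiffAt.div h1 hr
  unfold Cpx.tv
  exact (((contDiffAt_radial hf hx).mul contDiffAt_const).add
    (((contDiffAt_radial hu hx).sub (contDiffAt_radial hf hx)).mul ((hN i).mul (hN j)))).add
    (((contDiffAt_radial hs hx).sub (contDiffAt_radial hf hx)).mul ((hF i).mul (hF j)))

theorem exists_T (D : Data n) : ∃ g : Field n, FitsT D g := by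
  refine ⟨fun x i j => cut D.R (len x) *
    D.Q.tv (D.al (len x)) (D.p (len x)) (D.q (len x)) x i j, ?_, ?_⟩
  · intro i j
    unfold Smooth
    rw [contDiff_iff_contDiffAt]
    intro x
    by_cases hx : x = 0
    · refine (contDiffAt_const (c := (0 : ℝ))).congr_of_eventuallyEq ?_
      filter_upwards [Metric.ball_mem_nhds x (show 0 < D.R / 2 by linarith [D.hR])] with y hy
      have h2 : len y < D.R / 2 := by
        rw [hx] at hy
        simpa [len] using hy
      rw [cut_zero D.hR h2.le, zero_mul]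
    · exact (contDiffAt_radial (cut_smooth D.R) hx).mul
        (contDiffAt_tv D.Q D.al_smooth D.p_smooth D.q_smooth hx i j)
  · intro x hx i j
    simp only [cut_one D.hR hx, one_mul]

/-! ### the angle -/

theorem exists_angle (D : Data n) {r0 : ℝ} (h0 : D.R < r0) : ∃ (φ : ℝ → ℝ) (δ : ℝ),
    ContDiff ℝ ∞ φ ∧ φ r0 = 0 ∧ 0 < δ ∧ ∀ t ∈ Ioo (r0 - δ) (r0 + δ), D.R < t ∧
      HasDerivAt φ (-D.be t / t) t := by
  obtain ⟨χ, hχ, hχI, δ, hδ, hδε, hχδ⟩ := exists_clampN r0 (r0 - D.R) (by linarith)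
  have hχR : ∀ t, D.R < χ t := fun t => by linarith [(hχI t).1]
  have hχ0 : ∀ t, χ t ≠ 0 := fun t => (D.hR.trans (hχR t)).ne'
  set h : ℝ → ℝ := fun t => -D.be (χ t) / χ t with hh
  have hs : ContDiff ℝ ∞ h := (D.be_smooth.comp hχ).neg.div hχ hχ0
  set φ : ℝ → ℝ := fun t => ∫ s in r0..t, h s with hφ
  have hd : ∀ t, HasDerivAt φ (h t) t := fun t =>
    (hs.continuous.integral_hasStrictDerivAt r0 t).hasDerivAt
  refine ⟨φ, δ, ?_, by simp [hφ], hδ, ?_⟩
  · rw [contDiff_infty_iff_deriv]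
    refine ⟨fun t => (hd t).differentiableAt, ?_⟩
    have : deriv φ = h := funext fun t => (hd t).deriv
    rw [this]
    exact hs
  · intro t ht
    have e : χ t = t := hχδ t (by rw [abs_lt]; exact ⟨by linarith [ht.1], by linarith [ht.2]⟩)
    refine ⟨by linarith [ht.1], ?_⟩
    have := hd t
    rw [hh] at this
    simpa only [e] using this

/-! ### the rotation -/

namespace Cpx

variable (Q : Cpx n)

/-- the matrix of the complex number `c + i s` -/
def rtm (c s : ℝ) (i j : Fin n) : ℝ := c * (if i = j then 1 else 0) + s * Q.J i j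

section point

variable {Q} {c s : ℝ} {x y : E n} (hy : ∀ i, y i = c * x i + s * Q.Y x i)
  (hu : c ^ 2 + s ^ 2 = 1)

include hy in
theorem Y_rt (i : Fin n) : Q.Y y i = c * Q.Y x i - s * x i := by
  have h : ∀ j, Q.J i j * y j = c * (Q.J i j * x j) + s * (Q.J i j * Q.Y x j) := by
    intro j; rw [hy]; ring
  rw [Cpx.Y]
  simp only [h, Finset.sum_add_distrib, ← Finset.mul_sum, Q.J_Y, Q.J_x]
  ring

theorem rt_dt (u : Fin n → ℝ) (i : Fin n) :
    ∑ a, Q.rtm c s a i * u a = c * u i + s * ∑ a, Q.J a i * u a := by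
  have h : ∀ a, Q.rtm c s a i * u a = c * (if a = i then u a else 0) + s * (Q.J a i * u a) := by
    intro a; unfold rtm; split_ifs <;> ring
  simp only [h, Finset.sum_add_distrib, ← Finset.mul_sum]
  simp

include hy hu in
theorem rt_y (i : Fin n) : ∑ a, Q.rtm c s a i * y a = x i := by
  rw [rt_dt, Q.JT_x, Y_rt hy, hy]
  linear_combination x i * hu

include hy hu in
theorem rt_Y (i : Fin n) : ∑ a, Q.rtm c s a i * Q.Y y a = Q.Y x i := by
  rw [rt_dt, Q.JT_Y, Y_rt hy, hy]
  linear_combination Q.Y x i * hu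

include hu in
theorem rt_rt (i j : Fin n) : ∑ a, Q.rtm c s a i * Q.rtm c s a j = if i = j then 1 else 0 := by
  rw [rt_dt]
  have h : ∀ a, Q.J a i * Q.rtm c s a j = c * (if a = j then Q.J a i else 0) +
      s * (Q.J a i * Q.J a j) := by
    intro a; unfold rtm; split_ifs <;> ring
  simp only [h, Finset.sum_add_distrib, ← Finset.mul_sum, Q.JTJ]
  simp only [Finset.sum_ite_eq', Finset.mem_univ, if_true]
  unfold rtm
  have h2 := Q.skew_apply i j
  rw [h2]
  split_ifs
  · linear_combination hu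
  · ring

include hy hu in
theorem len_rt : len y = len x := by
  have h1 : len y ^ 2 = len x ^ 2 := by
    rw [← sum_sq, ← sum_sq]
    have h : ∀ i, y i * y i = c ^ 2 * (x i * x i) + s ^ 2 * (Q.Y x i * Q.Y x i) +
        2 * c * s * (x i * Q.Y x i) := by
      intro i; rw [hy]; ring
    simp only [h, Finset.sum_add_distrib, ← Finset.mul_sum, Q.Y_Y, Q.x_Y, sum_sq]
    linear_combination len x ^ 2 * hu
  exact (sq_eq_sq₀ (norm_nonneg _) (norm_nonneg _)).1 h1

/-- **Pull-back of an invariant tensor with shift by the rotation: the shift disappears.** -/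
theorem pull_ten (hx : x ≠ 0) (hy : ∀ i, y i = c * x i + s * Q.Y x i) (hu : c ^ 2 + s ^ 2 = 1)
    (be f u w : ℝ → ℝ) (i j : Fin n) :
    ∑ a, ∑ b, (Q.rtm c s a i - be (len x) * Q.Y y a * x i / len x ^ 2) *
      (Q.rtm c s b j - be (len x) * Q.Y y b * x j / len x ^ 2) *
      Q.ten be f u (fun _ => 0) w y a b =
      Q.tv (f (len x)) (u (len x)) (w (len x)) x i j := by
  have hr : len x ≠ 0 := len_ne hx
  have hlen := len_rt hy hu
  set B : Fin n → Fin n → ℝ := fun a i =>
    Q.rtm c s a i - be (len x) * Q.Y y a * x i / len x ^ 2 with hB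
  have hBv : ∀ (v : Fin n → ℝ) i, ∑ a, B a i * v a = (∑ a, Q.rtm c s a i * v a) -
      be (len x) * x i / len x ^ 2 * ∑ a, Q.Y y a * v a := by
    intro v i
    rw [Finset.mul_sum, ← Finset.sum_sub_distrib]
    exact Finset.sum_congr rfl fun a _ => by rw [hB]; ring
  have hBx : ∀ i, ∑ a, B a i * y a = x i := fun i => by
    rw [hBv, rt_y hy hu, Q.Y_x]; ring
  have hBY : ∀ i, ∑ a, B a i * Q.Y y a = Q.Y x i - be (len x) * x i := fun i => by
    rw [hBv, rt_Y hy hu, Q.Y_Y, hlen]; field_simp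
  have hBZ : ∀ i, ∑ a, B a i * Q.Z be y a = Q.Y x i := by
    intro i
    have h : ∀ a, B a i * Q.Z be y a = B a i * Q.Y y a + be (len x) * (B a i * y a) := by
      intro a; unfold Cpx.Z; rw [hlen]; ring
    simp only [h, Finset.sum_add_distrib, ← Finset.mul_sum, hBx, hBY]
    ring
  have hBB : ∑ a, B a i * B a j = (if i = j then 1 else 0) -
      be (len x) / len x ^ 2 * (Q.Y x i * x j + x i * Q.Y x j) +
      be (len x) ^ 2 * (x i * x j) / len x ^ 2 := by
    have h : ∀ a, B a i * B a j = Q.rtm c s a i * Q.rtm c s a j -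
        be (len x) * x j / len x ^ 2 * (Q.rtm c s a i * Q.Y y a) -
        be (len x) * x i / len x ^ 2 * (Q.rtm c s a j * Q.Y y a) +
        be (len x) ^ 2 * (x i * x j) / (len x ^ 2) ^ 2 * (Q.Y y a * Q.Y y a) := by
      intro a; rw [hB]; field_simp; ring
    simp only [h, Finset.sum_add_distrib, Finset.sum_sub_distrib, ← Finset.mul_sum,
      rt_rt hu, rt_Y hy hu, Q.Y_Y, hlen]
    field_simp
    ring
  change ∑ a, ∑ b, B a i * B b j * Q.ten be f u (fun _ => 0) w y a b = _
  clear_value B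
  have hprod : ∀ (k : ℝ) (p q : Fin n → ℝ), ∑ a, ∑ b, k * (p a * q b) =
      k * ((∑ a, p a) * (∑ b, q b)) := by
    intro k p q
    rw [Finset.sum_mul_sum, Finset.mul_sum]
    exact Finset.sum_congr rfl fun a _ => by rw [Finset.mul_sum]
  have hdelta : ∑ a, ∑ b, f (len x) * (B a i * B b j * (if a = b then 1 else 0)) =
      f (len x) * ∑ a, B a i * B a j := by
    rw [Finset.mul_sum]
    exact Finset.sum_congr rfl fun a _ => by simp
  have h0 : ∀ a b, B a i * B b j * Q.ten be f u (fun _ => 0) w y a b =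
      f (len x) * (B a i * B b j * (if a = b then 1 else 0)) +
      (u (len x) - f (len x)) / len x ^ 2 * ((B a i * y a) * (B b j * y b)) +
      (-f (len x) / len x ^ 2) * ((B a i * Q.Y y a) * (B b j * Q.Y y b)) +
      w (len x) / len x ^ 2 * ((B a i * Q.Z be y a) * (B b j * Q.Z be y b)) := by
    intro a b
    unfold ten Pi
    rw [hlen]
    field_simp
    ring
  simp only [h0, Finset.sum_add_distrib, hdelta, hprod, hBx, hBY, hBZ]
  rw [hBB]
  unfold tv Nn ff
  field_simp
  ring

end point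

/-- the map `x ↦ (c(|x|) + i s(|x|)) x` -/
def Rot (c s : ℝ → ℝ) (x : E n) : E n :=
  WithLp.toLp 2 (fun i => c (len x) * x i + s (len x) * Q.Y x i)

theorem Rot_apply (c s : ℝ → ℝ) (x : E n) (i : Fin n) :
    Q.Rot c s x i = c (len x) * x i + s (len x) * Q.Y x i := rfl

/-- The Jacobian of the rotation whose radial derivative is determined by the shift. -/
theorem HP_Rot {c s : ℝ → ℝ} (be : ℝ) {x : E n} (hx : x ≠ 0)
    (hc : HasDerivAt c (be * s (len x) / len x) (len x))
    (hs : HasDerivAt s (-(be * c (len x)) / len x) (len x)) (i a : Fin n) :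
    HP i (fun z => Q.Rot c s z a) (Q.rtm (c (len x)) (s (len x)) a i -
      be * Q.Y (Q.Rot c s x) a * x i / len x ^ 2) x := by
  have hr := len_ne hx
  have h1 : (fun z => Q.Rot c s z a) = fun z => c (len z) * z a + s (len z) * Q.Y z a := rfl
  rw [h1]
  have h2 := ((HP.radial hx hc i).mul (HP.coord i a x)).add
    ((HP.radial hx hs i).mul (Q.HP_Yc i a x))
  refine HP_eq h2 ?_
  have h3 : Q.Y (Q.Rot c s x) a = c (len x) * Q.Y x a - s (len x) * x a :=
    Y_rt (fun i => Q.Rot_apply c s x i) a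
  rw [h3]
  unfold rtm
  field_simp
  ring

end Cpx

theorem Fits.symm_ev {D : Data n} {g K : Field n} (h : Fits D g K) {x : E n}
    (hx : D.R < len x) : ∀ᶠ y in 𝓝 x, ∀ i j, g y i j = g y j i := by
  filter_upwards [(isOpen_out D.R).mem_nhds hx] with y hy i j
  exact g_symm h (le_of_lt hy) i j

/-- **The scalar curvature of `U(m)`-invariant metrics, with shift.** -/
theorem scal_eq {D : Data n} {g K : Field n} (h : Fits D g K) {x : E n} (hx : D.R < len x) :
    scal g x = D.Rg (len x) := by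
  obtain ⟨φ, δ, hφs, hφ0, hδ, hφ⟩ := exists_angle D hx
  obtain ⟨g', h'⟩ := exists_T D
  have hx0 : x ≠ 0 := ne_zero_of_le hx.le
  have hr : 0 < len x := D.hR.trans hx
  set c : ℝ → ℝ := fun t => Real.cos (φ t) with hc
  set s : ℝ → ℝ := fun t => Real.sin (φ t) with hs
  have hcs : ContDiff ℝ ∞ c := Real.contDiff_cos.comp hφs
  have hss : ContDiff ℝ ∞ s := Real.contDiff_sin.comp hφs
  have hunit : ∀ t, c t ^ 2 + s t ^ 2 = 1 := fun t => Real.cos_sq_add_sin_sq _
  have hc0 : c (len x) = 1 := by simp [hc, hφ0]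
  have hs0 : s (len x) = 0 := by simp [hs, hφ0]
  have hdc : ∀ t ∈ Ioo (len x - δ) (len x + δ), HasDerivAt c (D.be t * s t / t) t := by
    intro t ht
    refine ((hφ t ht).2.cos).congr_deriv ?_
    simp only [hs]; ring
  have hds : ∀ t ∈ Ioo (len x - δ) (len x + δ), HasDerivAt s (-(D.be t * c t) / t) t := by
    intro t ht
    refine ((hφ t ht).2.sin).congr_deriv ?_
    simp only [hc]; ring
  have hmem : len x ∈ Ioo (len x - δ) (len x + δ) := ⟨by linarith, by linarith⟩
  set Φ : E n → E n := D.Q.Rot c s with hΦdef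
  have hΦx : Φ x = x := by
    ext i
    rw [hΦdef, D.Q.Rot_apply, hc0, hs0]
    ring
  have hcont : Continuous (fun y : E n => len y) := continuous_norm
  have hnear : ∀ᶠ y in 𝓝 x, len y ∈ Ioo (len x - δ) (len x + δ) :=
    hcont.continuousAt.eventually (isOpen_Ioo.mem_nhds hmem)
  have hy0 : ∀ y : E n, len y ∈ Ioo (len x - δ) (len x + δ) → y ≠ 0 := fun y hy =>
    ne_zero_of_le (hφ _ hy).1.le
  have hpd : ∀ y : E n, len y ∈ Ioo (len x - δ) (len x + δ) → ∀ i a,
      pd i (fun z => Φ z a) y = D.Q.rtm (c (len y)) (s (len y)) a i -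
      D.be (len y) * D.Q.Y (Φ y) a * y i / len y ^ 2 := fun y hy i a =>
    (D.Q.HP_Rot (D.be (len y)) (hy0 y hy) (hdc _ hy) (hds _ hy) i a).pd
  have hpull : ∀ y : E n, len y ∈ Ioo (len x - δ) (len x + δ) → ∀ i j, g' y i j =
      ∑ a, ∑ b, pd i (fun z => Φ z a) y * pd j (fun z => Φ z b) y * g (Φ y) a b := by
    intro y hy i j
    have hlen : len (Φ y) = len y :=
      Cpx.len_rt (Q := D.Q) (fun i => D.Q.Rot_apply c s y i) (hunit _)
    rw [h'.hg y (hφ _ hy).1.le, ← Cpx.pull_ten (Q := D.Q) (hy0 y hy)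
      (fun i => D.Q.Rot_apply c s y i) (hunit (len y)) D.be D.al D.p D.q i j]
    refine Finset.sum_congr rfl fun a _ => Finset.sum_congr rfl fun b _ => ?_
    rw [hpd y hy, hpd y hy, h.hg (Φ y) (by rw [hlen]; exact (hφ _ hy).1.le)]
  have hΦs : ContDiffAt ℝ ∞ Φ x := by
    rw [contDiffAt_euclidean]
    intro i
    have e : (fun y => Φ y i) = fun y => c (len y) * y i + s (len y) * D.Q.Y y i := rfl
    rw [e]
    exact ((contDiffAt_radial hcs hx0).mul (contDiff_coord i).contDiffAt).add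
      ((contDiffAt_radial hss hx0).mul (contDiff_Y D.Q i).contDiffAt)
  have hd : (mat g x).det ≠ 0 := by
    have h1 := congrArg Matrix.det (g_mul_UM h hx.le)
    rw [Matrix.det_mul, Matrix.det_one] at h1
    exact left_ne_zero_of_mul_eq_one h1
  have hd' : (mat g' x).det ≠ 0 := detT_ne h' hx.le
  have hB : (Matrix.of fun a i => pd i (fun y => Φ y a) x).det ≠ 0 := by
    set B : Matrix (Fin n) (Fin n) ℝ := Matrix.of fun a i => pd i (fun y => Φ y a) x with hBd
    have h1 : mat g' x = B.transpose * mat g x * B := by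
      ext i j
      rw [Matrix.mul_apply]
      simp only [Matrix.mul_apply, Matrix.transpose_apply, Finset.sum_mul]
      rw [show mat g' x i j = g' x i j from rfl, hpull x hmem i j, hΦx, Finset.sum_comm]
      refine Finset.sum_congr rfl fun b _ => Finset.sum_congr rfl fun a _ => ?_
      rw [hBd, Matrix.of_apply, Matrix.of_apply, show mat g x a b = g x a b from rfl]
      ring
    intro h0
    apply hd'
    rw [h1, Matrix.det_mul, h0, mul_zero]
  have key := scal_pull (Φ := Φ) (g := g) (g' := g') (x := x) hΦs hB (fun i j => (h.smooth i j).1)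
    (by rw [hΦx]; exact h.symm_ev hx) (by rw [hΦx]; exact hd) (fun i j => h'.smooth i j)
    (by filter_upwards [hnear] with y hy; exact hpull y hy)
  rw [hΦx] at key
  rw [← key, scalT_eq h' hx]

end Vale.Agent.U1
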