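import Vale.Agent.P366.T2.MC1a
import Vale.Agent.P366.T2.U1.Key

/-! The touching argument for `U(m)`-invariant data. -/

open MeasureTheory Metric Filter Topology Set
open scoped ContDiff ENNReal MatrixOrder

noncomputable section
namespace Vale.Agent.U1
open Vale.Agent.P366.Stmt
open Vale.Agent.C92 (GaugeM contract_deriv diff_coord diff_radial outside_nonneg theta_compare)
open Vale.Agent.P366.T2 (HP hasFDerivAt_len)

variable {n : ℕ}

/-! ### contraction with a constant matrix -/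

/-- the bilinear form of `W` -/
def bl (W : Fin n → Fin n → ℝ) (u w : Fin n → ℝ) : ℝ := ∑ i, ∑ j, W i j * (u i * w j)

theorem bl_add_left (W : Fin n → Fin n → ℝ) (u u' w : Fin n → ℝ) :
    bl W (fun i => u i + u' i) w = bl W u w + bl W u' w := by
  simp only [bl, ← Finset.sum_add_distrib]
  exact Finset.sum_congr rfl fun i _ => Finset.sum_congr rfl fun j _ => by ring

theorem bl_add_right (W : Fin n → Fin n → ℝ) (u w w' : Fin n → ℝ) :
    bl W u (fun i => w i + w' i) = bl W u w + bl W u w' := by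
  simp only [bl, ← Finset.sum_add_distrib]
  exact Finset.sum_congr rfl fun i _ => Finset.sum_congr rfl fun j _ => by ring

theorem bl_smul_left (W : Fin n → Fin n → ℝ) (c : ℝ) (u w : Fin n → ℝ) :
    bl W (fun i => c * u i) w = c * bl W u w := by
  simp only [bl, Finset.mul_sum]
  exact Finset.sum_congr rfl fun i _ => Finset.sum_congr rfl fun j _ => by ring

theorem bl_smul_right (W : Fin n → Fin n → ℝ) (c : ℝ) (u w : Fin n → ℝ) :
    bl W u (fun i => c * w i) = c * bl W u w := by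
  simp only [bl, Finset.mul_sum]
  exact Finset.sum_congr rfl fun i _ => Finset.sum_congr rfl fun j _ => by ring

theorem bl_comm {W : Fin n → Fin n → ℝ} (hW : ∀ i j, W i j = W j i) (u w : Fin n → ℝ) :
    bl W u w = bl W w u := by
  unfold bl
  rw [Finset.sum_comm]
  exact Finset.sum_congr rfl fun i _ => Finset.sum_congr rfl fun j _ => by rw [hW]; ring

/-- contraction of `ten` with a matrix -/
theorem ct_ten (Q : Cpx n) (be f u w s : ℝ → ℝ) (W : Fin n → Fin n → ℝ) (x : E n) :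
    ∑ i, ∑ j, W i j * Q.ten be f u w s x i j =
      f (len x) * (∑ i, W i i - (bl W x x + bl W (Q.Y x) (Q.Y x)) / len x ^ 2) +
      (u (len x) * bl W x x + w (len x) * (bl W x (Q.Z be x) + bl W (Q.Z be x) x) +
        s (len x) * bl W (Q.Z be x) (Q.Z be x)) / len x ^ 2 := by
  have h0 : ∀ i j, W i j * Q.ten be f u w s x i j =
      f (len x) * ((W i j * if i = j then 1 else 0) - (W i j * (x i * x j) +
        W i j * (Q.Y x i * Q.Y x j)) / len x ^ 2) +
      (u (len x) * (W i j * (x i * x j)) +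
        w (len x) * (W i j * (x i * Q.Z be x j) + W i j * (Q.Z be x i * x j)) +
        s (len x) * (W i j * (Q.Z be x i * Q.Z be x j))) / len x ^ 2 := by
    intro i j
    unfold Cpx.ten Cpx.Pi
    ring
  simp only [h0, bl, Finset.sum_add_distrib, Finset.sum_sub_distrib,
    ← Finset.mul_sum, ← Finset.sum_div, mul_ite, mul_one, mul_zero, Finset.sum_ite_eq,
    Finset.mem_univ, if_true]

variable {D : Data n} {g K : Field n}

/-- the tangential part of the inverse metric -/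
def Wt (D : Data n) (x : E n) (i j : Fin n) : ℝ :=
  1 / D.al (len x) * D.Q.Pi x i j + 1 / D.q (len x) * (D.Q.Y x i * D.Q.Y x j) / len x ^ 2

theorem Wt_eq (h : Fits D g K) {x : E n} (hx : D.R ≤ len x) (i j : Fin n) :
    up g i j x - D.Q.nv D.be i x * D.Q.nv D.be j x / (D.p (len x) * len x ^ 2) = Wt D x i j := by
  have hr : 0 < len x := lt_of_lt_of_le D.hR hx
  have hp := D.p_pos _ hx
  rw [up_eq h hx]
  unfold UM Wt
  field_simp
  ring

theorem Wt_symm (D : Data n) (x : E n) (i j : Fin n) : Wt D x i j = Wt D x j i := by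
  unfold Wt
  rw [D.Q.Pi_symm x i j]
  ring

/-- `Wt` applied to a vector -/
theorem Wt_vec (x : E n) (i : Fin n) (u : Fin n → ℝ) : ∑ j, Wt D x i j * u j =
    1 / D.al (len x) * (∑ j, D.Q.Pi x i j * u j) +
      1 / D.q (len x) * (D.Q.Y x i * ∑ j, D.Q.Y x j * u j) / len x ^ 2 := by
  have h2 : ∀ j, Wt D x i j * u j = 1 / D.al (len x) * (D.Q.Pi x i j * u j) +
      1 / D.q (len x) * (D.Q.Y x i * (D.Q.Y x j * u j)) / len x ^ 2 := by
    intro j
    unfold Wt
    ring
  simp only [h2, Finset.sum_add_distrib, ← Finset.mul_sum, ← Finset.sum_div]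

theorem bl_eq (W : Fin n → Fin n → ℝ) (u w : Fin n → ℝ) :
    bl W u w = ∑ i, u i * ∑ j, W i j * w j := by
  unfold bl
  refine Finset.sum_congr rfl fun i _ => ?_
  rw [Finset.mul_sum]
  exact Finset.sum_congr rfl fun j _ => by ring

/-- the form of `Wt` applied to `Y` -/
theorem bl_Y {x : E n} (hx : x ≠ 0) (u : Fin n → ℝ) :
    bl (Wt D x) u (D.Q.Y x) = 1 / D.q (len x) * ∑ i, D.Q.Y x i * u i := by
  have hr := len_ne hx
  rw [bl_eq, Finset.mul_sum]
  refine Finset.sum_congr rfl fun i _ => ?_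
  rw [Wt_vec, D.Q.Pi_Y hx, D.Q.Y_Y]
  field_simp
  ring

theorem bl_x {x : E n} (hx : x ≠ 0) (u : Fin n → ℝ) : bl (Wt D x) u x = 0 := by
  rw [bl_eq]
  refine Finset.sum_eq_zero fun i _ => ?_
  rw [Wt_vec, D.Q.Pi_x hx, D.Q.Y_x]
  ring

theorem tr_Wt {x : E n} (hx : x ≠ 0) :
    ∑ i, Wt D x i i = D.b / D.al (len x) + 1 / D.q (len x) := by
  have hr := len_ne hx
  have h2 : ∀ i, Wt D x i i = 1 / D.al (len x) * D.Q.Pi x i i +
      1 / D.q (len x) / len x ^ 2 * (D.Q.Y x i * D.Q.Y x i) := by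
    intro i
    unfold Wt
    ring
  simp only [h2, Finset.sum_add_distrib]
  rw [← Finset.mul_sum, D.Q.trace_Pi hx, ← Finset.mul_sum, D.Q.Y_Y]
  unfold Data.b
  field_simp

theorem bl_YY {x : E n} (hx : x ≠ 0) :
    bl (Wt D x) (D.Q.Y x) (D.Q.Y x) = len x ^ 2 * (1 / D.q (len x)) := by
  rw [bl_Y hx, D.Q.Y_Y]
  ring

theorem bl_Zx {x : E n} (hx : x ≠ 0) (be : ℝ → ℝ) (u : Fin n → ℝ) :
    bl (Wt D x) (D.Q.Z be x) u = bl (Wt D x) (D.Q.Y x) u := by
  have h1 : D.Q.Z be x = fun i => D.Q.Y x i + be (len x) * x i := rfl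
  rw [h1, bl_add_left, bl_smul_left, bl_comm (Wt_symm D x) x u, bl_x hx]
  ring

/-- trace of an invariant tensor over the sphere -/
theorem ct_Wt_ten {x : E n} (hx : x ≠ 0) (be f u w s : ℝ → ℝ) :
    ∑ i, ∑ j, Wt D x i j * D.Q.ten be f u w s x i j =
      D.b * (f (len x) / D.al (len x)) + s (len x) / D.q (len x) := by
  have hr := len_ne hx
  rw [ct_ten]
  have e1 : bl (Wt D x) (D.Q.Z be x) (D.Q.Z be x) = len x ^ 2 * (1 / D.q (len x)) := by
    rw [bl_Zx hx, bl_comm (Wt_symm D x), bl_Zx hx, bl_comm (Wt_symm D x), bl_YY hx]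
  have e2 : ∀ u : Fin n → ℝ, bl (Wt D x) x u = 0 := fun u => by
    rw [bl_comm (Wt_symm D x), bl_x hx]
  simp only [e1, e2, bl_x hx, bl_YY hx, tr_Wt hx]
  field_simp
  ring

/-! ### the derivative of the metric in the normal direction -/

theorem Y_add_smul (Q : Cpx n) (x v : E n) (t : ℝ) :
    Q.Y (x + t • v) = fun i => Q.Y x i + t * Q.Y v i := by
  funext i
  unfold Cpx.Y
  rw [Finset.mul_sum, ← Finset.sum_add_distrib]
  exact Finset.sum_congr rfl fun j _ => by simp; ring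

theorem len_line_deriv {x v : E n} (hx : x ≠ 0) (hxv : inner ℝ x v = len x ^ 2) :
    HasDerivAt (fun t : ℝ => len (x + t • v)) (len x) 0 := by
  have hr : 0 < len x := len_pos hx
  have h1 : HasFDerivAt (fun y : E n => len y) ((len x)⁻¹ • (innerSL ℝ x)) (x + (0 : ℝ) • v) := by
    rw [zero_smul, add_zero]
    exact hasFDerivAt_len hx
  have h2 : HasDerivAt (fun t : ℝ => x + t • v) v 0 := by
    exact (((hasDerivAt_id (0 : ℝ)).smul_const v).const_add x).congr_deriv (one_smul _ _)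
  have h3 := h1.comp_hasDerivAt 0 h2
  refine h3.congr_deriv ?_
  simp only [smul_apply, innerSL_apply_apply, smul_eq_mul, hxv]
  field_simp

theorem Dv_trace (h : Fits D g K) {x : E n} (hx : D.R ≤ len x) :
    ∑ i, ∑ j, Wt D x i j * (∑ l, D.Q.nv D.be l x * pd l (fun z => g z i j) x) =
      len x * (D.b * (deriv D.al (len x) / D.al (len x)) + deriv D.q (len x) / D.q (len x)) -
      2 * D.be (len x) ^ 2 := by
  have h0 : x ≠ 0 := ne_zero_of_le hx
  have hr : 0 < len x := lt_of_lt_of_le D.hR hx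
  have hal := D.al_pos _ hx
  have hq := D.q_pos _ hx
  set v : E n := WithLp.toLp 2 fun i => D.Q.nv D.be i x with hv
  have hvi : ∀ i, v i = D.Q.nv D.be i x := fun i => rfl
  have hxv : inner ℝ x v = len x ^ 2 := by
    rw [← D.Q.x_nv D.be x]
    simp only [PiLp.inner_apply, RCLike.inner_apply, conj_trivial]
    exact Finset.sum_congr rfl fun i _ => by rw [hvi]; ring
  set r := len x with hrdef
  set B := bl (Wt D x) with hB
  have hBs : ∀ u w, B u w = B w u := fun u w => bl_comm (Wt_symm D x) u w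
  have hBx : ∀ u, B u x = 0 := fun u => bl_x h0 u
  have hxB : ∀ u, B x u = 0 := fun u => by rw [hBs, hBx]
  -- the line
  set ρ : ℝ → ℝ := fun t => len (x + t • v) with hρ
  have hρ0 : ρ 0 = r := by simp [hρ, hrdef]
  have hρd : HasDerivAt ρ r 0 := len_line_deriv h0 hxv
  have hcomp : ∀ {f : ℝ → ℝ}, ContDiff ℝ ∞ f → HasDerivAt (fun t => f (ρ t)) (deriv f r * r) 0 := by
    intro f hf
    have h1 : HasDerivAt f (deriv f r) (ρ 0) := by
      rw [hρ0]; exact hasDeriv hf r
    exact h1.comp 0 hρd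
  set U : Fin n → ℝ := D.Q.Y v with hU
  set yy : ℝ → ℝ := fun t => t ^ 2 * B v v with hyy
  set YY : ℝ → ℝ := fun t => B (D.Q.Y x) (D.Q.Y x) +
    t * (B U (D.Q.Y x) + B (D.Q.Y x) U) + t ^ 2 * B U U with hYY
  set ZZ : ℝ → ℝ := fun t => B (D.Q.Y x) (D.Q.Y x) +
    t * (B U (D.Q.Y x) + D.be (ρ t) * B v (D.Q.Y x) + B (D.Q.Y x) U +
      D.be (ρ t) * B (D.Q.Y x) v) +
    t ^ 2 * (B U U + D.be (ρ t) * B U v + D.be (ρ t) * B v U +
      D.be (ρ t) * D.be (ρ t) * B v v) with hZZ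
  have hadd : ∀ u u' w, B (fun i => u i + u' i) w = B u w + B u' w := bl_add_left _
  have hadd' : ∀ u w w', B u (fun i => w i + w' i) = B u w + B u w' := bl_add_right _
  have hsm : ∀ c u w, B (fun i => c * u i) w = c * B u w := bl_smul_left _
  have hsm' : ∀ c u w, B u (fun i => c * w i) = c * B u w := bl_smul_right _
  have hyv : ∀ t : ℝ, (fun i => (x + t • v) i) = fun i => x i + t * v i := by
    intro t; funext i; simp
  have e1 : ∀ t : ℝ, B (fun i => (x + t • v) i) (fun i => (x + t • v) i) = yy t := by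
    intro t
    rw [hyv, hadd, hadd', hadd', hsm, hsm', hsm, hsm', hBx, hxB, hBx, hyy]
    ring
  have e2 : ∀ t, B (D.Q.Y (x + t • v)) (D.Q.Y (x + t • v)) = YY t := by
    intro t
    rw [Y_add_smul, hadd, hadd', hadd', hsm, hsm', hsm, hsm', hYY]
    ring
  have e3 : ∀ t, B (D.Q.Z D.be (x + t • v)) (D.Q.Z D.be (x + t • v)) = ZZ t := by
    intro t
    have hZ : D.Q.Z D.be (x + t • v) = fun i => (D.Q.Y x i + t * U i) +
        D.be (ρ t) * (x i + t * v i) := by
      funext i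
      unfold Cpx.Z
      rw [Y_add_smul]
      simp only [PiLp.add_apply, PiLp.smul_apply, smul_eq_mul]
      rfl
    rw [hZ]
    simp only [hadd, hadd', hsm, hsm', hBx, hxB, hZZ]
    ring
  set φ : ℝ → ℝ := fun t =>
    D.al (ρ t) * ((∑ i, Wt D x i i) - (yy t + YY t) / ρ t ^ 2) +
    (D.p (ρ t) * yy t + D.q (ρ t) * ZZ t) / ρ t ^ 2 with hφ
  have hφt : ∀ t : ℝ, 0 ≤ t → D.R ≤ len (x + t • v) →
      ∑ i, ∑ j, Wt D x i j * g (x + t • v) i j = φ t := by
    intro t _ ht
    simp only [h.hg _ ht]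
    rw [ct_ten]
    simp only [zero_mul, add_zero]
    rw [hφ]
    simp only [← e1, ← e2, ← e3]
    rfl
  -- derivatives
  have dyy : HasDerivAt yy 0 0 := by
    have := ((hasDerivAt_pow 2 (0 : ℝ)).mul_const (B v v))
    simpa using this
  have dlin : ∀ {f : ℝ → ℝ} {c f' : ℝ}, f 0 = c → HasDerivAt f f' 0 →
      HasDerivAt (fun t => t * f t) c 0 := by
    intro f c f' hc hf
    have := (hasDerivAt_id (0 : ℝ)).fun_mul hf
    refine this.congr_deriv ?_
    simp [hc]
  have dsq : ∀ {f : ℝ → ℝ} {f' : ℝ}, HasDerivAt f f' 0 →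
      HasDerivAt (fun t => t ^ 2 * f t) 0 0 := by
    intro f f' hf
    have := (hasDerivAt_pow 2 (0 : ℝ)).fun_mul hf
    refine this.congr_deriv ?_
    simp
  have dYY : HasDerivAt YY (B U (D.Q.Y x) + B (D.Q.Y x) U) 0 := by
    have h1 := ((hasDerivAt_const (0 : ℝ) (B (D.Q.Y x) (D.Q.Y x))).fun_add
      (dlin (f := fun _ => B U (D.Q.Y x) + B (D.Q.Y x) U) rfl
        (hasDerivAt_const _ _))).fun_add (dsq (hasDerivAt_const (0 : ℝ) (B U U)))
    refine h1.congr_deriv ?_
    ring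
  have dbe : HasDerivAt (fun t => D.be (ρ t)) (deriv D.be r * r) 0 := hcomp D.be_smooth
  have dZZ : HasDerivAt ZZ (B U (D.Q.Y x) + D.be r * B v (D.Q.Y x) +
      B (D.Q.Y x) U + D.be r * B (D.Q.Y x) v) 0 := by
    have h1 := ((hasDerivAt_const (0 : ℝ) (B (D.Q.Y x) (D.Q.Y x))).fun_add
      (dlin (f := fun t => B U (D.Q.Y x) + D.be (ρ t) * B v (D.Q.Y x) +
        B (D.Q.Y x) U + D.be (ρ t) * B (D.Q.Y x) v)
        (c := B U (D.Q.Y x) + D.be r * B v (D.Q.Y x) +
          B (D.Q.Y x) U + D.be r * B (D.Q.Y x) v) (by simp only [hρ0])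
        (((dbe.mul_const _).const_add _ |>.add_const _).fun_add
          (dbe.mul_const _)))).fun_add (dsq (f := fun t => B U U +
            D.be (ρ t) * B U v + D.be (ρ t) * B v U + D.be (ρ t) * D.be (ρ t) * B v v)
        ((((dbe.mul_const _).const_add _).fun_add (dbe.mul_const _)).fun_add
          ((dbe.fun_mul dbe).mul_const _)))
    refine h1.congr_deriv ?_
    ring
  have yy0 : yy 0 = 0 := by simp [hyy]
  have YY0 : YY 0 = B (D.Q.Y x) (D.Q.Y x) := by simp [hYY]
  have ZZ0 : ZZ 0 = B (D.Q.Y x) (D.Q.Y x) := by simp [hZZ]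
  have dN1 : HasDerivAt (fun t => yy t + YY t) (0 + (B U (D.Q.Y x) + B (D.Q.Y x) U)) 0 :=
    dyy.fun_add dYY
  have dN2 : HasDerivAt (fun t => D.p (ρ t) * yy t + D.q (ρ t) * ZZ t)
      ((deriv D.p r * r * yy 0 + D.p (ρ 0) * 0) +
        (deriv D.q r * r * ZZ 0 + D.q (ρ 0) *
          (B U (D.Q.Y x) + D.be r * B v (D.Q.Y x) +
            B (D.Q.Y x) U + D.be r * B (D.Q.Y x) v))) 0 :=
    ((hcomp D.p_smooth).fun_mul dyy).fun_add ((hcomp D.q_smooth).fun_mul dZZ)
  have dρ2 : HasDerivAt (fun t => ρ t ^ 2) (2 * r * r) 0 := by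
    have := hρd.fun_pow 2
    refine this.congr_deriv ?_
    rw [hρ0]
    norm_num
  have hρne : ρ 0 ^ 2 ≠ 0 := by rw [hρ0]; positivity
  have dφ := ((hcomp D.al_smooth).fun_mul ((dN1.fun_div dρ2 hρne).const_sub
    (∑ i, Wt D x i i))).fun_add (dN2.fun_div dρ2 hρne)
  have key := contract_deriv (g := g) (v := v) hx (by rw [hxv]; positivity) (Wt D x)
    (fun i j => (h.smooth i j).1.differentiable (by norm_num) x) dφ hφt
  simp only [hvi] at key
  rw [key]
  -- the algebra
  have b1 : B (D.Q.Y x) (D.Q.Y x) = r ^ 2 * (1 / D.q r) := bl_YY h0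
  have hUY : ∑ i, D.Q.Y x i * U i = r ^ 2 := by
    have e4 : ∀ i, U i = D.Q.Y x i + D.be r * x i := by
      intro i
      have e5 : U i = ∑ j, D.Q.J i j * v j := rfl
      have e6 : ∀ j, D.Q.J i j * v j = D.Q.J i j * x j - D.be r * (D.Q.J i j * D.Q.Y x j) := by
        intro j
        rw [hvi]; unfold Cpx.nv; ring
      rw [e5]
      simp only [e6, Finset.sum_sub_distrib, ← Finset.mul_sum, D.Q.J_Y, D.Q.J_x]
      ring
    simp only [e4]
    exact D.Q.Y_Z D.be x
  have b2 : B U (D.Q.Y x) = 1 / D.q r * r ^ 2 := by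
    have : B U (D.Q.Y x) = _ := bl_Y h0 U
    rw [this, hUY]
  have b3 : B v (D.Q.Y x) = -(1 / D.q r * (D.be r * r ^ 2)) := by
    have : B v (D.Q.Y x) = _ := bl_Y h0 v
    have e4 : ∑ i, D.Q.Y x i * v i = -(D.be r * r ^ 2) := D.Q.Y_nv D.be x
    rw [this, e4]
    ring
  have b4 : B (D.Q.Y x) U = B U (D.Q.Y x) := hBs _ _
  have b5 : B (D.Q.Y x) v = B v (D.Q.Y x) := hBs _ _
  simp only [hρ0, yy0, YY0, ZZ0, b1, b4, b5, b2, b3, mul_zero, zero_add, tr_Wt h0]
  rw [← hrdef]
  field_simp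
  ring

/-! ### the null expansion of the spheres -/

theorem HP_Y (Q : Cpx n) (k i : Fin n) (x : E n) : HP k (fun y => Q.Y y i) (Q.J i k) x := by
  have h := HP.sum (k := k) (x := x) Finset.univ (f := fun j y => Q.J i j * y j)
    (d := fun j => Q.J i j * (if j = k then 1 else 0))
    (fun j _ => (HP.coord k j x).const_mul _)
  have e : ∑ j, Q.J i j * (if j = k then (1 : ℝ) else 0) = Q.J i k := by simp
  rw [e] at h
  exact h

theorem nv_HP {x : E n} (hx : x ≠ 0) (i k : Fin n) :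
    HP k (D.Q.nv D.be i) ((if i = k then 1 else 0) - (deriv D.be (len x) / len x * x k *
      D.Q.Y x i + D.be (len x) * D.Q.J i k)) x :=
  (HP.coord k i x).sub ((HP.radial hx (hasDeriv D.be_smooth _) k).mul (HP_Y D.Q k i x))

theorem div_nv {x : E n} (hx : x ≠ 0) : ∑ i, pd i (D.Q.nv D.be i) x = n := by
  have h0 : ∀ i, pd i (D.Q.nv D.be i) x = 1 - (deriv D.be (len x) / len x *
      (x i * D.Q.Y x i) + D.be (len x) * D.Q.J i i) := by
    intro i
    rw [(nv_HP hx i i).pd, if_pos rfl]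
    ring
  simp only [h0, Finset.sum_sub_distrib, Finset.sum_add_distrib, ← Finset.mul_sum, D.Q.x_Y,
    D.Q.trace_J]
  simp

theorem nv_sq (x : E n) :
    ∑ i, D.Q.nv D.be i x ^ 2 = (1 + D.be (len x) ^ 2) * len x ^ 2 := by
  have h0 : ∀ i, D.Q.nv D.be i x ^ 2 = x i * D.Q.nv D.be i x -
      D.be (len x) * (D.Q.Y x i * D.Q.nv D.be i x) := by
    intro i
    have : D.Q.nv D.be i x = x i - D.be (len x) * D.Q.Y x i := rfl
    conv_lhs => rw [sq]; arg 1; rw [this]
    ring
  simp only [h0, Finset.sum_sub_distrib, ← Finset.mul_sum, D.Q.x_nv, D.Q.Y_nv]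
  ring

/-- the gauge structure of fitting data -/
theorem gauge_of_fits (h : Fits D g K) (hpos : ∀ y, D.R ≤ len y → (mat g y).PosDef) :
    GaugeM g D.p (D.Q.nv D.be) D.R where
  hR := D.hR
  smooth := fun i j => (h.smooth i j).1
  symm := fun y hy i j => g_symm h hy i j
  pos := hpos
  p_diff := fun r _ => D.p_smooth.differentiable (by norm_num) r
  v_diff := fun y hy l => by
    have h0 : y ≠ 0 := ne_zero_of_le hy
    unfold Cpx.nv
    refine (diff_coord l y).fun_sub ?_
    refine (diff_radial h0 (D.be_smooth.differentiable (by norm_num) _)).fun_mul ?_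
    unfold Cpx.Y
    exact DifferentiableAt.fun_sum fun j _ => (diff_coord j y).const_mul _
  xv := fun y _ => by
    rw [← D.Q.x_nv D.be y]
    exact Finset.sum_congr rfl fun i _ => mul_comm _ _
  gv := fun y hy i => g_nv h hy i

/-- the mean curvature of the spheres in terms of the coefficients -/
theorem H_formula {r : ℝ} (hr : D.R ≤ r) :
    D.H r = (((n : ℝ) - 1) / r + (D.b * (deriv D.al r / D.al r) + deriv D.q r / D.q r) / 2) /
      √(D.p r) := by
  have hr0 : 0 < r := lt_of_lt_of_le D.hR hr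
  have hal := D.al_pos r hr
  have hq := D.q_pos r hr
  have hsq : HasDerivAt (fun t : ℝ => t ^ 2) (2 * r) r := by
    simpa using hasDerivAt_pow 2 r
  have h1 : deriv D.Yb r = 2 * r * D.al r + r ^ 2 * deriv D.al r :=
    (hsq.mul (hasDeriv D.al_smooth r)).deriv
  have h2 : deriv D.Yf r = 2 * r * D.q r + r ^ 2 * deriv D.q r :=
    (hsq.mul (hasDeriv D.q_smooth r)).deriv
  unfold Data.H Data.yb Data.yf Data.lp
  rw [h1, h2]
  unfold Data.Yb Data.Yf
  congr 1
  have hb : D.b = (n : ℝ) - 2 := rfl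
  rw [hb]
  field_simp
  ring

theorem theta_eq (h : Fits D g K) (hpos : ∀ y, D.R ≤ len y → (mat g y).PosDef) {x : E n}
    (hx : D.R ≤ len x) : thetaPlus g K len x = D.H (len x) + D.k (len x) := by
  have G := gauge_of_fits h hpos
  have h0 : x ≠ 0 := ne_zero_of_le hx
  have hr : 0 < len x := lt_of_lt_of_le D.hR hx
  have hK : trS g K len x = D.k (len x) := by
    rw [G.trS_len hx]
    simp only [Wt_eq h hx, h.hK x hx]
    rw [ct_Wt_ten h0]
    rfl
  have hD : trS g (fun y i j => ∑ l, D.Q.nv D.be l y * pd l (fun z => g z i j) y) len x =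
      len x * (D.b * (deriv D.al (len x) / D.al (len x)) + deriv D.q (len x) / D.q (len x)) -
      2 * D.be (len x) ^ 2 := by
    rw [G.trS_len hx]
    simp only [Wt_eq h hx]
    exact Dv_trace h hx
  rw [G.theta_len hx, hK, hD, div_nv h0, nv_sq, H_formula hx]
  congr 2
  field_simp
  ring

/-- at the outermost point of the weakly future trapped boundary the sphere has nonpositive null
expansion -/
theorem touch (hn : 2 ≤ n) (D : Data n) {X : Exterior n} (h : Fits D X.g X.K) (hT : X.Trapped)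
    (hR : IsGreatest {r | ∃ x, X.F x = 0 ∧ len x = r} D.R) : D.H D.R + D.k D.R ≤ 0 := by
  have hout := outside_nonneg hn X hR
  have hpos : ∀ y, D.R ≤ len y → (mat X.g y).PosDef := fun y hy => X.pos y (hout y hy)
  obtain ⟨x0, hF0, hx0⟩ := hR.1
  have h1 := theta_compare (g := X.g) (K := X.K) X.dom.1 D.hR hx0
    (X.pos x0 hF0.ge) (X.dom.2.1 x0 hF0) (fun x hx => by rw [hF0]; exact hout x hx)
  have h2 := hT x0 hF0
  rw [theta_eq h hpos hx0.ge, hx0] at h1
  exact h1.trans h2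

end Vale.Agent.U1
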