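import Vale.Agent.P366.T2.Assemble
import Vale.Agent.P366.T2.U1.Scal
import Vale.Agent.P366.T2.U1.Touch
import Vale.Agent.P366.T2.U1.Amin
import Vale.Agent.P366.T2.U1.D68
import Vale.Agent.P366.T2.U1.E765

/-! The Penrose inequality for data given by `U(m)`-invariant coefficient functions. -/

open MeasureTheory Metric Filter Topology Set
open scoped BigOperators ENNReal ContDiff

noncomputable section
namespace Vale.Agent.U1
open Vale.Agent.P366.Stmt

variable {n : ℕ}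

theorem assemble (hn : 3 ≤ n) (D : Data n) {X : Exterior n} (h : Fits D X.g X.K)
    (hR : IsGreatest {r | ∃ x, X.F x = 0 ∧ len x = r} D.R)
    (hdec : ∀ r, D.R < r → |D.JN r| ≤ D.mu r) (h0 : D.H D.R + D.k D.R ≤ 0)
    (hinf : ∀ᶠ r in atTop, |D.k r| < D.H r) {m : ℝ}
    (hm : Tendsto D.mass atTop (𝓝 (2 * m))) {P : Fin n → ℝ} (hP : P = 0) :
    X.Amin ≠ ⊤ ∧ √(∑ i, P i ^ 2) < m ∧
    (X.Amin.toReal / omega n) ^ (((n : ℝ) - 2) / (n - 1)) / 2 ≤
      √(m ^ 2 - ∑ i, P i ^ 2) := by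
  obtain ⟨r, hr, hle⟩ := D.key hn hdec h0 hinf hm
  have hρ : 0 < D.rho r := D.rho_pos hr
  refine Vale.Agent.P366.T2.conclude hn hP hρ ?_ hle
  have hA := Amin_le (by omega) h hR hr
  have hn1 : (n : ℝ) - 1 ≠ 0 := by
    have : (3 : ℝ) ≤ n := by exact_mod_cast hn
    linarith
  have : D.rho r ^ ((n : ℝ) - 1) = D.ar r := by
    unfold Data.rho
    rw [← Real.rpow_mul (D.ar_pos hr).le]
    rw [one_div, inv_mul_cancel₀ hn1, Real.rpow_one]
  rw [this]
  exact hA

/-- The spacetime Penrose inequality for data given by coefficient functions outside a ball. -/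
theorem penrose_fits (hn : 3 ≤ n) (D : Data n) {X : Exterior n} (h : Fits D X.g X.K)
    (hAF : X.IsAF) (hDEC : X.DEC) (hT : X.Trapped) {m : ℝ} {P : Fin n → ℝ} (hm : X.IsEnergy m)
    (hP : X.IsMomentum P) (hR : IsGreatest {r | ∃ x, X.F x = 0 ∧ len x = r} D.R) :
    P = 0 ∧ X.Amin ≠ ⊤ ∧ √(∑ i, P i ^ 2) < m ∧
    (X.Amin.toReal / omega n) ^ (((n : ℝ) - 2) / (n - 1)) / 2 ≤
      √(m ^ 2 - ∑ i, P i ^ 2) := by
  obtain ⟨h1, h2, h3⟩ := asympt hn D h hAF hm hP
  have hout := Vale.Agent.C92.outside_nonneg (by omega) X hR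
  refine ⟨h3, assemble hn D h hR ?_ (touch (by omega) D h hT hR) h2 h1 h3⟩
  intro r hr
  have hr0 : 0 < r := D.hR.trans hr
  set x : E n := EuclideanSpace.single ⟨0, by omega⟩ r with hxdef
  have hx : len x = r := by
    rw [hxdef, len, PiLp.norm_single, Real.norm_eq_abs, abs_of_pos hr0]
  have hx' : D.R < len x := by rw [hx]; exact hr
  have := dec_eq h hx' (hDEC x (hout x hx'.le)) (scal_eq h hx')
  rwa [hx] at this

end Vale.Agent.U1
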