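import Vale.Agent.P366.T2.U1.Touch
import Vale.Agent.P366.T2.MomX68

/-! Trace and norm of `K` for `U(m)`-invariant data. -/

open MeasureTheory Metric Filter Topology Set
open scoped ContDiff ENNReal

noncomputable section
namespace Vale.Agent.U1.B68
open Vale.Agent.P366.Stmt
open Vale.Agent.P366.T2 (HP hasFDerivAt_len)
open Vale.Agent.Mom68

variable {n : ℕ} {D : Data n} {g K : Field n}

/-- endomorphisms in the adapted frame -/
def mt (D : Data n) (f a b c d : ℝ) (x : E n) (i k : Fin n) : ℝ :=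
  f * D.Q.Pi x i k + ((a * D.Q.nv D.be i x + c * D.Q.Y x i) * x k +
    (b * D.Q.nv D.be i x + d * D.Q.Y x i) * D.Q.Z D.be x k) / len x ^ 2

lemma Pi_nv' {x : E n} (hx : x ≠ 0) (i : Fin n) : ∑ k, D.Q.Pi x i k * D.Q.nv D.be k x = 0 :=
  D.Q.Pi_nv hx D.be i

lemma x_Pi {x : E n} (hx : x ≠ 0) (j : Fin n) : ∑ k, x k * D.Q.Pi x k j = 0 := by
  rw [← D.Q.Pi_x hx j]
  exact Finset.sum_congr rfl fun k _ => by rw [D.Q.Pi_symm x k j]; ring

lemma Z_Pi {x : E n} (hx : x ≠ 0) (j : Fin n) : ∑ k, D.Q.Z D.be x k * D.Q.Pi x k j = 0 := by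
  rw [← D.Q.Pi_Z hx D.be j]
  exact Finset.sum_congr rfl fun k _ => by rw [D.Q.Pi_symm x k j]; ring

lemma Z_Y (x : E n) : ∑ i, D.Q.Z D.be x i * D.Q.Y x i = len x ^ 2 := by
  rw [← D.Q.Y_Z D.be x]; exact Finset.sum_congr rfl fun j _ => mul_comm _ _

lemma nv_x (x : E n) : ∑ i, D.Q.nv D.be i x * x i = len x ^ 2 := by
  rw [← D.Q.x_nv D.be x]; exact Finset.sum_congr rfl fun j _ => mul_comm _ _

lemma nv_Z (x : E n) : ∑ i, D.Q.nv D.be i x * D.Q.Z D.be x i = 0 := by
  rw [← D.Q.Z_nv D.be x]; exact Finset.sum_congr rfl fun j _ => mul_comm _ _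

lemma mt_trace {x : E n} (hx : x ≠ 0) (f a b c d : ℝ) :
    ∑ i, mt D f a b c d x i i = ((n : ℝ) - 2) * f + a + d := by
  have hr := len_ne hx
  have h : ∀ i, mt D f a b c d x i i = f * D.Q.Pi x i i +
      (a * (D.Q.nv D.be i x * x i) + c * (D.Q.Y x i * x i) +
        b * (D.Q.nv D.be i x * D.Q.Z D.be x i) + d * (D.Q.Y x i * D.Q.Z D.be x i)) /
        len x ^ 2 := by
    intro i
    unfold mt
    ring
  simp only [h, Finset.sum_add_distrib, ← Finset.mul_sum, ← Finset.sum_div, D.Q.trace_Pi hx,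
    nv_x, D.Q.Y_x, nv_Z, D.Q.Y_Z]
  field_simp
  ring

lemma mt_mul {x : E n} (hx : x ≠ 0) (f a b c d f' a' b' c' d' : ℝ) (i j : Fin n) :
    ∑ k, mt D f a b c d x i k * mt D f' a' b' c' d' x k j =
      mt D (f * f') (a * a' + b * c') (a * b' + b * d') (c * a' + d * c') (c * b' + d * d')
        x i j := by
  have hr := len_ne hx
  have h : ∀ k, mt D f a b c d x i k * mt D f' a' b' c' d' x k j =
      f * f' * (D.Q.Pi x i k * D.Q.Pi x k j) +
      f * (a' * x j + b' * D.Q.Z D.be x j) / len x ^ 2 * (D.Q.Pi x i k * D.Q.nv D.be k x) +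
      f * (c' * x j + d' * D.Q.Z D.be x j) / len x ^ 2 * (D.Q.Pi x i k * D.Q.Y x k) +
      f' * (a * D.Q.nv D.be i x + c * D.Q.Y x i) / len x ^ 2 * (x k * D.Q.Pi x k j) +
      f' * (b * D.Q.nv D.be i x + d * D.Q.Y x i) / len x ^ 2 * (D.Q.Z D.be x k * D.Q.Pi x k j) +
      (a * D.Q.nv D.be i x + c * D.Q.Y x i) * (a' * x j + b' * D.Q.Z D.be x j) / len x ^ 4 *
        (x k * D.Q.nv D.be k x) +
      (a * D.Q.nv D.be i x + c * D.Q.Y x i) * (c' * x j + d' * D.Q.Z D.be x j) / len x ^ 4 *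
        (x k * D.Q.Y x k) +
      (b * D.Q.nv D.be i x + d * D.Q.Y x i) * (a' * x j + b' * D.Q.Z D.be x j) / len x ^ 4 *
        (D.Q.Z D.be x k * D.Q.nv D.be k x) +
      (b * D.Q.nv D.be i x + d * D.Q.Y x i) * (c' * x j + d' * D.Q.Z D.be x j) / len x ^ 4 *
        (D.Q.Z D.be x k * D.Q.Y x k) := by
    intro k
    unfold mt
    field_simp
    ring
  simp only [h, Finset.sum_add_distrib, ← Finset.mul_sum, D.Q.Pi_Pi hx, Pi_nv' hx,
    D.Q.Pi_Y hx, x_Pi hx, Z_Pi hx, D.Q.x_nv, D.Q.x_Y, D.Q.Z_nv, Z_Y]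
  unfold mt
  field_simp
  ring

/-- `U T` for invariant `T` -/
lemma UT (h : Fits D g K) {x : E n} (hx : D.R ≤ len x) (f u w s : ℝ → ℝ) (i j : Fin n) :
    ∑ k, up g i k x * D.Q.ten D.be f u w s x k j =
      mt D (f (len x) / D.al (len x)) (u (len x) / D.p (len x)) (w (len x) / D.p (len x))
        (w (len x) / D.q (len x)) (s (len x) / D.q (len x)) x i j := by
  have hx0 := ne_zero_of_le hx
  have hr := len_ne hx0
  have hal := (D.al_pos _ hx).ne'
  have hp := (D.p_pos _ hx).ne'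
  have hq := (D.q_pos _ hx).ne'
  have h1 : ∀ k, up g i k x * D.Q.ten D.be f u w s x k j =
      1 / D.al (len x) * (D.Q.ten D.be f u w s x j k * D.Q.Pi x k i) +
      (D.Q.nv D.be i x / D.p (len x) * (D.Q.ten D.be f u w s x j k * D.Q.nv D.be k x) +
      D.Q.Y x i / D.q (len x) * (D.Q.ten D.be f u w s x j k * D.Q.Y x k)) / len x ^ 2 := by
    intro k
    rw [up_eq h hx, UM, D.Q.ten_symm _ _ _ _ _ x k j, D.Q.Pi_symm x i k]
    ring
  have h2 : ∑ k, D.Q.ten D.be f u w s x j k * D.Q.Pi x k i = f (len x) * D.Q.Pi x j i := by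
    rw [D.Q.ten_vec, D.Q.Pi_Pi hx0, x_Pi hx0, Z_Pi hx0]
    ring
  simp only [h1, Finset.sum_add_distrib, ← Finset.mul_sum, ← Finset.sum_div, h2,
    D.Q.ten_nv hx0, D.Q.ten_Y hx0]
  rw [D.Q.Pi_symm x j i]
  unfold mt
  field_simp
  ring

lemma up_symm (h : Fits D g K) {x : E n} (hx : D.R ≤ len x) (i j : Fin n) :
    up g i j x = up g j i x := by
  rw [up_eq h hx, up_eq h hx, UM_symm]

theorem tr_eq (h : Fits D g K) {x : E n} (hx : D.R ≤ len x) :
    tr g K x = D.k (len x) + D.KN (len x) := by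
  have hx0 := ne_zero_of_le hx
  have h1 : tr g K x = ∑ i, ∑ k, up g i k x * K x k i := by
    unfold tr
    exact Finset.sum_congr rfl fun i _ => Finset.sum_congr rfl fun j _ => by
      rw [K_symm h hx i j]
  rw [h1]
  simp only [h.hK x hx, UT h hx, mt_trace hx0]
  unfold Data.k Data.KN Data.b
  ring

theorem normSq_eq (h : Fits D g K) {x : E n} (hx : D.R ≤ len x) :
    normSq g K x = D.KS2 (len x) + 2 * D.be2 (len x) + D.KN (len x) ^ 2 := by
  have hx0 := ne_zero_of_le hx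
  have hp := (D.p_pos _ hx).ne'
  have hq := (D.q_pos _ hx).ne'
  have h1 : normSq g K x = ∑ i, ∑ l, (∑ k, up g i k x * K x k l) * (∑ j, up g l j x * K x j i) := by
    unfold normSq
    refine Finset.sum_congr rfl fun i _ => ?_
    have e1 : ∀ l, (∑ k, up g i k x * K x k l) * (∑ j, up g l j x * K x j i) =
        ∑ k, ∑ j, up g i k x * up g j l x * K x i j * K x k l := by
      intro l
      rw [Finset.sum_mul_sum]
      refine Finset.sum_congr rfl fun k _ => Finset.sum_congr rfl fun j _ => ?_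
      rw [up_symm h hx l j, K_symm h hx j i]
      ring
    simp only [e1]
    calc ∑ j, ∑ k, ∑ l, up g i k x * up g j l x * K x i j * K x k l
        = ∑ k, ∑ j, ∑ l, up g i k x * up g j l x * K x i j * K x k l := Finset.sum_comm
      _ = ∑ k, ∑ l, ∑ j, up g i k x * up g j l x * K x i j * K x k l :=
          Finset.sum_congr rfl fun k _ => Finset.sum_comm
      _ = ∑ l, ∑ k, ∑ j, up g i k x * up g j l x * K x i j * K x k l := Finset.sum_comm
  rw [h1]
  simp only [h.hK x hx, UT h hx, mt_mul hx0, mt_trace hx0]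
  unfold Data.KS2 Data.be2 Data.KN Data.b
  field_simp
  ring

/-- `π` -/
lemma pi_ten (h : Fits D g K) {x : E n} (hx : D.R ≤ len x) (i j : Fin n) :
    momT g K x i j = D.Q.ten D.be (fun r => D.ka r - (D.k r + D.KN r) * D.al r)
      (fun r => -(D.p r * D.k r)) D.v (fun r => D.s r - (D.k r + D.KN r) * D.q r) x i j := by
  have hp := (D.p_pos _ hx).ne'
  have h1 : momT g K x i j = K x i j - tr g K x * g x i j := rfl
  have h2 : D.kn (len x) = D.KN (len x) * D.p (len x) := by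
    unfold Data.KN
    field_simp
  rw [h1, tr_eq h hx, h.hK x hx, h.hg x hx]
  unfold Cpx.ten
  rw [h2]
  ring

lemma WX_eq (h : Fits D g K) {x : E n} (hx : D.R ≤ len x) (k : Fin n) :
    WX g K (D.Q.nv D.be) k x = -D.k (len x) * x k +
      (D.k (len x) * D.be (len x) + D.v (len x) / D.q (len x)) * D.Q.Y x k := by
  have hx0 := ne_zero_of_le hx
  have hr := len_ne hx0
  have hp := (D.p_pos _ hx).ne'
  have hq := (D.q_pos _ hx).ne'
  have h1 : WX g K (D.Q.nv D.be) k x = ∑ j, (∑ i, up g k i x * momT g K x i j) *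
      D.Q.nv D.be j x := by
    unfold WX
    simp only [Finset.mul_sum, Finset.sum_mul]
    rw [Finset.sum_comm]
    exact Finset.sum_congr rfl fun j _ => Finset.sum_congr rfl fun i _ => by ring
  rw [h1]
  simp only [pi_ten h hx, UT h hx]
  have h2 : ∀ j, mt D ((D.ka (len x) - (D.k (len x) + D.KN (len x)) * D.al (len x)) /
      D.al (len x)) (-(D.p (len x) * D.k (len x)) / D.p (len x)) (D.v (len x) / D.p (len x))
      (D.v (len x) / D.q (len x)) ((D.s (len x) - (D.k (len x) + D.KN (len x)) * D.q (len x)) /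
      D.q (len x)) x k j * D.Q.nv D.be j x =
      (D.ka (len x) - (D.k (len x) + D.KN (len x)) * D.al (len x)) / D.al (len x) *
        (D.Q.Pi x k j * D.Q.nv D.be j x) +
      ((-(D.p (len x) * D.k (len x)) / D.p (len x)) * D.Q.nv D.be k x +
        (D.v (len x) / D.q (len x)) * D.Q.Y x k) / len x ^ 2 * (x j * D.Q.nv D.be j x) +
      ((D.v (len x) / D.p (len x)) * D.Q.nv D.be k x + ((D.s (len x) - (D.k (len x) +
        D.KN (len x)) * D.q (len x)) / D.q (len x)) * D.Q.Y x k) / len x ^ 2 *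
        (D.Q.Z D.be x j * D.Q.nv D.be j x) := by
    intro j
    unfold mt
    ring
  simp only [h2, Finset.sum_add_distrib, ← Finset.mul_sum, Pi_nv' hx0, D.Q.x_nv, D.Q.Z_nv]
  unfold Cpx.nv
  field_simp
  ring

end Vale.Agent.U1.B68
end
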