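import Vale.Agent.P366.T2.U1.B68

/-! Momentum density and dominant energy condition for `U(m)`-invariant data. -/

open MeasureTheory Metric Filter Topology Set
open scoped ContDiff ENNReal

noncomputable section
namespace Vale.Agent.U1.B68
open Vale.Agent.P366.Stmt
open Vale.Agent.P366.T2 (HP hasFDerivAt_len Lg)
open Vale.Agent.Mom68

variable {n : ℕ} {D : Data n} {g K : Field n}

/-- coefficient of `x x` -/
def gB (D : Data n) (r : ℝ) : ℝ := (D.p r + D.q r * D.be r ^ 2 - D.al r) / r ^ 2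

/-- coefficient of `Y Y` -/
def gC (D : Data n) (r : ℝ) : ℝ := (D.q r - D.al r) / r ^ 2

/-- coefficient of `x Y + Y x` -/
def gM (D : Data n) (r : ℝ) : ℝ := D.q r * D.be r / r ^ 2

def gB' (D : Data n) (r : ℝ) : ℝ := (deriv D.p r + deriv D.q r * D.be r ^ 2 +
  2 * D.q r * D.be r * deriv D.be r - deriv D.al r) / r ^ 2 - 2 * gB D r / r

def gC' (D : Data n) (r : ℝ) : ℝ := (deriv D.q r - deriv D.al r) / r ^ 2 - 2 * gC D r / r

def gM' (D : Data n) (r : ℝ) : ℝ :=
  (deriv D.q r * D.be r + D.q r * deriv D.be r) / r ^ 2 - 2 * gM D r / r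

lemma gB_hd {r : ℝ} (hr : 0 < r) : HasDerivAt (gB D) (gB' D r) r := by
  have h0 : HasDerivAt (fun r => D.p r + D.q r * D.be r ^ 2 - D.al r)
      (deriv D.p r + deriv D.q r * D.be r ^ 2 + 2 * D.q r * D.be r * deriv D.be r -
        deriv D.al r) r := by
    refine (((hasDeriv D.p_smooth r).add ((hasDeriv D.q_smooth r).mul
      ((hasDeriv D.be_smooth r).pow 2))).sub (hasDeriv D.al_smooth r)).congr_deriv ?_
    push_cast
    simp only [Pi.pow_apply]
    ring
  have h1 := h0.div (hasDerivAt_pow 2 r) (by positivity)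
  refine h1.congr_deriv ?_
  unfold gB' gB
  field_simp
  push_cast
  ring

lemma gC_hd {r : ℝ} (hr : 0 < r) : HasDerivAt (gC D) (gC' D r) r := by
  have h0 := (hasDeriv D.q_smooth r).sub (hasDeriv D.al_smooth r)
  have h1 := h0.div (hasDerivAt_pow 2 r) (by positivity)
  refine h1.congr_deriv ?_
  unfold gC' gC
  simp only [Pi.sub_apply]
  field_simp
  push_cast
  ring

lemma gM_hd {r : ℝ} (hr : 0 < r) : HasDerivAt (gM D) (gM' D r) r := by
  have h0 := (hasDeriv D.q_smooth r).mul (hasDeriv D.be_smooth r)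
  have h1 := h0.div (hasDerivAt_pow 2 r) (by positivity)
  refine h1.congr_deriv ?_
  unfold gM' gM
  simp only [Pi.mul_apply]
  field_simp
  push_cast
  ring

lemma near {x : E n} (hx : D.R < len x) : ∀ᶠ y in 𝓝 x, D.R ≤ len y := by
  have hlen : Continuous fun y : E n => len y := continuous_norm
  filter_upwards [(isOpen_lt continuous_const hlen).mem_nhds hx] with y hy
  exact le_of_lt hy

lemma g_form (h : Fits D g K) {y : E n} (hy : D.R ≤ len y) (i k : Fin n) :
    g y i k = D.al (len y) * (if i = k then 1 else 0) + gB D (len y) * (y i * y k) +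
      gC D (len y) * (D.Q.Y y i * D.Q.Y y k) +
      gM D (len y) * (y i * D.Q.Y y k + D.Q.Y y i * y k) := by
  rw [h.hg y hy i k]
  unfold Cpx.ten Cpx.Pi Cpx.Z gB gC gM
  ring

lemma pd_g (h : Fits D g K) {x : E n} (hx : D.R < len x) (m i k : Fin n) :
    pd m (fun y => g y i k) x =
      deriv D.al (len x) / len x * x m * (if i = k then 1 else 0) +
      (gB' D (len x) / len x * x m * (x i * x k) + gB D (len x) *
        ((if i = m then 1 else 0) * x k + x i * (if k = m then 1 else 0))) +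
      (gC' D (len x) / len x * x m * (D.Q.Y x i * D.Q.Y x k) + gC D (len x) *
        (D.Q.J i m * D.Q.Y x k + D.Q.Y x i * D.Q.J k m)) +
      (gM' D (len x) / len x * x m * (x i * D.Q.Y x k + D.Q.Y x i * x k) + gM D (len x) *
        (((if i = m then 1 else 0) * D.Q.Y x k + x i * D.Q.J k m) +
          (D.Q.J i m * x k + D.Q.Y x i * (if k = m then 1 else 0)))) := by
  have hx0 : x ≠ 0 := ne_zero_of_le hx.le
  have hr : 0 < len x := len_pos hx0
  have h1 : HP m (fun y => D.al (len y) * (if i = k then (1 : ℝ) else 0) +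
      gB D (len y) * (y i * y k) + gC D (len y) * (D.Q.Y y i * D.Q.Y y k) +
      gM D (len y) * (y i * D.Q.Y y k + D.Q.Y y i * y k)) _ x :=
    ((((HP.radial hx0 (hasDeriv D.al_smooth (len x)) m).mul (HP.const m _ x)).add
      ((HP.radial hx0 (gB_hd hr) m).mul ((HP.coord m i x).mul (HP.coord m k x)))).add
      ((HP.radial hx0 (gC_hd hr) m).mul ((HP_Y D.Q m i x).mul (HP_Y D.Q m k x)))).add
      ((HP.radial hx0 (gM_hd hr) m).mul
        (((HP.coord m i x).mul (HP_Y D.Q m k x)).add ((HP_Y D.Q m i x).mul (HP.coord m k x))))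
  have h2 : (fun y => g y i k) =ᶠ[𝓝 x] (fun y => D.al (len y) * (if i = k then (1 : ℝ) else 0) +
      gB D (len y) * (y i * y k) + gC D (len y) * (D.Q.Y y i * D.Q.Y y k) +
      gM D (len y) * (y i * D.Q.Y y k + D.Q.Y y i * y k)) := by
    filter_upwards [near hx] with y hy
    exact g_form h hy i k
  rw [(h1.congr h2).pd]
  ring

/-- `J n = Z` -/
lemma J_nv (x : E n) (k : Fin n) : ∑ j, D.Q.J k j * D.Q.nv D.be j x = D.Q.Z D.be x k := by
  have h1 : ∀ j, D.Q.J k j * D.Q.nv D.be j x = D.Q.J k j * x j -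
      D.be (len x) * (D.Q.J k j * D.Q.Y x j) := by
    intro j; unfold Cpx.nv; ring
  simp only [h1, Finset.sum_sub_distrib, ← Finset.mul_sum, D.Q.J_Y, D.Q.J_x]
  unfold Cpx.Z
  ring

/-- derivative of the metric along `n` -/
lemma Dn_g (h : Fits D g K) {x : E n} (hx : D.R < len x) (k m : Fin n) :
    ∑ j, D.Q.nv D.be j x * pd j (fun y => g y k m) x =
      len x * deriv D.al (len x) * (if k = m then 1 else 0) +
      (len x * gB' D (len x) * (x k * x m) + gB D (len x) *
        (D.Q.nv D.be k x * x m + x k * D.Q.nv D.be m x)) +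
      (len x * gC' D (len x) * (D.Q.Y x k * D.Q.Y x m) + gC D (len x) *
        (D.Q.Z D.be x k * D.Q.Y x m + D.Q.Y x k * D.Q.Z D.be x m)) +
      (len x * gM' D (len x) * (x k * D.Q.Y x m + D.Q.Y x k * x m) + gM D (len x) *
        ((D.Q.nv D.be k x * D.Q.Y x m + x k * D.Q.Z D.be x m) +
          (D.Q.Z D.be x k * x m + D.Q.Y x k * D.Q.nv D.be m x))) := by
  have hx0 : x ≠ 0 := ne_zero_of_le hx.le
  have hr : 0 < len x := len_pos hx0
  have h1 : ∀ j, D.Q.nv D.be j x * pd j (fun y => g y k m) x =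
      (deriv D.al (len x) / len x * (if k = m then 1 else 0) +
        gB' D (len x) / len x * (x k * x m) + gC' D (len x) / len x * (D.Q.Y x k * D.Q.Y x m) +
        gM' D (len x) / len x * (x k * D.Q.Y x m + D.Q.Y x k * x m)) *
        (x j * D.Q.nv D.be j x) +
      (gB D (len x) * x m + gM D (len x) * D.Q.Y x m) *
        ((if k = j then D.Q.nv D.be j x else 0)) +
      (gB D (len x) * x k + gM D (len x) * D.Q.Y x k) *
        ((if m = j then D.Q.nv D.be j x else 0)) +
      (gC D (len x) * D.Q.Y x m + gM D (len x) * x m) * (D.Q.J k j * D.Q.nv D.be j x) +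
      (gC D (len x) * D.Q.Y x k + gM D (len x) * x k) * (D.Q.J m j * D.Q.nv D.be j x) := by
    intro j
    rw [pd_g h hx]
    split_ifs <;> ring
  simp only [h1, Finset.sum_add_distrib, ← Finset.mul_sum, D.Q.x_nv, J_nv, Finset.sum_ite_eq,
    Finset.mem_univ, if_true]
  field_simp
  ring

lemma g_J (h : Fits D g K) {x : E n} (hx : D.R ≤ len x) (m k : Fin n) :
    ∑ j, g x m j * D.Q.J j k = D.al (len x) * D.Q.J m k - gB D (len x) * (x m * D.Q.Y x k) +
      gC D (len x) * (D.Q.Y x m * x k) + gM D (len x) * (x m * x k - D.Q.Y x m * D.Q.Y x k) := by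
  have h1 : ∀ j, g x m j * D.Q.J j k = D.al (len x) * (if m = j then D.Q.J j k else 0) +
      (gB D (len x) * x m + gM D (len x) * D.Q.Y x m) * (D.Q.J j k * x j) +
      (gC D (len x) * D.Q.Y x m + gM D (len x) * x m) * (D.Q.J j k * D.Q.Y x j) := by
    intro j
    rw [g_form h hx]
    split_ifs <;> ring
  simp only [h1, Finset.sum_add_distrib, ← Finset.mul_sum, D.Q.JT_x, D.Q.JT_Y, Finset.sum_ite_eq,
    Finset.mem_univ, if_true]
  ring

/-- `L_n g` -/
lemma Lie_eq (h : Fits D g K) {x : E n} (hx : D.R < len x) (k m : Fin n) :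
    Lie g (D.Q.nv D.be) k m x = D.Q.ten D.be (fun r => r * deriv D.al r + 2 * D.al r)
      (fun r => r * deriv D.p r + 2 * D.p r) (fun _ => 0)
      (fun r => r * deriv D.q r + 2 * D.q r) x k m := by
  have hx0 : x ≠ 0 := ne_zero_of_le hx.le
  have hr : 0 < len x := len_pos hx0
  have hpd : ∀ i j, pd i (D.Q.nv D.be j) x = (if j = i then 1 else 0) -
      (deriv D.be (len x) / len x * x i * D.Q.Y x j + D.be (len x) * D.Q.J j i) :=
    fun i j => (nv_HP hx0 j i).pd
  have h2 : ∀ a b, ∑ j, g x a j * pd b (D.Q.nv D.be j) x = g x a b -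
      deriv D.be (len x) / len x * x b * (D.q (len x) * D.Q.Z D.be x a) -
      D.be (len x) * (D.al (len x) * D.Q.J a b - gB D (len x) * (x a * D.Q.Y x b) +
      gC D (len x) * (D.Q.Y x a * x b) + gM D (len x) * (x a * x b - D.Q.Y x a * D.Q.Y x b)) := by
    intro a b
    rw [← g_J h hx.le, ← g_Y h hx.le]
    have h3 : ∀ j, g x a j * pd b (D.Q.nv D.be j) x = (if j = b then g x a j else 0) -
        deriv D.be (len x) / len x * x b * (g x a j * D.Q.Y x j) -
        D.be (len x) * (g x a j * D.Q.J j b) := by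
      intro j
      rw [hpd]
      split_ifs <;> ring
    simp only [h3, Finset.sum_sub_distrib, ← Finset.mul_sum, Finset.sum_ite_eq',
      Finset.mem_univ, if_true]
  have h4 : Lie g (D.Q.nv D.be) k m x =
      ∑ j, D.Q.nv D.be j x * pd j (fun y => g y k m) x +
      ∑ j, g x m j * pd k (D.Q.nv D.be j) x + ∑ j, g x k j * pd m (D.Q.nv D.be j) x := by
    unfold Lie
    simp only [Finset.sum_add_distrib]
    congr 2
    exact Finset.sum_congr rfl fun j _ => by rw [g_symm h hx.le j m]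
  have h5 : D.Q.J m k = -D.Q.J k m := D.Q.skew_apply k m
  rw [h4, Dn_g h hx, h2, h2, g_form h hx.le, g_form h hx.le, h5]
  have h6 : (if m = k then (1 : ℝ) else 0) = if k = m then 1 else 0 := by
    simp only [eq_comm]
  rw [h6]
  unfold Cpx.ten Cpx.Pi Cpx.nv Cpx.Z gB' gC' gM' gB gC gM
  field_simp
  ring

/-- `U x = n / p` -/
lemma U_x (h : Fits D g K) {x : E n} (hx : D.R ≤ len x) (i : Fin n) :
    ∑ k, up g i k x * x k = D.Q.nv D.be i x / D.p (len x) := by
  have hx0 := ne_zero_of_le hx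
  have hr := len_ne hx0
  have h1 : ∀ k, up g i k x * x k = 1 / D.al (len x) * (D.Q.Pi x i k * x k) +
      (D.Q.nv D.be i x / D.p (len x) * (D.Q.nv D.be k x * x k) +
      D.Q.Y x i / D.q (len x) * (D.Q.Y x k * x k)) / len x ^ 2 := by
    intro k
    rw [up_eq h hx, UM]
    ring
  simp only [h1, Finset.sum_add_distrib, ← Finset.mul_sum, ← Finset.sum_div, D.Q.Pi_x hx0, nv_x,
    D.Q.Y_x]
  field_simp
  ring

/-- `U Y = Y / q - be n / p` -/
lemma U_Y (h : Fits D g K) {x : E n} (hx : D.R ≤ len x) (i : Fin n) :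
    ∑ k, up g i k x * D.Q.Y x k = D.Q.Y x i / D.q (len x) -
      D.be (len x) * D.Q.nv D.be i x / D.p (len x) := by
  have hx0 := ne_zero_of_le hx
  have hr := len_ne hx0
  have h2 : ∑ k, D.Q.nv D.be k x * D.Q.Y x k = -(D.be (len x) * len x ^ 2) := by
    rw [← D.Q.Y_nv]; exact Finset.sum_congr rfl fun j _ => mul_comm _ _
  have h1 : ∀ k, up g i k x * D.Q.Y x k = 1 / D.al (len x) * (D.Q.Pi x i k * D.Q.Y x k) +
      (D.Q.nv D.be i x / D.p (len x) * (D.Q.nv D.be k x * D.Q.Y x k) +
      D.Q.Y x i / D.q (len x) * (D.Q.Y x k * D.Q.Y x k)) / len x ^ 2 := by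
    intro k
    rw [up_eq h hx, UM]
    ring
  simp only [h1, Finset.sum_add_distrib, ← Finset.mul_sum, ← Finset.sum_div, D.Q.Pi_Y hx0, h2,
    D.Q.Y_Y]
  field_simp
  ring

lemma U_tr (h : Fits D g K) {x : E n} (hx : D.R ≤ len x) :
    ∑ i, up g i i x = ((n : ℝ) - 2) / D.al (len x) + (1 + D.be (len x) ^ 2) / D.p (len x) +
      1 / D.q (len x) := by
  have hx0 := ne_zero_of_le hx
  have hr := len_ne hx0
  have h1 : ∀ k, up g k k x = 1 / D.al (len x) * D.Q.Pi x k k +
      (1 / D.p (len x) * D.Q.nv D.be k x ^ 2 +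
      1 / D.q (len x) * (D.Q.Y x k * D.Q.Y x k)) / len x ^ 2 := by
    intro k
    rw [up_eq h hx, UM]
    ring
  simp only [h1, Finset.sum_add_distrib, ← Finset.mul_sum, ← Finset.sum_div, D.Q.trace_Pi hx0,
    nv_sq, D.Q.Y_Y]
  field_simp
  ring

lemma JT_nv (x : E n) (k : Fin n) : ∑ j, D.Q.J j k * D.Q.nv D.be j x = -D.Q.Z D.be x k := by
  rw [← J_nv, ← Finset.sum_neg_distrib]
  exact Finset.sum_congr rfl fun j _ => by rw [D.Q.skew_apply k j]; ring

/-- the covector `L` -/
lemma L_eq (h : Fits D g K) {x : E n} (hx : D.R < len x) (m : Fin n) :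
    Lg g m x = (1 / 2) * (x m / len x * (((n : ℝ) - 2) * deriv D.al (len x) / D.al (len x) +
      deriv D.p (len x) / D.p (len x) + deriv D.q (len x) / D.q (len x))) := by
  have hx0 : x ≠ 0 := ne_zero_of_le hx.le
  have hr : 0 < len x := len_pos hx0
  have hal := (D.al_pos _ hx.le).ne'
  have hp := (D.p_pos _ hx.le).ne'
  have hq := (D.q_pos _ hx.le).ne'
  have us : ∀ i k, up g i k x = up g k i x := fun i k => up_symm h hx.le i k
  have c1 : ∑ i, ∑ k, up g i k x * (if i = k then 1 else 0) = ∑ i, up g i i x := by simp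
  have c2 : ∑ i, ∑ k, up g i k x * (x i * x k) = len x ^ 2 / D.p (len x) := by
    have : ∀ i, ∑ k, up g i k x * (x i * x k) = x i * (∑ k, up g i k x * x k) := fun i => by
      rw [Finset.mul_sum]; exact Finset.sum_congr rfl fun k _ => by ring
    simp only [this, U_x h hx.le]
    have e : ∀ i, x i * (D.Q.nv D.be i x / D.p (len x)) =
        1 / D.p (len x) * (x i * D.Q.nv D.be i x) := fun i => by ring
    simp only [e, ← Finset.mul_sum, D.Q.x_nv]
    ring
  have c3 : ∀ a : Fin n → ℝ, ∑ i, ∑ k, up g i k x * (a i * x k) =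
      ∑ i, a i * (D.Q.nv D.be i x / D.p (len x)) := by
    intro a
    refine Finset.sum_congr rfl fun i _ => ?_
    rw [← U_x h hx.le, Finset.mul_sum]
    exact Finset.sum_congr rfl fun k _ => by ring
  have c3' : ∀ a : Fin n → ℝ, ∑ i, ∑ k, up g i k x * (x i * a k) =
      ∑ i, a i * (D.Q.nv D.be i x / D.p (len x)) := by
    intro a
    rw [← c3, Finset.sum_comm]
    exact Finset.sum_congr rfl fun i _ => Finset.sum_congr rfl fun k _ => by rw [us]; ring
  have c4 : ∀ a : Fin n → ℝ, ∑ i, ∑ k, up g i k x * (a i * D.Q.Y x k) =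
      ∑ i, a i * (D.Q.Y x i / D.q (len x) - D.be (len x) * D.Q.nv D.be i x / D.p (len x)) := by
    intro a
    refine Finset.sum_congr rfl fun i _ => ?_
    rw [← U_Y h hx.le, Finset.mul_sum]
    exact Finset.sum_congr rfl fun k _ => by ring
  have c4' : ∀ a : Fin n → ℝ, ∑ i, ∑ k, up g i k x * (D.Q.Y x i * a k) =
      ∑ i, a i * (D.Q.Y x i / D.q (len x) - D.be (len x) * D.Q.nv D.be i x / D.p (len x)) := by
    intro a
    rw [← c4, Finset.sum_comm]
    exact Finset.sum_congr rfl fun i _ => Finset.sum_congr rfl fun k _ => by rw [us]; ring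
  have h1 : ∀ i k, up g i k x * pd m (fun y => g y i k) x =
      deriv D.al (len x) / len x * x m * (up g i k x * (if i = k then 1 else 0)) +
      gB' D (len x) / len x * x m * (up g i k x * (x i * x k)) +
      gB D (len x) * (up g i k x * ((if i = m then 1 else 0) * x k)) +
      gB D (len x) * (up g i k x * (x i * (if k = m then 1 else 0))) +
      gC' D (len x) / len x * x m * (up g i k x * (D.Q.Y x i * D.Q.Y x k)) +
      gC D (len x) * (up g i k x * (D.Q.J i m * D.Q.Y x k)) +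
      gC D (len x) * (up g i k x * (D.Q.Y x i * D.Q.J k m)) +
      gM' D (len x) / len x * x m * (up g i k x * (x i * D.Q.Y x k)) +
      gM' D (len x) / len x * x m * (up g i k x * (D.Q.Y x i * x k)) +
      gM D (len x) * (up g i k x * ((if i = m then 1 else 0) * D.Q.Y x k)) +
      gM D (len x) * (up g i k x * (x i * D.Q.J k m)) +
      gM D (len x) * (up g i k x * (D.Q.J i m * x k)) +
      gM D (len x) * (up g i k x * (D.Q.Y x i * (if k = m then 1 else 0))) := by
    intro i k
    rw [pd_g h hx]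
    ring
  have h2 : ∑ i, ∑ k, up g i k x * pd m (fun y => g y i k) x = x m / len x *
      (((n : ℝ) - 2) * deriv D.al (len x) / D.al (len x) +
      deriv D.p (len x) / D.p (len x) + deriv D.q (len x) / D.q (len x)) := by
    simp only [h1, Finset.sum_add_distrib, ← Finset.mul_sum]
    rw [c1, c2, c3, c3', c4, c4 (fun i => D.Q.J i m), c4', c4 (fun i => x i), c3 (fun i => D.Q.Y x i),
      c4, c3', c3 (fun i => D.Q.J i m), c4', U_tr h hx.le]
    have e1 : ∀ F : Fin n → ℝ, ∑ i, (if i = m then (1 : ℝ) else 0) * F i = F m := by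
      intro F; simp
    have e2 : ∀ a : Fin n → ℝ, ∑ i, a i * (D.Q.nv D.be i x / D.p (len x)) =
        (∑ i, a i * D.Q.nv D.be i x) / D.p (len x) := by
      intro a; rw [Finset.sum_div]; exact Finset.sum_congr rfl fun i _ => by ring
    have e3 : ∀ a : Fin n → ℝ, ∑ i, a i * (D.Q.Y x i / D.q (len x) -
        D.be (len x) * D.Q.nv D.be i x / D.p (len x)) =
        (∑ i, a i * D.Q.Y x i) / D.q (len x) -
          D.be (len x) * (∑ i, a i * D.Q.nv D.be i x) / D.p (len x) := by
      intro a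
      rw [Finset.sum_div, Finset.mul_sum, Finset.sum_div, ← Finset.sum_sub_distrib]
      exact Finset.sum_congr rfl fun i _ => by ring
    simp only [e2, e3, e1, D.Q.JT_Y, JT_nv, D.Q.Y_Y, D.Q.Y_nv, D.Q.x_Y, D.Q.x_nv]
    unfold Cpx.nv Cpx.Z gB' gC' gM' gB gC gM
    field_simp
    ring
  have h3 : Lg g m x = (1 / 2) * ∑ i, ∑ k, up g i k x * pd m (fun y => g y i k) x := rfl
  rw [h3, h2]

end Vale.Agent.U1.B68
end
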