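import Vale.Agent.P366.Stmt

/-! `U(m)`-invariant data on `ℝ²ᵐ` (lapse `√p`, shift `be`). -/

open MeasureTheory Metric Filter Topology Set
open scoped ContDiff ENNReal

noncomputable section
namespace Vale.Agent.U1
open Vale.Agent.P366.Stmt

variable {n : ℕ}

/-- A complex structure on Euclidean `n`-space (so `n = 2m`). -/
structure Cpx (n : ℕ) where
  J : Matrix (Fin n) (Fin n) ℝ
  skew : J.transpose = -J
  sq : J * J = -1

/-- The vector `J x`. -/
def Cpx.Y (Q : Cpx n) (x : E n) (i : Fin n) : ℝ := ∑ j, Q.J i j * x j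

/-- the projection to the horizontal space -/
def Cpx.Pi (Q : Cpx n) (x : E n) (i j : Fin n) : ℝ :=
  (if i = j then 1 else 0) - (x i * x j + Q.Y x i * Q.Y x j) / len x ^ 2

/-- The covector `J x + β x`, which annihilates the normal direction `x - β J x`. -/
def Cpx.Z (Q : Cpx n) (be : ℝ → ℝ) (x : E n) (i : Fin n) : ℝ := Q.Y x i + be (len x) * x i

/-- The `U(m)`-invariant symmetric 2-tensor with coefficients `f`, `u`, `w`, `s` with respect to
the coframe `x / |x|`, `(J x + β x) / |x|`. -/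
def Cpx.ten (Q : Cpx n) (be f u w s : ℝ → ℝ) (x : E n) (i j : Fin n) : ℝ :=
  f (len x) * Q.Pi x i j +
    (u (len x) * (x i * x j) + w (len x) * (x i * Q.Z be x j + Q.Z be x i * x j) +
      s (len x) * (Q.Z be x i * Q.Z be x j)) / len x ^ 2

/-- Coefficient functions of `U(m)`-invariant data. -/
structure Data (n : ℕ) where
  Q : Cpx n
  R : ℝ
  hR : 0 < R
  be : ℝ → ℝ
  al : ℝ → ℝ
  p : ℝ → ℝ
  q : ℝ → ℝ
  ka : ℝ → ℝ
  kn : ℝ → ℝ
  v : ℝ → ℝ
  s : ℝ → ℝ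
  be_smooth : ContDiff ℝ ∞ be
  al_smooth : ContDiff ℝ ∞ al
  p_smooth : ContDiff ℝ ∞ p
  q_smooth : ContDiff ℝ ∞ q
  ka_smooth : ContDiff ℝ ∞ ka
  kn_smooth : ContDiff ℝ ∞ kn
  v_smooth : ContDiff ℝ ∞ v
  s_smooth : ContDiff ℝ ∞ s
  al_pos : ∀ r, R ≤ r → 0 < al r
  p_pos : ∀ r, R ≤ r → 0 < p r
  q_pos : ∀ r, R ≤ r → 0 < q r

/-- The fields `g`, `K` are smooth and given by the coefficient functions on `R ≤ |x|`. -/
structure Fits (D : Data n) (g K : Field n) : Prop where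
  smooth : ∀ i j, Smooth (fun x => g x i j) ∧ Smooth (fun x => K x i j)
  hg : ∀ x, D.R ≤ len x → ∀ i j, g x i j = D.Q.ten D.be D.al D.p (fun _ => 0) D.q x i j
  hK : ∀ x, D.R ≤ len x → ∀ i j, K x i j = D.Q.ten D.be D.ka D.kn D.v D.s x i j

namespace Data

variable (D : Data n)

/-- dimension of the base -/
def b (_D : Data n) : ℝ := (n : ℝ) - 2

/-- lapse -/
def lp (r : ℝ) : ℝ := √(D.p r)

/-- squared scale of the base of the sphere of coordinate radius `r` -/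
def Yb (r : ℝ) : ℝ := r ^ 2 * D.al r

/-- squared scale of the fibre of the sphere of coordinate radius `r` -/
def Yf (r : ℝ) : ℝ := r ^ 2 * D.q r

def yb (r : ℝ) : ℝ := deriv D.Yb r / (2 * D.Yb r)

def yf (r : ℝ) : ℝ := deriv D.Yf r / (2 * D.Yf r)

/-- mean curvature of the sphere of coordinate radius `r` -/
def H (r : ℝ) : ℝ := (D.b * D.yb r + D.yf r) / D.lp r

/-- squared norm of the second fundamental form -/
def II2 (r : ℝ) : ℝ := (D.b * D.yb r ^ 2 + D.yf r ^ 2) / D.p r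

/-- scalar curvature of the sphere of coordinate radius `r` -/
def Rh (r : ℝ) : ℝ := D.b * (D.b + 2) / D.Yb r - D.b * D.Yf r / D.Yb r ^ 2

/-- trace of `K` over the sphere -/
def k (r : ℝ) : ℝ := D.b * (D.ka r / D.al r) + D.s r / D.q r

/-- `K(ν, ν)` -/
def KN (r : ℝ) : ℝ := D.kn r / D.p r

def KS2 (r : ℝ) : ℝ := D.b * (D.ka r / D.al r) ^ 2 + (D.s r / D.q r) ^ 2

def IIK (r : ℝ) : ℝ := (D.b * D.yb r * (D.ka r / D.al r) + D.yf r * (D.s r / D.q r)) / D.lp r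

def be2 (r : ℝ) : ℝ := D.v r ^ 2 / (D.p r * D.q r)

/-- scalar curvature of `g` -/
def Rg (r : ℝ) : ℝ := D.Rh r - D.II2 r - D.H r ^ 2 - 2 * deriv D.H r / D.lp r

/-- energy density -/
def mu (r : ℝ) : ℝ := (D.Rg r + D.k r ^ 2 + 2 * D.k r * D.KN r - D.KS2 r - 2 * D.be2 r) / 2

/-- radial momentum density -/
def JN (r : ℝ) : ℝ := D.H r * D.KN r - D.IIK r - deriv D.k r / D.lp r

/-- `ρ ^ (n - 1)`, the area of the sphere divided by `ω` -/
def ar (r : ℝ) : ℝ := √(D.Yf r) * (D.Yb r) ^ (D.b / 2)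

/-- area radius -/
def rho (r : ℝ) : ℝ := (D.ar r) ^ (1 / ((n : ℝ) - 1))

/-- Dirac eigenvalue (super-potential) of the sphere -/
def lam (r : ℝ) : ℝ := (D.b + 2) / 4 / √(D.Yf r) + D.b / 4 * √(D.Yf r) / D.Yb r

/-- twice the modified Hawking mass -/
def mass (r : ℝ) : ℝ :=
  D.rho r ^ ((n : ℝ) - 2) * (1 - (D.H r ^ 2 - D.k r ^ 2) / (4 * D.lam r ^ 2))

end Data

end Vale.Agent.U1
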