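import Vale.Agent.P366.T2.E68t

/-! The limit of the modified Hawking mass of `U(m)`-invariant data, abstract form. -/

open Filter Topology Asymptotics Set

noncomputable section
namespace Vale.Agent.P366.T2.U1E
open Vale.Agent.P366.T2.E68

/-- The limit of the modified Hawking mass, abstract form. -/
theorem mass_abs {N b q m : ℝ} (hN : N = b + 1) (hb : 0 ≤ b) (hq0 : 0 < q) (hq : N - 1 < 2 * q)
    {p a a1 c c1 k κ ℓ y M : ℝ → ℝ}
    (he : O1 q fun r => p r - 1) (ha : O1 q fun r => a r - 1) (ha1 : O1 q fun r => r * a1 r)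
    (hc : O1 q fun r => c r - 1) (hc1 : O1 q fun r => r * c1 r)
    (hk : O1 q fun r => r * k r)
    (hE : Tendsto (fun r : ℝ => r ^ (N - 1) *
      (N * p r - (b * a r + c r) - r * (b * a1 r + c1 r))) atTop (𝓝 (2 * N * m)))
    (hℓ : ∀ᶠ r in atTop, ℓ r = (b + 2) / 4 * (c r) ^ (-(1 / 2) : ℝ) + b / 4 *
      ((c r) ^ ((1 / 2) : ℝ) * (1 / a r)))
    (hy : ∀ᶠ r in atTop, y r = r / 2 * (b * (a1 r / a r) + c1 r / c r))
    (hM : ∀ᶠ r in atTop, M r = r ^ (N - 1) * κ r *
      (1 - ((N + y r) ^ 2 / p r - (r * k r) ^ 2) / (4 * (ℓ r) ^ 2)))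
    (hκ : Tendsto κ atTop (𝓝 1)) :
    Tendsto M atTop (𝓝 (2 * m)) ∧ Tendsto y atTop (𝓝 0) := by
  have hN0 : 0 < N := by linarith
  -- first order facts
  have hp1 : Tendsto p atTop (𝓝 1) := by
    have := (he.tendsto hq0).add_const 1
    simpa using this
  have ha2 : Tendsto a atTop (𝓝 1) := by
    have := (ha.tendsto hq0).add_const 1
    simpa using this
  have hc2 : Tendsto c atTop (𝓝 1) := by
    have := (hc.tendsto hq0).add_const 1
    simpa using this
  have hia : Tendsto (fun r => 1 / a r) atTop (𝓝 1) := by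
    have := ha2.inv₀ one_ne_zero
    simpa using this
  have hic : Tendsto (fun r => 1 / c r) atTop (𝓝 1) := by
    have := hc2.inv₀ one_ne_zero
    simpa using this
  have hip : Tendsto (fun r => 1 / p r) atTop (𝓝 1) := by
    have := hp1.inv₀ one_ne_zero
    simpa using this
  have hia0 : O0 fun r => 1 / a r := O0.of_tendsto hia
  have hic0 : O0 fun r => 1 / c r := O0.of_tendsto hic
  have hip0 : O0 fun r => 1 / p r := O0.of_tendsto hip
  have ha0 : ∀ᶠ r in atTop, a r ≠ 0 := ha2.eventually_ne one_ne_zero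
  have hc0 : ∀ᶠ r in atTop, c r ≠ 0 := hc2.eventually_ne one_ne_zero
  have hp0 : ∀ᶠ r in atTop, p r ≠ 0 := hp1.eventually_ne one_ne_zero
  -- powers of `c`
  have hpow : ∀ s : ℝ, O2 q fun r => (c r) ^ s - 1 - s * (c r - 1) := fun s =>
    ((rpow_taylor s).comp_tendsto hc2).trans (hc.mul hc)
  have hA1 : O2 q fun r => 1 / a r - 1 + (a r - 1) := by
    have h1 := hia0.mul2 (ha.mul ha)
    refine h1.congr' ?_
    filter_upwards [ha0] with r hr
    field_simp
    ring
  -- the super-potential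
  have hL : O2 q fun r => ℓ r - (N / 2 - (c r - 1) / 4 - b * (a r - 1) / 4) := by
    have e2 : O2 q fun r => ((b + 2) / 4) * ((c r) ^ (-(1 / 2) : ℝ) - 1 - (-(1 / 2)) * (c r - 1)) :=
      (hpow _).cmul _
    have e4 : O2 q fun r => (b / 4) * ((1 / a r) *
        ((c r) ^ ((1 / 2) : ℝ) - 1 - (1 / 2) * (c r - 1))) :=
      (hia0.mul2 (hpow _)).cmul _
    have e5 : O2 q fun r => (b / 4) * ((1 + 1 / 2 * (c r - 1)) * (1 / a r - 1 + (a r - 1))) :=
      (((O0.const 1).add ((hc.o0 hq0).cmul _)).mul2 hA1).cmul _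
    have e6 : O2 q fun r => -(b / 8) * ((c r - 1) * (a r - 1)) := (hc.mul ha).cmul _
    refine (((e2.add e4).add e5).add e6).congr' ?_
    filter_upwards [hℓ] with r hr
    rw [hr, hN]
    ring
  have hz : O1 q fun r => 2 * ℓ r - N := by
    have h1 := (((hL.o1 hq0).sub (hc.cmul (1 / 4))).sub (ha.cmul (b / 4))).cmul 2
    refine h1.congr' (Eventually.of_forall fun r => ?_)
    ring
  have hℓ1 : Tendsto ℓ atTop (𝓝 (N / 2)) := by
    have h1 := ((hz.tendsto hq0).add_const N).div_const 2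
    simpa using h1
  -- the mean curvature
  have hW : O2 q fun r => y r - r / 2 * (b * a1 r + c1 r) := by
    have e1 : O1 q fun r => 1 / a r - 1 := by
      have := (hA1.o1 hq0).sub ha
      refine this.congr' (Eventually.of_forall fun r => ?_)
      ring
    have e1' : O1 q fun r => 1 / c r - 1 := by
      have := (hic0.mul1 hc).cmul (-1)
      refine this.congr' ?_
      filter_upwards [hc0] with r hr
      field_simp
      ring
    have e2 : O2 q fun r => (b / 2) * ((r * a1 r) * (1 / a r - 1)) := (ha1.mul e1).cmul _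
    have e3 : O2 q fun r => (1 / 2) * ((r * c1 r) * (1 / c r - 1)) := (hc1.mul e1').cmul _
    refine (e2.add e3).congr' ?_
    filter_upwards [hy] with r hr
    rw [hr]
    ring
  have hy1 : O1 q y := by
    have h1 := (hW.o1 hq0).add (((ha1.cmul b).add hc1).cmul (1 / 2))
    refine h1.congr' (Eventually.of_forall fun r => ?_)
    ring
  -- the numerator
  have hZ : O2 q fun r => 4 * (ℓ r) ^ 2 - ((N + y r) ^ 2 / p r - (r * k r) ^ 2) -
      N * (N * p r - (b * a r + c r) - r * (b * a1 r + c1 r)) := by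
    have e1 := hL.cmul (4 * N)
    have e2 := hW.cmul (-(2 * N))
    have e3 := hz.mul hz
    have e4 : O1 q fun r => y r - N * (p r - 1) := hy1.sub (he.cmul N)
    have e5 := (hip0.mul2 (e4.mul e4)).cmul (-1)
    have e6 := hk.mul hk
    refine ((((e1.add e2).add e3).add e5).add e6).congr' ?_
    filter_upwards [hp0] with r hr
    field_simp
    rw [hN]
    ring
  have hlim0 : Tendsto (fun r : ℝ => r ^ (N - 1) *
      (4 * (ℓ r) ^ 2 - ((N + y r) ^ 2 / p r - (r * k r) ^ 2) -
      N * (N * p r - (b * a r + c r) - r * (b * a1 r + c1 r)))) atTop (𝓝 0) := by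
    have h1 := IsBigO.mul (isBigO_refl (fun r : ℝ => r ^ (N - 1)) atTop) hZ
    refine h1.trans_tendsto ?_
    have h2 : Tendsto (fun r : ℝ => r ^ (-(2 * q - (N - 1)))) atTop (𝓝 0) :=
      tendsto_rpow_neg_atTop (by linarith)
    refine h2.congr' ?_
    filter_upwards [eventually_gt_atTop 0] with r hr
    rw [← Real.rpow_add hr, ← Real.rpow_add hr]
    congr 1
    ring
  have hlim1 : Tendsto (fun r : ℝ => r ^ (N - 1) *
      (4 * (ℓ r) ^ 2 - ((N + y r) ^ 2 / p r - (r * k r) ^ 2))) atTop (𝓝 (2 * N ^ 2 * m)) := by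
    have h1 := hlim0.add (hE.const_mul N)
    have e : 0 + N * (2 * N * m) = 2 * N ^ 2 * m := by ring
    rw [e] at h1
    refine h1.congr fun r => ?_
    ring
  have hden : Tendsto (fun r => 4 * (ℓ r) ^ 2) atTop (𝓝 (N ^ 2)) := by
    have h1 := (hℓ1.pow 2).const_mul 4
    have e : 4 * (N / 2) ^ 2 = N ^ 2 := by ring
    rw [e] at h1
    exact h1
  refine ⟨?_, hy1.tendsto hq0⟩
  have h2 := (hκ.mul hlim1).div hden (by positivity)
  have e : 1 * (2 * N ^ 2 * m) / N ^ 2 = 2 * m := by field_simp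
  rw [e] at h2
  refine h2.congr' ?_
  filter_upwards [hM, hden.eventually_ne (show N ^ 2 ≠ 0 by positivity)] with r hr hne
  rw [hr]
  simp only [Pi.div_apply]
  have hne' : ℓ r ≠ 0 := by
    intro h0
    apply hne
    rw [h0]; ring
  field_simp

end Vale.Agent.P366.T2.U1E
end
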