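import Vale.Agent.P366.T2.U1.E765a
import Vale.Agent.P366.T2.U1.Key
import Vale.Agent.P366.T2.E68b
import Vale.Agent.P366.T2.E68r
import Vale.Agent.P366.T2.P765

/-! Decay of the coefficient functions and the ADM energy of `U(m)`-invariant data. -/

open MeasureTheory Metric Filter Topology Set Asymptotics
open scoped ContDiff ENNReal

noncomputable section
namespace Vale.Agent.P366.T2.U1E
open Vale.Agent.P366.T2.E68 (O0 O1 O2 ray kr ray_apply len_ray sum_kr lin_decay linK_decay)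
open Vale.Agent.U1 (Cpx)

variable {n : ℕ}

/-! ### the plain form of invariant tensors -/

lemma ten_plain (Q : Cpx n) (be f u w s : ℝ → ℝ) (x : Stmt.E n) (i j : Fin n) :
    Q.ten be f u w s x i j = Q.ten (fun _ => 0) f (fun r => u r + 2 * w r * be r + s r * be r ^ 2)
      (fun r => w r + s r * be r) s x i j := by
  unfold Cpx.ten Cpx.Z
  ring

/-- plain coefficient of `x x` -/
def pG (D : U1.Data n) (r : ℝ) : ℝ := D.p r + D.q r * D.be r ^ 2

/-- plain coefficient of `x Y + Y x` -/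
def wG (D : U1.Data n) (r : ℝ) : ℝ := D.q r * D.be r

/-- horizontal plus fibre trace of the metric -/
def tau (D : U1.Data n) (r : ℝ) : ℝ := D.al r * ((n : ℝ) - 2) + D.q r

lemma pG_smooth (D : U1.Data n) : ContDiff ℝ ∞ (pG D) := by
  unfold pG
  exact D.p_smooth.add (D.q_smooth.mul (D.be_smooth.pow 2))

lemma wG_smooth (D : U1.Data n) : ContDiff ℝ ∞ (wG D) := by
  unfold wG
  exact D.q_smooth.mul D.be_smooth

lemma tau_smooth (D : U1.Data n) : ContDiff ℝ ∞ (tau D) := by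
  unfold tau
  exact (D.al_smooth.mul contDiff_const).add D.q_smooth

variable {D : U1.Data n} {g K : Stmt.Field n}

lemma g_ten (h : U1.Fits D g K) {x : Stmt.E n} (hx : D.R ≤ Stmt.len x) (i j : Fin n) :
    g x i j = D.Q.ten (fun _ => 0) D.al (pG D) (wG D) D.q x i j := by
  rw [h.hg x hx, ten_plain]
  unfold Cpx.ten pG wG
  ring

lemma K_ten (h : U1.Fits D g K) {x : Stmt.E n} (hx : D.R ≤ Stmt.len x) (i j : Fin n) :
    K x i j = D.Q.ten (fun _ => 0) D.ka
      (fun r => D.kn r + 2 * D.v r * D.be r + D.s r * D.be r ^ 2)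
      (fun r => D.v r + D.s r * D.be r) D.s x i j := by
  rw [h.hK x hx, ten_plain]

lemma g_symm (h : U1.Fits D g K) {x : E n} (hx : D.R ≤ ‖x‖) (i j : Fin n) : g x i j = g x j i := by
  rw [g_ten h hx, g_ten h hx, D.Q.ten_symm]

/-! ### the momentum -/

lemma Y_neg (Q : Cpx n) (x : Stmt.E n) (i : Fin n) : Q.Y (-x) i = -Q.Y x i := by
  unfold Cpx.Y
  simp [Finset.sum_neg_distrib]

lemma ten_neg (Q : Cpx n) (be f u w s : ℝ → ℝ) (x : Stmt.E n) (i j : Fin n) :
    Q.ten be f u w s (-x) i j = Q.ten be f u w s x i j := by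
  unfold Cpx.ten Cpx.Pi Cpx.Z
  rw [len_neg]
  simp only [Y_neg, PiLp.neg_apply]
  ring

lemma momT_even (h : U1.Fits D g K) {x : Stmt.E n} (hx : D.R ≤ Stmt.len x) (i j : Fin n) :
    Stmt.momT g K (-x) i j = Stmt.momT g K x i j := by
  have hx' : D.R ≤ Stmt.len (-x) := by rwa [len_neg]
  have hg : ∀ i j, g (-x) i j = g x i j := fun i j => by
    rw [h.hg _ hx', h.hg _ hx, ten_neg]
  have hK : ∀ i j, K (-x) i j = K x i j := fun i j => by
    rw [h.hK _ hx', h.hK _ hx, ten_neg]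
  have hm : Stmt.mat g (-x) = Stmt.mat g x := by
    funext i j; exact hg i j
  have hu : ∀ i j, Stmt.up g i j (-x) = Stmt.up g i j x := fun i j => by
    unfold Stmt.up; rw [hm]
  unfold Stmt.momT Stmt.tr
  simp only [hg, hK, hu]

/-- The momentum vanishes. -/
theorem momentum_zero {X : Stmt.Exterior n} (h : U1.Fits D X.g X.K) {P : Fin n → ℝ}
    (hP : X.IsMomentum P) : P = 0 := by
  funext i
  have h1 : (Stmt.flx fun j x => Stmt.momT X.g X.K x i j) =ᶠ[atTop] fun _ => (0 : ℝ) := by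
    filter_upwards [eventually_ge_atTop D.R] with R hR
    have hR0 : 0 ≤ R := D.hR.le.trans hR
    refine flx_even (fun x hx j => ?_) hR0
    exact momT_even h (by rw [hx]; exact hR) i j
  have h2 := (tendsto_congr' h1).1 (hP i)
  exact tendsto_nhds_unique h2 tendsto_const_nhds

/-! ### decay of the coefficients -/

section ray

variable (Q : Cpx n) (f u w s : ℝ → ℝ) (i0 : Fin n)

lemma Y_ray (r : ℝ) (i : Fin n) : Q.Y (ray i0 r) i = r * Q.J i i0 := by
  unfold Cpx.Y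
  simp only [ray_apply, kr]
  simp
  ring

lemma ray_ne {r : ℝ} (hr : 0 < r) : (ray i0 r : Stmt.E n) ≠ 0 := by
  intro h
  have := len_ray i0 hr.le
  rw [h] at this
  simp [Stmt.len] at this
  linarith

lemma T_J {r : ℝ} (hr : 0 < r) (i : Fin n) :
    ∑ j, Q.ten (fun _ => 0) f u w s (ray i0 r) i j * Q.J j i0 =
      w r * kr i0 i + s r * Q.J i i0 := by
  have hl := len_ray i0 hr.le
  have h2 := Q.ten_Y (ray_ne i0 hr) (fun _ => 0) f u w s i
  simp only [Cpx.Z, ray_apply, Y_ray, hl] at h2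
  have h3 : ∑ j, Q.ten (fun _ => 0) f u w s (ray i0 r) i j * (r * Q.J j i0) =
      r * ∑ j, Q.ten (fun _ => 0) f u w s (ray i0 r) i j * Q.J j i0 := by
    rw [Finset.mul_sum]
    exact Finset.sum_congr rfl fun j _ => by ring
  rw [h3] at h2
  have h4 : w r * (r * kr i0 i) + s r * (r * Q.J i i0 + 0 * (r * kr i0 i)) =
      r * (w r * kr i0 i + s r * Q.J i i0) := by ring
  rw [h4] at h2
  exact mul_left_cancel₀ hr.ne' h2

lemma T_k {r : ℝ} (hr : 0 < r) (i : Fin n) :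
    ∑ j, Q.ten (fun _ => 0) f u w s (ray i0 r) i j * kr i0 j =
      u r * kr i0 i + w r * Q.J i i0 := by
  have hl := len_ray i0 hr.le
  have h2 := Q.ten_nv (ray_ne i0 hr) (fun _ => 0) f u w s i
  simp only [Cpx.nv, Cpx.Z, ray_apply, Y_ray, hl, zero_mul, sub_zero, add_zero] at h2
  have h3 : ∑ j, Q.ten (fun _ => 0) f u w s (ray i0 r) i j * (r * kr i0 j) =
      r * ∑ j, Q.ten (fun _ => 0) f u w s (ray i0 r) i j * kr i0 j := by
    rw [Finset.mul_sum]
    exact Finset.sum_congr rfl fun j _ => by ring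
  rw [h3] at h2
  have h4 : u r * (r * kr i0 i) + w r * (r * Q.J i i0) =
      r * (u r * kr i0 i + w r * Q.J i i0) := by ring
  rw [h4] at h2
  exact mul_left_cancel₀ hr.ne' h2

lemma kr_self : kr i0 i0 = 1 := by simp [kr]

/-- coefficients extracting `u`, `w`, `s`, `(n - 2) f` -/
def cu (i0 : Fin n) (i j : Fin n) : ℝ := kr i0 i * kr i0 j

def cw (i j : Fin n) : ℝ := kr i0 i * Q.J j i0

def cs (i j : Fin n) : ℝ := Q.J i i0 * Q.J j i0

def cf (i j : Fin n) : ℝ := (if i = j then 1 else 0) - cu i0 i j - cs Q i0 i j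

lemma sum_c {A B : Fin n → ℝ} (T : Fin n → Fin n → ℝ) :
    ∑ i, ∑ j, A i * B j * T i j = ∑ i, A i * ∑ j, T i j * B j := by
  refine Finset.sum_congr rfl fun i _ => ?_
  rw [Finset.mul_sum]
  exact Finset.sum_congr rfl fun j _ => by ring

lemma u_ray {r : ℝ} (hr : 0 < r) :
    u r = ∑ i, ∑ j, cu i0 i j * Q.ten (fun _ => 0) f u w s (ray i0 r) i j := by
  unfold cu
  rw [sum_c]
  simp only [T_k Q f u w s i0 hr]
  rw [sum_kr, kr_self, Q.diag]
  ring

lemma w_ray {r : ℝ} (hr : 0 < r) :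
    w r = ∑ i, ∑ j, cw Q i0 i j * Q.ten (fun _ => 0) f u w s (ray i0 r) i j := by
  unfold cw
  rw [sum_c]
  simp only [T_J Q f u w s i0 hr]
  rw [sum_kr, kr_self, Q.diag]
  ring

lemma s_ray {r : ℝ} (hr : 0 < r) :
    s r = ∑ i, ∑ j, cs Q i0 i j * Q.ten (fun _ => 0) f u w s (ray i0 r) i j := by
  unfold cs
  rw [sum_c]
  simp only [T_J Q f u w s i0 hr]
  have h1 : ∀ i, Q.J i i0 * (w r * kr i0 i + s r * Q.J i i0) =
      w r * (kr i0 i * Q.J i i0) + s r * (Q.J i i0 * Q.J i i0) := fun i => by ring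
  simp only [h1, Finset.sum_add_distrib, ← Finset.mul_sum]
  rw [sum_kr, Q.diag, Q.JTJ, if_pos rfl]
  ring

lemma ten_tr {x : Stmt.E n} (hx : x ≠ 0) :
    ∑ i, Q.ten (fun _ => 0) f u w s x i i =
      f (Stmt.len x) * ((n : ℝ) - 2) + u (Stmt.len x) + s (Stmt.len x) := by
  have hr := U1.len_ne hx
  have h : ∀ i, Q.ten (fun _ => 0) f u w s x i i = f (Stmt.len x) * Q.Pi x i i +
      (u (Stmt.len x) * (x i * x i) + 2 * w (Stmt.len x) * (x i * Q.Y x i) +
        s (Stmt.len x) * (Q.Y x i * Q.Y x i)) / Stmt.len x ^ 2 := by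
    intro i
    unfold Cpx.ten Cpx.Z
    ring
  simp only [h, Finset.sum_add_distrib, ← Finset.sum_div, ← Finset.mul_sum, Q.trace_Pi hx,
    U1.sum_sq, Q.x_Y, Q.Y_Y]
  field_simp
  ring

lemma f_ray {r : ℝ} (hr : 0 < r) :
    ((n : ℝ) - 2) * f r =
      ∑ i, ∑ j, cf Q i0 i j * Q.ten (fun _ => 0) f u w s (ray i0 r) i j := by
  have h1 := ten_tr Q f u w s (ray_ne i0 hr)
  rw [len_ray i0 hr.le] at h1
  unfold cf
  simp only [sub_mul, Finset.sum_sub_distrib]
  rw [← u_ray Q f u w s i0 hr, ← s_ray Q f u w s i0 hr]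
  have h2 : ∑ i, ∑ j, (if i = j then (1 : ℝ) else 0) *
      Q.ten (fun _ => 0) f u w s (ray i0 r) i j =
      ∑ i, Q.ten (fun _ => 0) f u w s (ray i0 r) i i :=
    Finset.sum_congr rfl fun i _ => by simp
  rw [h2, h1]
  ring

lemma cu_tr : ∑ i, cu i0 i i = 1 := by
  unfold cu
  rw [sum_kr, kr_self]

lemma cw_tr : ∑ i, cw Q i0 i i = 0 := by
  unfold cw
  rw [sum_kr, Q.diag]

lemma cs_tr : ∑ i, cs Q i0 i i = 1 := by
  unfold cs
  rw [Q.JTJ, if_pos rfl]

lemma cf_tr : ∑ i, cf Q i0 i i = (n : ℝ) - 2 := by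
  unfold cf
  simp only [Finset.sum_sub_distrib, cu_tr, cs_tr]
  simp
  ring

end ray

section Dec

lemma g_ray (h : U1.Fits D g K) (i0 : Fin n) {r : ℝ} (hr : D.R < r) (i j : Fin n) :
    g (ray i0 r) i j = D.Q.ten (fun _ => 0) D.al (pG D) (wG D) D.q (ray i0 r) i j :=
  g_ten h (by rw [len_ray i0 (D.hR.trans hr).le]; exact hr.le) i j

lemma K_ray (h : U1.Fits D g K) (i0 : Fin n) {r : ℝ} (hr : D.R < r) (i j : Fin n) :
    K (ray i0 r) i j = D.Q.ten (fun _ => 0) D.ka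
      (fun r => D.kn r + 2 * D.v r * D.be r + D.s r * D.be r ^ 2)
      (fun r => D.v r + D.s r * D.be r) D.s (ray i0 r) i j :=
  K_ten h (by rw [len_ray i0 (D.hR.trans hr).le]; exact hr.le) i j

variable (h : U1.Fits D g K) {q : ℝ} (hq0 : 0 < q)
  (h1 : ∀ i j, Stmt.BigO q (fun x => g x i j - if i = j then 1 else 0))
  (h2 : ∀ i j k, Stmt.BigO (q + 1) (Stmt.pd k fun x => g x i j))
  (h3 : ∀ i j, Stmt.BigO (q + 1) (fun x => K x i j)) (i0 : Fin n)

include h h1 h2 in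
lemma pG_dec (i0 : Fin n) : O1 q (fun r => pG D r - 1) := by
  have := (lin_decay (fun i j => (h.smooth i j).1) h1 h2 i0 (cu i0) (f := pG D) (R := D.R)
    (fun r hr => by
      simp only [g_ray h i0 hr]
      exact u_ray D.Q D.al (pG D) _ D.q i0 (D.hR.trans hr))).1
  rwa [cu_tr] at this

include h h1 h2 in
lemma wG_dec (i0 : Fin n) : O1 q (fun r => wG D r) := by
  have := (lin_decay (fun i j => (h.smooth i j).1) h1 h2 i0 (cw D.Q i0) (f := wG D)
    (R := D.R) (fun r hr => by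
      simp only [g_ray h i0 hr]
      exact w_ray D.Q D.al (pG D) _ D.q i0 (D.hR.trans hr))).1
  rw [cw_tr] at this
  simpa using this

include h h1 h2 in
lemma q_dec (i0 : Fin n) : O1 q (fun r => D.q r - 1) ∧ O1 q (fun r => r * deriv D.q r) := by
  have := lin_decay (fun i j => (h.smooth i j).1) h1 h2 i0 (cs D.Q i0) (f := D.q)
    (R := D.R) (fun r hr => by
      simp only [g_ray h i0 hr]
      exact s_ray D.Q D.al (pG D) _ D.q i0 (D.hR.trans hr))
  rwa [cs_tr] at this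

include h h1 h2 in
lemma al_dec (i0 : Fin n) (hb : (n : ℝ) - 2 ≠ 0) : O1 q (fun r => D.al r - 1) ∧
    O1 q (fun r => r * deriv D.al r) := by
  have := lin_decay (fun i j => (h.smooth i j).1) h1 h2 i0
    (fun i j => ((n : ℝ) - 2)⁻¹ * cf D.Q i0 i j) (f := D.al)
    (R := D.R) (fun r hr => by
      have h4 := f_ray D.Q D.al (pG D) (wG D) D.q i0 (D.hR.trans hr)
      simp only [g_ray h i0 hr, mul_assoc, ← Finset.mul_sum]
      rw [← h4]
      field_simp)
  rw [← Finset.mul_sum, cf_tr, inv_mul_cancel₀ hb] at this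
  exact this

include h h3 in
lemma s_dec (i0 : Fin n) : O1 q (fun r => r * D.s r) :=
  linK_decay h3 i0 (cs D.Q i0) (R := D.R) (fun r hr => by
    simp only [K_ray h i0 hr]
    exact s_ray D.Q D.ka _ _ D.s i0 (D.hR.trans hr))

include h h3 in
lemma ka_dec (i0 : Fin n) : O1 q (fun r => r * (((n : ℝ) - 2) * D.ka r)) :=
  linK_decay h3 i0 (cf D.Q i0) (f := fun r => ((n : ℝ) - 2) * D.ka r) (R := D.R)
    (fun r hr => by
      simp only [K_ray h i0 hr]
      exact f_ray D.Q D.ka _ _ D.s i0 (D.hR.trans hr))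

lemma lim_of {f : ℝ → ℝ} (hq0 : 0 < q) (hf : O1 q fun r => f r - 1) :
    Tendsto f atTop (𝓝 1) := by
  have := (hf.tendsto hq0).add_const 1
  simpa using this

include h hq0 h1 h2 in
lemma be_dec (i0 : Fin n) : O1 q D.be := by
  have hq1 := lim_of hq0 (q_dec h h1 h2 i0).1
  have hiq : O0 (fun r => (D.q r)⁻¹) := O0.of_tendsto (by simpa using hq1.inv₀ one_ne_zero)
  refine (hiq.mul1 (wG_dec h h1 h2 i0)).congr' ?_
  filter_upwards [eventually_ge_atTop D.R] with r hr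
  have := (D.q_pos r hr).ne'
  unfold wG
  field_simp

include h hq0 h1 h2 in
lemma p_dec (i0 : Fin n) : O1 q (fun r => D.p r - 1) ∧ O2 q (fun r => pG D r - D.p r) := by
  have hbe := be_dec h hq0 h1 h2 i0
  have hq1 := lim_of hq0 (q_dec h h1 h2 i0).1
  have e3 : O2 q (fun r => pG D r - D.p r) := by
    refine ((O0.of_tendsto hq1).mul2 (hbe.mul hbe)).congr' (Eventually.of_forall fun r => ?_)
    unfold pG; ring
  refine ⟨?_, e3⟩
  refine ((pG_dec h h1 h2 i0).sub (e3.o1 hq0)).congr' (Eventually.of_forall fun r => by ring)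

include h hq0 h1 h2 h3 in
lemma k_dec (i0 : Fin n) (hb : (n : ℝ) - 2 ≠ 0) : O1 q (fun r => r * D.k r) := by
  have hq1 := lim_of hq0 (q_dec h h1 h2 i0).1
  have ha1 := lim_of hq0 (al_dec h h1 h2 i0 hb).1
  have hiq : O0 (fun r => (D.q r)⁻¹) := O0.of_tendsto (by simpa using hq1.inv₀ one_ne_zero)
  have hia : O0 (fun r => (D.al r)⁻¹) := O0.of_tendsto (by simpa using ha1.inv₀ one_ne_zero)
  refine ((hia.mul1 (ka_dec h h3 i0)).add (hiq.mul1 (s_dec h h3 i0))).congr'
    (Eventually.of_forall fun r => ?_)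
  unfold U1.Data.k U1.Data.b
  ring

end Dec

end Vale.Agent.P366.T2.U1E
end
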