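import Vale.Agent.P366.T2.U1.Inv765c

/-!
`U(m)`- and `SU(m)`-invariant data are given by coefficient functions.
-/

open Matrix Filter Topology Set
open scoped ContDiff

noncomputable section
namespace Vale.Agent.U1
open Vale.Agent.P366.Stmt
open Vale.Agent.P366.T2 (act)

variable {n : ℕ}

/-- The tensor field `T` is invariant, on `R ≤ |x|`, under the matrices in `G`. -/
def InvariantUnder (G : Matrix (Fin n) (Fin n) ℝ → Prop) (R : ℝ) (T : Field n) : Prop :=
  ∀ A : Matrix (Fin n) (Fin n) ℝ, G A → ∀ x y : E n, R ≤ len x →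
    (∀ i, y i = ∑ j, A i j * x j) → ∀ i j, ∑ k, ∑ l, A k i * T y k l * A l j = T x i j

theorem InvariantUnder.inv {G : Matrix (Fin n) (Fin n) ℝ → Prop} {R : ℝ} {T : Field n}
    (h : InvariantUnder G R T) : Cpx.Inv G R T := by
  intro A hA x hx
  ext i j
  refine Eq.trans ?_ (h A hA x (act A x) hx (fun i => rfl) i j)
  have key : ∀ M : Matrix (Fin n) (Fin n) ℝ, (A.transpose * M * A) i j =
      ∑ k, ∑ l, A k i * M k l * A l j := by
    intro M
    simp only [Matrix.mul_apply, Matrix.transpose_apply, Finset.sum_mul]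
    rw [Finset.sum_comm]
  exact key _

/-- `SU(m)`-invariant data, `m ≥ 3`. -/
theorem fits_of_SU (hn : 5 ≤ n) (Q : Cpx n) {g K : Field n} {R : ℝ} (hR : 0 < R)
    (hsm : ∀ i j, Smooth (fun x => g x i j) ∧ Smooth (fun x => K x i j))
    (hs : ∀ x i j, g x i j = g x j i ∧ K x i j = K x j i)
    (hpos : ∀ x, R ≤ len x → (mat g x).PosDef)
    (hg : InvariantUnder Q.SU R g) (hK : InvariantUnder Q.SU R K) :
    ∃ D : Data n, D.R = R ∧ D.Q = Q ∧ Fits D g K :=
  fits_of_full (by omega) Q (Cpx.full_SU hn) hR hsm hs hpos hg.inv hK.inv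

/-- `U(m)`-invariant data, `m ≥ 2`. -/
theorem fits_of_U (hn : 3 ≤ n) (Q : Cpx n) {g K : Field n} {R : ℝ} (hR : 0 < R)
    (hsm : ∀ i j, Smooth (fun x => g x i j) ∧ Smooth (fun x => K x i j))
    (hs : ∀ x i j, g x i j = g x j i ∧ K x i j = K x j i)
    (hpos : ∀ x, R ≤ len x → (mat g x).PosDef)
    (hg : InvariantUnder Q.U R g) (hK : InvariantUnder Q.U R K) :
    ∃ D : Data n, D.R = R ∧ D.Q = Q ∧ Fits D g K :=
  fits_of_full hn Q Cpx.full_U hR hsm hs hpos hg.inv hK.inv

end Vale.Agent.U1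
end
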