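import Vale.Agent.P366.T2.U1.Assemble
import Vale.Agent.P366.T2.U1.Inv765

/-! The Penrose inequality for `U(m)`- and `SU(m)`-invariant data. -/

open MeasureTheory Metric Filter Topology Set
open scoped BigOperators ENNReal ContDiff

noncomputable section
namespace Vale.Agent.U1
open Vale.Agent.P366.Stmt

variable {n : ℕ}

theorem R1_pos (hn : 3 ≤ n) (X : Exterior n) {R₁ : ℝ}
    (hR : IsGreatest {r | ∃ x, X.F x = 0 ∧ len x = r} R₁) : 0 < R₁ :=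
  (Vale.Agent.P366.Bridge.toRaw X).R1_pos (by omega) (Vale.Agent.P366.Bridge.raw_R1 X hR)

/-- **The spacetime Penrose inequality for `U(m)`-invariant data**, `n = 2m ≥ 4`. -/
theorem penrose_um (hn : 3 ≤ n) (Q : Cpx n) {X : Exterior n} (hAF : X.IsAF)
    (hDEC : X.DEC) (hT : X.Trapped) {m : ℝ} {P : Fin n → ℝ} (hm : X.IsEnergy m)
    (hP : X.IsMomentum P) {R₁ : ℝ} (hR : IsGreatest {r | ∃ x, X.F x = 0 ∧ len x = r} R₁)
    (hg : InvariantUnder Q.U R₁ X.g) (hK : InvariantUnder Q.U R₁ X.K) :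
    P = 0 ∧ X.Amin ≠ ⊤ ∧ √(∑ i, P i ^ 2) < m ∧
    (X.Amin.toReal / omega n) ^ (((n : ℝ) - 2) / (n - 1)) / 2 ≤
      √(m ^ 2 - ∑ i, P i ^ 2) := by
  have hout := Vale.Agent.C92.outside_nonneg (by omega) X hR
  obtain ⟨D, rfl, -, hfit⟩ := fits_of_U hn Q (R1_pos hn X hR) X.smooth X.symm
    (fun x hx => X.pos x (hout x hx)) hg hK
  exact penrose_fits hn D hfit hAF hDEC hT hm hP hR

/-- **The spacetime Penrose inequality for `SU(m)`-invariant data**, `n = 2m ≥ 6`. -/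
theorem penrose_sum (hn : 5 ≤ n) (Q : Cpx n) {X : Exterior n} (hAF : X.IsAF)
    (hDEC : X.DEC) (hT : X.Trapped) {m : ℝ} {P : Fin n → ℝ} (hm : X.IsEnergy m)
    (hP : X.IsMomentum P) {R₁ : ℝ} (hR : IsGreatest {r | ∃ x, X.F x = 0 ∧ len x = r} R₁)
    (hg : InvariantUnder Q.SU R₁ X.g) (hK : InvariantUnder Q.SU R₁ X.K) :
    P = 0 ∧ X.Amin ≠ ⊤ ∧ √(∑ i, P i ^ 2) < m ∧
    (X.Amin.toReal / omega n) ^ (((n : ℝ) - 2) / (n - 1)) / 2 ≤
      √(m ^ 2 - ∑ i, P i ^ 2) := by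
  have hn3 : 3 ≤ n := by omega
  have hout := Vale.Agent.C92.outside_nonneg (by omega) X hR
  obtain ⟨D, rfl, -, hfit⟩ := fits_of_SU hn Q (R1_pos hn3 X hR) X.smooth X.symm
    (fun x hx => X.pos x (hout x hx)) hg hK
  exact penrose_fits hn3 D hfit hAF hDEC hT hm hP hR

end Vale.Agent.U1
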