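import Vale.Agent.P366.T2.U1.Alg
import Vale.Agent.P366.T2.MInv

/-!
The unitary group of a complex structure: reflections, transitivity, stabilisers.
-/

open Matrix
open scoped ContDiff

noncomputable section
namespace Vale.Agent.U1
open Vale.Agent.P366.Stmt
open Vale.Agent.P366.T2.Quat (mulVec_dot mulVec_dot_symm dot_self_pos)

variable {n : ℕ}

namespace Cpx

variable (Q : Cpx n)

/-- `A` is an element of `U(m)`. -/
def U (A : Matrix (Fin n) (Fin n) ℝ) : Prop := Aᵀ * A = 1 ∧ A * Q.J = Q.J * A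

/-- the average of `M` over the complex structure (up to a factor) -/
def av (M : Matrix (Fin n) (Fin n) ℝ) : Matrix (Fin n) (Fin n) ℝ := M - Q.J * M * Q.J

lemma av_comm (M : Matrix (Fin n) (Fin n) ℝ) : Q.av M * Q.J = Q.J * Q.av M := by
  have e := Q.sq
  simp only [av, sub_mul, mul_sub]
  have a1 : Q.J * M * Q.J * Q.J = -(Q.J * M) := by
    rw [Matrix.mul_assoc, e, Matrix.mul_neg, Matrix.mul_one]
  have b1 : Q.J * (Q.J * M * Q.J) = -(M * Q.J) := by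
    rw [← Matrix.mul_assoc, ← Matrix.mul_assoc, e]; simp
  rw [a1, b1]; abel

lemma av_J (M : Matrix (Fin n) (Fin n) ℝ) : Q.av (Q.J * M) = Q.av (M * Q.J) := by
  have e := Q.sq
  simp only [av]
  have a1 : Q.J * (Q.J * M) * Q.J = -(M * Q.J) := by
    rw [← Matrix.mul_assoc, e]; simp
  have b1 : Q.J * (M * Q.J) * Q.J = -(Q.J * M) := by
    rw [Matrix.mul_assoc, Matrix.mul_assoc, e]; simp
  rw [a1, b1]; abel

lemma av_transpose (M : Matrix (Fin n) (Fin n) ℝ) : (Q.av M)ᵀ = Q.av Mᵀ := by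
  simp only [av, transpose_sub, transpose_mul, Q.skew, Matrix.neg_mul,
    Matrix.mul_neg, neg_neg, Matrix.mul_assoc]

lemma av_mul_right {C : Matrix (Fin n) (Fin n) ℝ} (hC : C * Q.J = Q.J * C)
    (M : Matrix (Fin n) (Fin n) ℝ) : Q.av (M * C) = Q.av M * C := by
  simp only [av, sub_mul, Matrix.mul_assoc, hC]

lemma av_mul_left {C : Matrix (Fin n) (Fin n) ℝ} (hC : C * Q.J = Q.J * C)
    (M : Matrix (Fin n) (Fin n) ℝ) : Q.av (C * M) = C * Q.av M := by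
  have h : Q.J * (C * M) * Q.J = C * (Q.J * M * Q.J) := by
    rw [← Matrix.mul_assoc, ← hC]; simp only [Matrix.mul_assoc]
  simp only [av, mul_sub, h]

/-! ### vectors -/

lemma Jdot (u v : Fin n → ℝ) : (Q.J *ᵥ u) ⬝ᵥ v = -(u ⬝ᵥ (Q.J *ᵥ v)) := by
  rw [dotProduct_mulVec, ← mulVec_transpose, Q.skew, neg_mulVec, neg_dotProduct, neg_neg]

lemma Jdot_self (v : Fin n → ℝ) : (Q.J *ᵥ v) ⬝ᵥ v = 0 := by
  have h := Q.Jdot v v
  rw [dotProduct_comm v] at h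
  linarith

lemma JJv (v : Fin n → ℝ) : Q.J *ᵥ (Q.J *ᵥ v) = -v := by
  rw [mulVec_mulVec, Q.sq, neg_mulVec, one_mulVec]

lemma dot_JJ (u v : Fin n → ℝ) : (Q.J *ᵥ u) ⬝ᵥ (Q.J *ᵥ v) = u ⬝ᵥ v := by
  rw [Q.Jdot, Q.JJv, dotProduct_neg, neg_neg]

lemma J_mul_vecMulVec (f e : Fin n → ℝ) :
    Q.J * vecMulVec f e * Q.J = -vecMulVec (Q.J *ᵥ f) (Q.J *ᵥ e) := by
  rw [mul_vecMulVec, vecMulVec_mul, ← mulVec_transpose, Q.skew, neg_mulVec, vecMulVec_neg]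

lemma av_vec (f e u : Fin n → ℝ) : Q.av (vecMulVec f e) *ᵥ u =
    (e ⬝ᵥ u) • f + ((Q.J *ᵥ e) ⬝ᵥ u) • (Q.J *ᵥ f) := by
  simp only [av, J_mul_vecMulVec, sub_mulVec, neg_mulVec, vecMulVec_mulVec, op_smul_eq_smul]
  abel

/-- the projection on the complex line of a unit vector -/
def pr (v : Fin n → ℝ) : Matrix (Fin n) (Fin n) ℝ := Q.av (vecMulVec v v)

lemma pr_comm (v : Fin n → ℝ) : Q.pr v * Q.J = Q.J * Q.pr v := Q.av_comm _

lemma pr_symm (v : Fin n → ℝ) : (Q.pr v)ᵀ = Q.pr v := by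
  rw [pr, av_transpose, transpose_vecMulVec]

lemma pr_mulVec (w u : Fin n → ℝ) : Q.pr w *ᵥ u = (w ⬝ᵥ u) • w +
    ((Q.J *ᵥ w) ⬝ᵥ u) • (Q.J *ᵥ w) := Q.av_vec w w u

lemma pr_self' (v : Fin n → ℝ) : Q.pr v *ᵥ v = (v ⬝ᵥ v) • v := by
  rw [pr_mulVec, Q.Jdot_self]; simp

lemma pr_self {v : Fin n → ℝ} (hv : v ⬝ᵥ v = 1) : Q.pr v *ᵥ v = v := by
  rw [pr_self', hv, one_smul]

lemma pr_sq' (v : Fin n → ℝ) : Q.pr v * Q.pr v = (v ⬝ᵥ v) • Q.pr v := by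
  conv_lhs => rw [show Q.pr v * Q.pr v = Q.av (vecMulVec v v) * Q.pr v from rfl]
  rw [← Q.av_mul_right (Q.pr_comm v), vecMulVec_mul, ← mulVec_transpose, Q.pr_symm, Q.pr_self']
  simp only [pr, av, vecMulVec_smul, Matrix.mul_smul, Matrix.smul_mul, smul_sub]

lemma pr_J {v : Fin n → ℝ} (hv : v ⬝ᵥ v = 1) :
    Q.pr v *ᵥ (Q.J *ᵥ v) = Q.J *ᵥ v := by
  rw [mulVec_mulVec, Q.pr_comm, ← mulVec_mulVec, Q.pr_self hv]

lemma pr_sq {v : Fin n → ℝ} (hv : v ⬝ᵥ v = 1) : Q.pr v * Q.pr v = Q.pr v := by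
  rw [Q.pr_sq', hv, one_smul]

/-- Hermitian orthogonality. -/
def Perp (u v : Fin n → ℝ) : Prop := u ⬝ᵥ v = 0 ∧ (Q.J *ᵥ u) ⬝ᵥ v = 0

variable {Q}

lemma Perp.symm {u v : Fin n → ℝ} (h : Q.Perp u v) : Q.Perp v u := by
  refine ⟨by rw [dotProduct_comm]; exact h.1, ?_⟩
  have := h.2
  rw [Q.Jdot] at this
  rw [dotProduct_comm]
  linarith

lemma Perp.J_left {u v : Fin n → ℝ} (h : Q.Perp u v) : Q.Perp (Q.J *ᵥ u) v := by
  refine ⟨h.2, ?_⟩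
  rw [Q.JJv, neg_dotProduct, h.1, neg_zero]

lemma Perp.J_right {u v : Fin n → ℝ} (h : Q.Perp u v) : Q.Perp u (Q.J *ᵥ v) := h.symm.J_left.symm

lemma Perp.add {u v w : Fin n → ℝ} (h : Q.Perp u w) (h' : Q.Perp v w) : Q.Perp (u + v) w :=
  ⟨by rw [add_dotProduct, h.1, h'.1, add_zero],
    by rw [mulVec_add, add_dotProduct, h.2, h'.2, add_zero]⟩

lemma Perp.smul {u w : Fin n → ℝ} (h : Q.Perp u w) (c : ℝ) : Q.Perp (c • u) w :=
  ⟨by rw [smul_dotProduct, h.1, smul_zero],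
    by rw [mulVec_smul, smul_dotProduct, h.2, smul_zero]⟩

lemma Perp.av {w e : Fin n → ℝ} (h : Q.Perp w e) (f : Fin n → ℝ) :
    Q.av (vecMulVec f w) *ᵥ e = 0 := by
  rw [av_vec, h.1, h.2]; simp

lemma Perp.pr {w e : Fin n → ℝ} (h : Q.Perp w e) : Q.pr w *ᵥ e = 0 := h.av w

variable (Q)

lemma perp_of_pr {e w : Fin n → ℝ} (he : e ⬝ᵥ e = 1) (hw : Q.pr e *ᵥ w = 0) : Q.Perp w e := by
  have h1 : (Q.pr e *ᵥ e) ⬝ᵥ w = e ⬝ᵥ (Q.pr e *ᵥ w) := mulVec_dot_symm (Q.pr_symm e) _ _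
  rw [Q.pr_self he, hw, dotProduct_zero] at h1
  have h2 : (Q.pr e *ᵥ (Q.J *ᵥ e)) ⬝ᵥ w = (Q.J *ᵥ e) ⬝ᵥ (Q.pr e *ᵥ w) :=
    mulVec_dot_symm (Q.pr_symm e) _ _
  rw [Q.pr_J he, hw, dotProduct_zero] at h2
  exact Perp.symm ⟨h1, h2⟩

/-! ### elements of `U(m)` -/

variable {Q}

lemma U.one : Q.U 1 := ⟨by simp, by simp⟩

lemma U.mul {A B : Matrix (Fin n) (Fin n) ℝ} (hA : Q.U A) (hB : Q.U B) : Q.U (A * B) := by
  refine ⟨?_, ?_⟩
  · rw [transpose_mul, Matrix.mul_assoc, ← Matrix.mul_assoc Aᵀ, hA.1, Matrix.one_mul, hB.1]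
  · rw [Matrix.mul_assoc, hB.2, ← Matrix.mul_assoc, hA.2, Matrix.mul_assoc]

lemma U.ortho' {A : Matrix (Fin n) (Fin n) ℝ} (hA : Q.U A) : A * Aᵀ = 1 :=
  mul_eq_one_comm.1 hA.1

lemma U.transpose {A : Matrix (Fin n) (Fin n) ℝ} (hA : Q.U A) : Q.U Aᵀ := by
  refine ⟨by rw [transpose_transpose]; exact hA.ortho', ?_⟩
  have h := congrArg Matrix.transpose hA.2
  rw [transpose_mul, transpose_mul, Q.skew, Matrix.neg_mul, Matrix.mul_neg, neg_inj] at h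
  exact h.symm

lemma U.dot {A : Matrix (Fin n) (Fin n) ℝ} (hA : Q.U A) (u v : Fin n → ℝ) :
    (A *ᵥ u) ⬝ᵥ (A *ᵥ v) = u ⬝ᵥ v := by
  rw [dotProduct_mulVec, ← mulVec_transpose, mulVec_mulVec, hA.1, one_mulVec]

lemma U.J_vec {A : Matrix (Fin n) (Fin n) ℝ} (hA : Q.U A) (v : Fin n → ℝ) :
    A *ᵥ (Q.J *ᵥ v) = Q.J *ᵥ (A *ᵥ v) := by
  rw [mulVec_mulVec, hA.2, ← mulVec_mulVec]

lemma U.av {A : Matrix (Fin n) (Fin n) ℝ} (hA : Q.U A) (f e : Fin n → ℝ) :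
    A * Q.av (vecMulVec f e) * Aᵀ = Q.av (vecMulVec (A *ᵥ f) (A *ᵥ e)) := by
  rw [← Q.av_mul_left hA.2, ← Q.av_mul_right hA.transpose.2, mul_vecMulVec, vecMulVec_mul,
    ← mulVec_transpose, transpose_transpose]

lemma U.pr {A : Matrix (Fin n) (Fin n) ℝ} (hA : Q.U A) (e : Fin n → ℝ) :
    A * Q.pr e * Aᵀ = Q.pr (A *ᵥ e) := hA.av e e

variable (Q)

lemma U_refl {v : Fin n → ℝ} {c : ℝ} (hc : c * (v ⬝ᵥ v) = 2) : Q.U (1 - c • Q.pr v) := by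
  refine ⟨?_, ?_⟩
  · rw [transpose_sub, transpose_smul, Q.pr_symm, transpose_one]
    simp only [sub_mul, mul_sub, Matrix.one_mul, Matrix.mul_one, Matrix.smul_mul, Matrix.mul_smul,
      Q.pr_sq', smul_smul]
    have : c * (c * (v ⬝ᵥ v)) = 2 * c := by rw [hc]; ring
    rw [this, two_mul, add_smul]; abel
  · simp only [sub_mul, mul_sub, Matrix.one_mul, Matrix.mul_one, Matrix.smul_mul, Matrix.mul_smul,
      Q.pr_comm]

/-- multiplication by a unit complex number on a complex line -/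
def rt (v f : Fin n → ℝ) : Matrix (Fin n) (Fin n) ℝ := 1 - Q.pr v + Q.av (vecMulVec f v)

lemma rt_comm (v f : Fin n → ℝ) : Q.rt v f * Q.J = Q.J * Q.rt v f := by
  simp only [rt, add_mul, mul_add, sub_mul, mul_sub, Matrix.one_mul, Matrix.mul_one, Q.pr_comm,
    Q.av_comm]

lemma av_vec_self {f v : Fin n → ℝ} (hf : f ⬝ᵥ f = 1) : Q.av (vecMulVec v f) *ᵥ f = v := by
  rw [av_vec, hf, Q.Jdot_self]; simp

lemma U_rt {v f : Fin n → ℝ} (hv : v ⬝ᵥ v = 1) (hf : f ⬝ᵥ f = 1) (hvf : Q.pr v *ᵥ f = f) :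
    Q.U (Q.rt v f) := by
  refine ⟨?_, Q.rt_comm v f⟩
  have hT : (Q.av (vecMulVec f v))ᵀ = Q.av (vecMulVec v f) := by
    rw [av_transpose, transpose_vecMulVec]
  have h1 : Q.pr v * Q.av (vecMulVec f v) = Q.av (vecMulVec f v) := by
    rw [← Q.av_mul_left (Q.pr_comm v), mul_vecMulVec, hvf]
  have h2 : Q.av (vecMulVec v f) * Q.pr v = Q.av (vecMulVec v f) := by
    have := congrArg Matrix.transpose h1
    rwa [transpose_mul, hT, Q.pr_symm] at this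
  have h3 : Q.av (vecMulVec v f) * Q.av (vecMulVec f v) = Q.pr v := by
    rw [← Q.av_mul_right (Q.av_comm _), vecMulVec_mul, ← mulVec_transpose, hT, Q.av_vec_self hf]
    rfl
  simp only [rt, transpose_add, transpose_sub, transpose_one, Q.pr_symm, hT, add_mul, mul_add,
    sub_mul, mul_sub, Matrix.one_mul, Matrix.mul_one, Q.pr_sq hv, h1, h2, h3]
  abel

lemma rt_self {v f : Fin n → ℝ} (hv : v ⬝ᵥ v = 1) : Q.rt v f *ᵥ v = f := by
  rw [rt, add_mulVec, sub_mulVec, one_mulVec, Q.pr_self hv, Q.av_vec_self hv]; simp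

/-- `U(m)` is transitive on the unit sphere. -/
lemma transitive {e f : Fin n → ℝ} (he : e ⬝ᵥ e = 1) (hf : f ⬝ᵥ f = 1) :
    ∃ A, Q.U A ∧ A *ᵥ e = f := by
  -- second move
  have move2 : ∀ e' : Fin n → ℝ, e' ⬝ᵥ e' = 1 → ((Q.J *ᵥ e') ⬝ᵥ f = 0) →
      ∃ A, Q.U A ∧ A *ᵥ e' = f := by
    intro e' he' hJ
    by_cases h : e' = f
    · exact ⟨1, U.one, by rw [one_mulVec, h]⟩
    · have hd : e' - f ≠ 0 := sub_ne_zero.2 h
      have hdd : 0 < (e' - f) ⬝ᵥ (e' - f) := dot_self_pos hd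
      refine ⟨1 - (2 / ((e' - f) ⬝ᵥ (e' - f))) • Q.pr (e' - f), Q.U_refl (by field_simp), ?_⟩
      have hJ' : (Q.J *ᵥ (e' - f)) ⬝ᵥ e' = 0 := by
        rw [mulVec_sub, sub_dotProduct, Q.Jdot_self, Q.Jdot, dotProduct_comm, hJ]; simp
      have h1 : Q.pr (e' - f) *ᵥ e' = ((e' - f) ⬝ᵥ e') • (e' - f) := by
        rw [pr, av_vec, hJ']; simp
      have h2 : (e' - f) ⬝ᵥ (e' - f) = 2 * ((e' - f) ⬝ᵥ e') := by
        simp only [sub_dotProduct, dotProduct_sub, he', hf, dotProduct_comm e' f]; ring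
      rw [sub_mulVec, one_mulVec, smul_mulVec, h1, smul_smul, h2]
      have h3 : (e' - f) ⬝ᵥ e' ≠ 0 := by
        intro h4; rw [h4] at h2; linarith
      rw [show 2 / (2 * ((e' - f) ⬝ᵥ e')) * ((e' - f) ⬝ᵥ e') = 1 by field_simp, one_smul]
      abel
  set c := Q.pr e *ᵥ f with hc
  by_cases h0 : c = 0
  · refine move2 e he ?_
    have h1 : (Q.J *ᵥ e) ⬝ᵥ f = (Q.J *ᵥ e) ⬝ᵥ c := by
      rw [hc, ← mulVec_dot_symm (Q.pr_symm e), Q.pr_J he]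
    rw [h1, h0, dotProduct_zero]
  · have hcc : 0 < c ⬝ᵥ c := dot_self_pos h0
    have hs : 0 < √(c ⬝ᵥ c) := Real.sqrt_pos.2 hcc
    set e' := (√(c ⬝ᵥ c))⁻¹ • c with he'
    have he1 : e' ⬝ᵥ e' = 1 := by
      rw [he', smul_dotProduct, dotProduct_smul, smul_eq_mul, smul_eq_mul]
      field_simp
      rw [Real.sq_sqrt hcc.le]
    have hPc : Q.pr e *ᵥ c = c := by
      rw [hc, mulVec_mulVec, Q.pr_sq he]
    have hPe : Q.pr e *ᵥ e' = e' := by rw [he', mulVec_smul, hPc]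
    obtain ⟨B, hB, hBe⟩ := move2 e' he1 (by
      rw [he', mulVec_smul, smul_dotProduct]
      have h1 : (Q.J *ᵥ c) ⬝ᵥ f = (Q.J *ᵥ c) ⬝ᵥ c := by
        conv_rhs => rw [hc, ← mulVec_dot_symm (Q.pr_symm e), ← hc, mulVec_mulVec, Q.pr_comm,
          ← mulVec_mulVec, hPc]
      rw [h1, Q.Jdot_self, smul_zero])
    exact ⟨B * Q.rt e e', hB.mul (Q.U_rt he he1 hPe), by
      rw [← mulVec_mulVec, Q.rt_self he, hBe]⟩

/-! ### groups with few invariants -/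

/-- `M` is a symmetric matrix that is invariant under the elements of `G` that fix `e`. -/
def StabInv (G : Matrix (Fin n) (Fin n) ℝ → Prop) (e : Fin n → ℝ)
    (M : Matrix (Fin n) (Fin n) ℝ) : Prop :=
  Mᵀ = M ∧ ∀ A, G A → A *ᵥ e = e → Aᵀ * M * A = M

/-- A set of unitary matrices that acts transitively on the sphere and whose elements fixing a
point have no invariants except the obvious ones. -/
structure Full (G : Matrix (Fin n) (Fin n) ℝ → Prop) : Prop where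
  unitary : ∀ A, G A → Q.U A
  trans : ∀ e f : Fin n → ℝ, e ⬝ᵥ e = 1 → f ⬝ᵥ f = 1 → ∃ A, G A ∧ A *ᵥ e = f
  stab : ∀ (e : Fin n → ℝ) M, e ⬝ᵥ e = 1 → StabInv G e M → ∀ w : Fin n → ℝ, Q.Perp w e →
    w ⬝ᵥ w = 1 → M *ᵥ w = (w ⬝ᵥ (M *ᵥ w)) • w

variable {Q}

lemma StabInv.comm {G : Matrix (Fin n) (Fin n) ℝ → Prop} {e : Fin n → ℝ}
    {M : Matrix (Fin n) (Fin n) ℝ} (h : StabInv G e M)
    {A : Matrix (Fin n) (Fin n) ℝ} (hG : G A) (hA : Q.U A) (hAe : A *ᵥ e = e) :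
    A * M = M * A := by
  conv_lhs => rw [← h.2 A hG hAe]
  rw [← Matrix.mul_assoc, ← Matrix.mul_assoc, hA.ortho', Matrix.one_mul]

/-- commuting with a skew matrix -/
lemma skew_comm {M S : Matrix (Fin n) (Fin n) ℝ} (hM : Mᵀ = M) (hS : Sᵀ = -S)
    (h : S * M = M * S) (w : Fin n → ℝ) : (S *ᵥ w) ⬝ᵥ (M *ᵥ w) = 0 := by
  have e1 : (S *ᵥ w) ⬝ᵥ (M *ᵥ w) = -((S *ᵥ w) ⬝ᵥ (M *ᵥ w)) := by
    conv_lhs => rw [mulVec_dot, hS, neg_mulVec, mulVec_mulVec, h, ← mulVec_mulVec, dotProduct_neg,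
      ← mulVec_dot_symm hM, dotProduct_comm]
  linarith

lemma av_Jw_skew (w : Fin n → ℝ) :
    (Q.av (vecMulVec (Q.J *ᵥ w) w))ᵀ = -Q.av (vecMulVec (Q.J *ᵥ w) w) := by
  rw [av_transpose, transpose_vecMulVec]
  have e1 : vecMulVec w (Q.J *ᵥ w) = -(vecMulVec w w * Q.J) := by
    rw [vecMulVec_mul, ← mulVec_transpose, Q.skew, neg_mulVec, vecMulVec_neg, neg_neg]
  have e2 : vecMulVec (Q.J *ᵥ w) w = Q.J * vecMulVec w w := by rw [mul_vecMulVec]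
  have e3 : Q.av (-(vecMulVec w w * Q.J)) = -Q.av (vecMulVec w w * Q.J) := by
    simp only [av, Matrix.mul_neg, Matrix.neg_mul]; abel
  rw [e1, e2, e3, Q.av_J]

/-- The unitary group has few invariants. -/
theorem full_U : Q.Full Q.U where
  unitary := fun _ h => h
  trans := fun _ _ he hf => Q.transitive he hf
  stab := by
    intro e M he h w hw hw1
    -- `M` commutes with `pr w`
    have c1 : Q.pr w * M = M * Q.pr w := by
      have hU := Q.U_refl (v := w) (c := 2) (by rw [hw1]; norm_num)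
      have h1 := h.comm hU hU (by
        rw [sub_mulVec, one_mulVec, smul_mulVec, hw.pr, smul_zero, sub_zero])
      rw [sub_mul, mul_sub, Matrix.one_mul, Matrix.mul_one, Matrix.smul_mul, Matrix.mul_smul] at h1
      have h2 := sub_right_injective h1
      exact smul_right_injective _ (two_ne_zero (α := ℝ)) h2
    have c2 : Q.av (vecMulVec (Q.J *ᵥ w) w) * M = M * Q.av (vecMulVec (Q.J *ᵥ w) w) := by
      have hU := Q.U_rt hw1 (f := Q.J *ᵥ w) (by rw [Q.dot_JJ, hw1]) (Q.pr_J hw1)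
      have h1 := h.comm hU hU (by
        rw [rt, add_mulVec, sub_mulVec, one_mulVec, hw.av, hw.pr]; simp)
      rw [rt, add_mul, mul_add, sub_mul, mul_sub, Matrix.one_mul, Matrix.mul_one, c1] at h1
      exact add_right_injective _ h1
    have z : (Q.J *ᵥ w) ⬝ᵥ (M *ᵥ w) = 0 := by
      have := skew_comm h.1 (av_Jw_skew (Q := Q) w) c2 w
      rwa [Q.av_vec_self hw1] at this
    have h1 : M *ᵥ w = Q.pr w *ᵥ (M *ᵥ w) := by
      rw [mulVec_mulVec, c1, ← mulVec_mulVec, Q.pr_self hw1]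
    rw [pr_mulVec, z] at h1
    simpa using h1

end Cpx

end Vale.Agent.U1
end
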