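import Vale.Agent.P366.T2.U1.Inv765a

/-!
Tensors invariant under a group with few invariants are given by coefficient functions.
-/

open Matrix Filter Topology Set
open scoped ContDiff

noncomputable section
namespace Vale.Agent.U1
open Vale.Agent.P366.Stmt
open Vale.Agent.P366.T2 (pt act hat len_sq_eq len_pt pt_smooth hat_unit pt_hat act_pt
  exists_smooth_ext)
open Vale.Agent.P366.T2.Quat (mulVec_dot mulVec_dot_symm dot_self_pos sandwich entry_smooth
  form_smooth trace_smooth transport)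

variable {n : ℕ}

namespace Cpx

variable {Q : Cpx n} {G : Matrix (Fin n) (Fin n) ℝ → Prop}

lemma Full.perp (hG : Q.Full G) {e : Fin n → ℝ} (he : e ⬝ᵥ e = 1)
    {M : Matrix (Fin n) (Fin n) ℝ} (h : StabInv G e M) {w : Fin n → ℝ}
    (hw : Q.pr e *ᵥ w = 0) : ∃ β : ℝ, M *ᵥ w = β • w := by
  by_cases h0 : w = 0
  · exact ⟨0, by simp [h0]⟩
  have hp := dot_self_pos h0
  have hs : 0 < √(w ⬝ᵥ w) := Real.sqrt_pos.2 hp
  set w' := (√(w ⬝ᵥ w))⁻¹ • w with hw'
  have h1 : w' ⬝ᵥ w' = 1 := by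
    rw [hw', smul_dotProduct, dotProduct_smul, smul_eq_mul, smul_eq_mul]
    field_simp
    rw [Real.sq_sqrt hp.le]
  have h2 : Q.Perp w' e := (Q.perp_of_pr he hw).smul _
  have h3 := hG.stab e M he h w' h2 h1
  refine ⟨w' ⬝ᵥ (M *ᵥ w'), ?_⟩
  have h4 : w = √(w ⬝ᵥ w) • w' := by
    rw [hw', smul_smul, mul_inv_cancel₀ hs.ne', one_smul]
  conv_lhs => rw [h4, mulVec_smul, h3]
  conv_rhs => rw [h4]
  rw [smul_comm]

lemma Full.perp_all (hG : Q.Full G) {e : Fin n → ℝ} (he : e ⬝ᵥ e = 1)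
    {M : Matrix (Fin n) (Fin n) ℝ} (h : StabInv G e M) :
    ∃ α : ℝ, ∀ w, Q.pr e *ᵥ w = 0 → M *ᵥ w = α • w := by
  by_cases hex : ∃ w, Q.pr e *ᵥ w = 0 ∧ w ≠ 0
  · obtain ⟨w, hw, hw0⟩ := hex
    obtain ⟨α, hα⟩ := hG.perp he h hw
    refine ⟨α, fun u hu => ?_⟩
    obtain ⟨β, hβ⟩ := hG.perp he h hu
    obtain ⟨γ, hγ⟩ := hG.perp he h (w := w + u) (by rw [mulVec_add, hw, hu, add_zero])
    rw [mulVec_add, hα, hβ, smul_add] at hγ
    have h1 : (α - γ) • w = (γ - β) • u := by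
      rw [sub_smul, sub_smul]
      have := hγ
      calc α • w - γ • w = (α • w + β • u) - γ • w - β • u := by abel
        _ = (γ • w + γ • u) - γ • w - β • u := by rw [this]
        _ = γ • u - β • u := by abel
    by_cases hab : γ = β
    · rw [hab, sub_self, zero_smul] at h1
      rcases smul_eq_zero.1 h1 with h2 | h2
      · rw [hβ, sub_eq_zero.1 h2]
      · exact absurd h2 hw0
    · have h2 : u = ((γ - β)⁻¹ * (α - γ)) • w := by
        rw [mul_smul, h1, smul_smul, inv_mul_cancel₀ (sub_ne_zero.2 hab), one_smul]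
      rw [h2, mulVec_smul, hα, smul_comm]
  · push Not at hex
    exact ⟨1, fun w hw => by rw [hex w hw]; simp⟩

lemma Full.eq (hG : Q.Full G) {e : Fin n → ℝ} (he : e ⬝ᵥ e = 1)
    {M : Matrix (Fin n) (Fin n) ℝ} (h : StabInv G e M) :
    ∃ α : ℝ, (∀ w, Q.pr e *ᵥ w = 0 → M *ᵥ w = α • w) ∧ Q.pr e * M = M * Q.pr e ∧
      M = Q.pr e * M * Q.pr e + α • (1 - Q.pr e) := by
  obtain ⟨α, hα⟩ := hG.perp_all he h
  have h1 : M * (1 - Q.pr e) = α • (1 - Q.pr e) := by
    refine Matrix.ext_of_mulVec_single fun i => ?_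
    have h2 := hα ((1 - Q.pr e) *ᵥ _root_.Pi.single i 1) (by
      rw [mulVec_mulVec, mul_sub, Matrix.mul_one, Q.pr_sq he, sub_self, zero_mulVec])
    rw [← mulVec_mulVec, h2, smul_mulVec]
  have h2 : (1 - Q.pr e) * M = α • (1 - Q.pr e) := by
    have := congrArg Matrix.transpose h1
    rwa [transpose_mul, transpose_smul, transpose_sub, transpose_one, Q.pr_symm, h.1] at this
  have hc : Q.pr e * M = M * Q.pr e := by
    have h3 := h2.trans h1.symm
    rw [sub_mul, mul_sub, Matrix.one_mul, Matrix.mul_one] at h3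
    exact sub_right_injective h3
  refine ⟨α, hα, hc, ?_⟩
  rw [hc, Matrix.mul_assoc, Q.pr_sq he, ← h1, mul_sub, Matrix.mul_one]
  abel

lemma pr_eq (v : Fin n → ℝ) : Q.pr v = vecMulVec v v + vecMulVec (Q.J *ᵥ v) (Q.J *ᵥ v) := by
  simp only [pr, av, J_mul_vecMulVec]; abel

/-- The explicit form of an invariant symmetric matrix (with the horizontal coefficient `α`). -/
lemma form {e : Fin n → ℝ} {M : Matrix (Fin n) (Fin n) ℝ} (hM : Mᵀ = M) {α : ℝ}
    (h : M = Q.pr e * M * Q.pr e + α • (1 - Q.pr e)) (i j : Fin n) :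
    M i j = α * ((if i = j then 1 else 0) -
        (e i * e j + (Q.J *ᵥ e) i * (Q.J *ᵥ e) j)) +
      ((e ⬝ᵥ (M *ᵥ e)) * e i * e j +
        (e ⬝ᵥ (M *ᵥ (Q.J *ᵥ e))) * (e i * (Q.J *ᵥ e) j + (Q.J *ᵥ e) i * e j) +
        ((Q.J *ᵥ e) ⬝ᵥ (M *ᵥ (Q.J *ᵥ e))) * (Q.J *ᵥ e) i * (Q.J *ᵥ e) j) := by
  have hs : (Q.J *ᵥ e) ⬝ᵥ (M *ᵥ e) = e ⬝ᵥ (M *ᵥ (Q.J *ᵥ e)) := by
    rw [← mulVec_dot_symm hM, dotProduct_comm]
  have h1 : M i j = (Q.pr e * M * Q.pr e) i j + α * ((1 : Matrix (Fin n) (Fin n) ℝ) i j -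
      Q.pr e i j) := by
    conv_lhs => rw [h]
    rw [Matrix.add_apply, Matrix.smul_apply, Matrix.sub_apply, smul_eq_mul]
  rw [h1]
  rw [pr_eq (Q := Q)]
  simp only [add_mul, mul_add, sandwich, hs]
  simp only [Matrix.add_apply, Matrix.smul_apply, vecMulVec_apply, smul_eq_mul, Matrix.one_apply]
  ring

lemma trace_pr_mul {e : Fin n → ℝ} (M : Matrix (Fin n) (Fin n) ℝ) :
    (M * Q.pr e).trace = e ⬝ᵥ (M *ᵥ e) + (Q.J *ᵥ e) ⬝ᵥ (M *ᵥ (Q.J *ᵥ e)) := by
  rw [pr_eq (Q := Q)]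
  simp only [mul_add, mul_vecMulVec, trace_add, trace_vecMulVec]
  simp only [dotProduct_comm (M *ᵥ _)]

lemma trace_pr {e : Fin n → ℝ} (he : e ⬝ᵥ e = 1) : (Q.pr e).trace = 2 := by
  have h := trace_pr_mul (Q := Q) (e := e) 1
  rw [Matrix.one_mul] at h
  rw [h]
  simp only [one_mulVec, Q.dot_JJ, he]
  norm_num

lemma trace_form {e : Fin n → ℝ} (he : e ⬝ᵥ e = 1) {M : Matrix (Fin n) (Fin n) ℝ}
    (hc : Q.pr e * M = M * Q.pr e) {α : ℝ}
    (h : M = Q.pr e * M * Q.pr e + α • (1 - Q.pr e)) :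
    M.trace = e ⬝ᵥ (M *ᵥ e) + (Q.J *ᵥ e) ⬝ᵥ (M *ᵥ (Q.J *ᵥ e)) + α * ((n : ℝ) - 2) := by
  have h1 : (Q.pr e * M * Q.pr e).trace = (M * Q.pr e).trace := by
    rw [hc, Matrix.mul_assoc, Q.pr_sq he]
  conv_lhs => rw [h]
  rw [trace_add, trace_smul, trace_sub, trace_one, trace_pr he, h1, trace_pr_mul]
  simp

lemma alpha_pos {e : Fin n → ℝ} (he : e ⬝ᵥ e = 1) {M : Matrix (Fin n) (Fin n) ℝ}
    (hM : M.PosDef) {α : ℝ} (hn : (2 : ℝ) < n)
    (hα : ∀ w, Q.pr e *ᵥ w = 0 → M *ᵥ w = α • w) : 0 < α := by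
  have hne : (1 - Q.pr e) ≠ 0 := by
    intro h0
    have h1 := congrArg Matrix.trace h0
    rw [trace_sub, trace_one, trace_pr he, trace_zero] at h1
    simp only [Fintype.card_fin] at h1
    linarith
  obtain ⟨u, hu⟩ : ∃ u, (1 - Q.pr e) *ᵥ u ≠ 0 := by
    by_contra hcon
    push Not at hcon
    exact hne (Matrix.ext_of_mulVec_single fun i => by rw [hcon, zero_mulVec])
  have hw : Q.pr e *ᵥ ((1 - Q.pr e) *ᵥ u) = 0 := by
    rw [mulVec_mulVec, mul_sub, Matrix.mul_one, Q.pr_sq he, sub_self, zero_mulVec]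
  have h1 := hM.dotProduct_mulVec_pos hu
  rw [star_trivial, hα _ hw, dotProduct_smul, smul_eq_mul] at h1
  exact pos_of_mul_pos_left h1 (dot_self_pos hu).le

/-- `g` is invariant under `G` outside the ball of radius `R`. -/
def Inv (G : Matrix (Fin n) (Fin n) ℝ → Prop) (R : ℝ) (g : Field n) : Prop :=
  ∀ A : Matrix (Fin n) (Fin n) ℝ, G A → ∀ x : E n, R ≤ len x →
    Aᵀ * mat g (act A x) * A = mat g x

/-- radial coefficient -/
def cU (g : Field n) (e : Fin n → ℝ) (r : ℝ) : ℝ := e ⬝ᵥ (mat g (pt e r) *ᵥ e)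

variable (Q)

/-- mixed coefficient -/
def cW (g : Field n) (e : Fin n → ℝ) (r : ℝ) : ℝ := e ⬝ᵥ (mat g (pt e r) *ᵥ (Q.J *ᵥ e))

/-- fibre coefficient -/
def cS (g : Field n) (e : Fin n → ℝ) (r : ℝ) : ℝ :=
  (Q.J *ᵥ e) ⬝ᵥ (mat g (pt e r) *ᵥ (Q.J *ᵥ e))

/-- horizontal coefficient -/
def cF (g : Field n) (e : Fin n → ℝ) (r : ℝ) : ℝ :=
  ((mat g (pt e r)).trace - cU g e r - Q.cS g e r) / ((n : ℝ) - 2)

lemma cF_smooth {g : Field n} (hg : ∀ i j, Smooth (fun x => g x i j)) (e : Fin n → ℝ) :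
    ContDiff ℝ ∞ (Q.cF g e) :=
  (((trace_smooth hg e).sub (form_smooth hg e _ _)).sub (form_smooth hg e _ _)).div_const _

variable {Q}

/-- The coefficients at `x` only depend on the length of `x`. -/
lemma Inv.coeff (hG : Q.Full G) {R : ℝ} (hR : 0 < R) {g : Field n} (h : Inv G R g)
    {e : Fin n → ℝ} (he : e ⬝ᵥ e = 1) {x : E n} (hx : R ≤ len x) :
    cU g e (len x) = hat x ⬝ᵥ (mat g x *ᵥ hat x) ∧
    (Q.cW g e (len x) = hat x ⬝ᵥ (mat g x *ᵥ (Q.J *ᵥ hat x))) ∧
    (Q.cS g e (len x) = (Q.J *ᵥ hat x) ⬝ᵥ (mat g x *ᵥ (Q.J *ᵥ hat x))) ∧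
    (mat g (pt e (len x))).trace = (mat g x).trace := by
  have hx0 : 0 < len x := hR.trans_le hx
  obtain ⟨A, hGA, hAe⟩ := hG.trans e (hat x) he (hat_unit hx0)
  have hA := hG.unitary A hGA
  have h1 := h A hGA (pt e (len x)) (by rw [len_pt he, abs_of_pos hx0]; exact hx)
  rw [act_pt, hAe, pt_hat hx0] at h1
  refine ⟨?_, ?_, ?_, ?_⟩
  · rw [cU, ← h1, transport, hAe]
  · rw [cW, ← h1, transport, hA.J_vec, hAe]
  · rw [cS, ← h1, transport, hA.J_vec, hAe]
  · rw [← h1, trace_mul_comm, ← Matrix.mul_assoc, hA.ortho', Matrix.one_mul]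

lemma Inv.stab {R : ℝ} (hR : 0 < R) {g : Field n} (h : Inv G R g)
    (hs : ∀ x i j, g x i j = g x j i) {x : E n} (hx : R ≤ len x) :
    StabInv G (hat x) (mat g x) := by
  have hx0 : 0 < len x := hR.trans_le hx
  refine ⟨?_, fun A hGA hAe => ?_⟩
  · ext i j; exact hs x j i
  · have h1 := h A hGA x hx
    have h2 : act A x = x := by
      conv_lhs => rw [← pt_hat hx0]
      rw [act_pt, hAe, pt_hat hx0]
    rwa [h2] at h1

lemma J_hat (x : E n) (i : Fin n) : (Q.J *ᵥ hat x) i = Q.Y x i / len x := by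
  rw [hat, mulVec_smul, Pi.smul_apply, smul_eq_mul, div_eq_inv_mul]
  rfl

/-- Invariant symmetric tensors have the form `ten`. -/
theorem Inv.ten_form (hn : 3 ≤ n) (hG : Q.Full G) {R : ℝ} (hR : 0 < R) {g : Field n}
    (h : Inv G R g) (hs : ∀ x i j, g x i j = g x j i) {e : Fin n → ℝ} (he : e ⬝ᵥ e = 1)
    {x : E n} (hx : R ≤ len x) (i j : Fin n) :
    g x i j = Q.ten (fun _ => 0) (Q.cF g e) (cU g e) (Q.cW g e) (Q.cS g e) x i j := by
  have hn' : (n : ℝ) - 2 ≠ 0 := by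
    have : (3 : ℝ) ≤ n := by exact_mod_cast hn
    intro h0; linarith
  have hx0 : 0 < len x := hR.trans_le hx
  have hu := hat_unit hx0
  have hst := h.stab hR hs hx
  obtain ⟨α, hα, hc, hform⟩ := hG.eq hu hst
  obtain ⟨c1, c2, c3, c4⟩ := h.coeff hG hR he hx
  have h1 := form hst.1 hform i j
  have h2 := trace_form hu hc hform
  rw [← c1, ← c4, ← c3] at h2
  rw [← c1, ← c2, ← c3] at h1
  have h4 : Q.cF g e (len x) = α := by
    unfold cF
    rw [h2]
    field_simp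
    ring
  have hg : g x i j = mat g x i j := rfl
  rw [hg, h1, ← h4]
  have hh : ∀ i, hat x i = x i / len x := fun i => by
    simp only [hat, Pi.smul_apply, smul_eq_mul]
    rw [div_eq_inv_mul]
  unfold Cpx.ten Cpx.Pi Cpx.Z
  simp only [hh, J_hat]
  field_simp
  ring

end Cpx

open Cpx in
/-- **Block [C-F]**: data invariant under a group with few invariants (for instance `U(m)`) are
given by coefficient functions and a shift. -/
theorem fits_of_full (hn : 3 ≤ n) (Q : Cpx n) {G : Matrix (Fin n) (Fin n) ℝ → Prop}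
    (hG : Q.Full G) {g K : Field n} {R : ℝ} (hR : 0 < R)
    (hsm : ∀ i j, Smooth (fun x => g x i j) ∧ Smooth (fun x => K x i j))
    (hs : ∀ x i j, g x i j = g x j i ∧ K x i j = K x j i)
    (hpos : ∀ x, R ≤ len x → (mat g x).PosDef)
    (hg : Inv G R g) (hK : Inv G R K) :
    ∃ D : Data n, D.R = R ∧ D.Q = Q ∧ Fits D g K := by
  classical
  have hn' : (3 : ℝ) ≤ n := by exact_mod_cast hn
  set e : Fin n → ℝ := _root_.Pi.single ⟨0, by omega⟩ 1 with he_def
  have he : e ⬝ᵥ e = 1 := by simp [he_def]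
  have hlen : ∀ r, R ≤ r → R ≤ len (pt e r) := by
    intro r hr
    rw [len_pt he, abs_of_pos (hR.trans_le hr)]; exact hr
  have hlen' : ∀ r, R ≤ r → len (pt e r) = r := by
    intro r hr
    rw [len_pt he, abs_of_pos (hR.trans_le hr)]
  have hhat : ∀ r, R ≤ r → hat (pt e r) = e := by
    intro r hr
    have hr0 : 0 < r := hR.trans_le hr
    rw [hat, hlen' r hr, pt, smul_smul, inv_mul_cancel₀ hr0.ne', one_smul]
  have hgs := fun i j => (hsm i j).1
  have hKs := fun i j => (hsm i j).2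
  have hgy := fun x i j => (hs x i j).1
  have hKy := fun x i j => (hs x i j).2
  have hJe : Q.J *ᵥ e ≠ 0 := by
    intro h0
    have h1 := Q.dot_JJ e e
    rw [h0, he, dotProduct_zero] at h1
    exact zero_ne_one h1
  -- the fibre coefficient
  set q : ℝ → ℝ := Q.cS g e with hq
  set w : ℝ → ℝ := Q.cW g e with hw
  have hqs : ContDiff ℝ ∞ q := form_smooth hgs e _ _
  have hws : ContDiff ℝ ∞ w := form_smooth hgs e _ _
  have hqp : ∀ r, R ≤ r → 0 < q r := fun r hr => by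
    have := (hpos _ (hlen r hr)).dotProduct_mulVec_pos hJe
    rwa [star_trivial] at this
  -- the shift
  obtain ⟨be, hbes, hbe⟩ := exists_smooth_ext (f := fun r => w r / q r) (R := R)
    (U := {r | q r ≠ 0}) (hqs.continuous.isOpen_preimage _ isOpen_compl_singleton)
    (fun r hr => (hqp r hr).ne') (hws.contDiffOn.div hqs.contDiffOn fun r hr => hr)
  have hqb : ∀ r, R ≤ r → q r * be r = w r := by
    intro r hr
    rw [hbe r hr]
    have := (hqp r hr).ne'
    field_simp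
  have hp_eq : ∀ r, R ≤ r → cU g e r - be r * w r =
      (e - be r • (Q.J *ᵥ e)) ⬝ᵥ (mat g (pt e r) *ᵥ (e - be r • (Q.J *ᵥ e))) := by
    intro r hr
    have hM : (mat g (pt e r))ᵀ = mat g (pt e r) := by ext i j; exact hgy _ j i
    have h1 : (Q.J *ᵥ e) ⬝ᵥ (mat g (pt e r) *ᵥ e) = w r := by
      rw [← mulVec_dot_symm hM, dotProduct_comm]; rfl
    have h2 := hqb r hr
    simp only [mulVec_sub, mulVec_smul, dotProduct_sub, sub_dotProduct, smul_dotProduct,
      dotProduct_smul, smul_eq_mul, h1]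
    simp only [cU, cS, cW, hw, hq] at h2 ⊢
    linear_combination (-be r) * h2
  refine ⟨{ Q := Q, R := R, hR := hR, be := be
            al := Q.cF g e, p := fun r => cU g e r - be r * w r, q := q
            ka := Q.cF K e
            kn := fun r => cU K e r - 2 * (Q.cW K e r - Q.cS K e r * be r) * be r -
              Q.cS K e r * be r ^ 2
            v := fun r => Q.cW K e r - Q.cS K e r * be r
            s := Q.cS K e
            be_smooth := hbes
            al_smooth := Q.cF_smooth hgs e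
            p_smooth := (form_smooth hgs e _ _).sub (hbes.mul hws)
            q_smooth := hqs
            ka_smooth := Q.cF_smooth hKs e
            kn_smooth := ?_
            v_smooth := (form_smooth hKs e _ _).sub ((form_smooth hKs e _ _).mul hbes)
            s_smooth := form_smooth hKs e _ _
            al_pos := ?_, p_pos := ?_, q_pos := hqp }, rfl, rfl, hsm, ?_, ?_⟩
  · exact (((form_smooth hKs e _ _).sub ((contDiff_const.mul ((form_smooth hKs e _ _).sub
      ((form_smooth hKs e _ _).mul hbes))).mul hbes)).sub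
      ((form_smooth hKs e _ _).mul (hbes.pow 2)))
  · intro r hr
    have hst := hg.stab hR hgy (hlen r hr)
    rw [hhat r hr] at hst
    obtain ⟨α, hα, hc, hform⟩ := hG.eq he hst
    have hαp := alpha_pos he (hpos _ (hlen r hr)) (by linarith) hα
    have htr := trace_form he hc hform
    have : Q.cF g e r = α := by
      unfold cF cU cS
      rw [htr]
      have : (n : ℝ) - 2 ≠ 0 := by intro h0; linarith
      field_simp
      ring
    rw [this]; exact hαp
  · intro r hr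
    show 0 < cU g e r - be r * w r
    rw [hp_eq r hr]
    have hne : e - be r • (Q.J *ᵥ e) ≠ 0 := by
      intro h0
      have h1 : e ⬝ᵥ (e - be r • (Q.J *ᵥ e)) = 1 := by
        rw [dotProduct_sub, he, dotProduct_smul, dotProduct_comm, Q.Jdot_self]; simp
      rw [h0, dotProduct_zero] at h1
      exact zero_ne_one h1
    have := (hpos _ (hlen r hr)).dotProduct_mulVec_pos hne
    rwa [star_trivial] at this
  · intro x hx i j
    rw [hg.ten_form hn hG hR hgy he hx i j]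
    have h1 := hqb (len x) hx
    have h2 : be (len x) * w (len x) = q (len x) * be (len x) ^ 2 := by rw [← h1]; ring
    unfold Cpx.ten Cpx.Z
    have hw' : Q.cW g e (len x) = w (len x) := rfl
    have hq' : Q.cS g e (len x) = q (len x) := rfl
    simp only [hw', hq', h2, ← h1]
    ring
  · intro x hx i j
    rw [hK.ten_form hn hG hR hKy he hx i j]
    unfold Cpx.ten Cpx.Z
    ring

end Vale.Agent.U1
end
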