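import Vale.Agent.P366.T2.U1.Inv765b

/-!
The special unitary group.
-/

open Matrix Filter Topology Set
open scoped ContDiff

set_option linter.unusedSectionVars false

noncomputable section
namespace Vale.Agent.U1
open Vale.Agent.P366.Stmt
open Vale.Agent.P366.T2.Quat (mulVec_dot mulVec_dot_symm dot_self_pos)

variable {n : ℕ}

namespace Cpx

variable (Q : Cpx n)

/-- The projection of the complexification onto the `i`-eigenspace of `J`, which is the space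
`(ℝⁿ, J)` as a complex vector space. -/
def P : Matrix (Fin n) (Fin n) ℂ := (1 / 2 : ℂ) • (1 - Complex.I • Q.J.map Complex.ofReal)

/-- The determinant of `A` (commuting with `J`) as a complex linear map of `(ℝⁿ, J)`. -/
def cdet (A : Matrix (Fin n) (Fin n) ℝ) : ℂ := (Q.P * A.map Complex.ofReal + (1 - Q.P)).det

/-- `A` is an element of `SU(m)`. -/
def SU (A : Matrix (Fin n) (Fin n) ℝ) : Prop := Q.U A ∧ Q.cdet A = 1

lemma map_mul' (A B : Matrix (Fin n) (Fin n) ℝ) :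
    (A * B).map Complex.ofReal = A.map Complex.ofReal * B.map Complex.ofReal :=
  Matrix.map_mul (f := Complex.ofRealHom)

lemma P_sq : Q.P * Q.P = Q.P := by
  have h : Q.J.map Complex.ofReal * Q.J.map Complex.ofReal = -1 := by
    rw [← map_mul', Q.sq]
    ext i j
    simp only [Matrix.map_apply, Matrix.neg_apply, Matrix.one_apply]
    split_ifs <;> simp
  have e : (1 - Complex.I • Q.J.map Complex.ofReal) * (1 - Complex.I • Q.J.map Complex.ofReal) =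
      (2 : ℂ) • (1 - Complex.I • Q.J.map Complex.ofReal) := by
    rw [sub_mul, Matrix.one_mul, mul_sub, Matrix.mul_one, Matrix.smul_mul, Matrix.mul_smul, h,
      smul_smul, Complex.I_mul_I, neg_smul, one_smul, neg_neg, two_smul]
    abel
  unfold P
  rw [Matrix.smul_mul, Matrix.mul_smul, e, smul_smul, smul_smul]
  norm_num

lemma P_comm {A : Matrix (Fin n) (Fin n) ℝ} (h : A * Q.J = Q.J * A) :
    A.map Complex.ofReal * Q.P = Q.P * A.map Complex.ofReal := by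
  have h1 : A.map Complex.ofReal * Q.J.map Complex.ofReal =
      Q.J.map Complex.ofReal * A.map Complex.ofReal := by
    rw [← map_mul', ← map_mul', h]
  unfold P
  rw [Matrix.smul_mul, Matrix.mul_smul, sub_mul, mul_sub, Matrix.one_mul, Matrix.mul_one,
    Matrix.smul_mul, Matrix.mul_smul, h1]

lemma cdet_mul {A B : Matrix (Fin n) (Fin n) ℝ} (hA : A * Q.J = Q.J * A) :
    Q.cdet (A * B) = Q.cdet A * Q.cdet B := by
  unfold cdet
  rw [← Matrix.det_mul, map_mul']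
  congr 1
  have h1 := Q.P_comm hA
  have h2 := Q.P_sq
  set a := A.map Complex.ofReal
  set b := B.map Complex.ofReal
  have e1 : Q.P * a * (Q.P * b) = Q.P * (a * b) := by
    rw [← h1, Matrix.mul_assoc, ← Matrix.mul_assoc Q.P Q.P b, h2, ← Matrix.mul_assoc, h1,
      Matrix.mul_assoc]
  have e2 : Q.P * a * (1 - Q.P) = 0 := by
    rw [← h1, mul_sub, Matrix.mul_one, Matrix.mul_assoc, h2, sub_self]
  have e3 : (1 - Q.P) * (Q.P * b) = 0 := by
    rw [sub_mul, Matrix.one_mul, ← Matrix.mul_assoc, h2, sub_self]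
  have e4 : (1 - Q.P) * (1 - Q.P) = 1 - Q.P := by
    rw [sub_mul, Matrix.one_mul, mul_sub, Matrix.mul_one, h2]
    abel
  rw [add_mul, mul_add, mul_add, e1, e2, e3, e4]
  abel

lemma cdet_one : Q.cdet 1 = 1 := by
  have h : (1 : Matrix (Fin n) (Fin n) ℝ).map Complex.ofReal = 1 :=
    Matrix.map_one _ Complex.ofReal_zero Complex.ofReal_one
  unfold cdet
  rw [h, Matrix.mul_one, add_sub_cancel, Matrix.det_one]

variable {Q}

lemma SU.mul {A B : Matrix (Fin n) (Fin n) ℝ} (hA : Q.SU A) (hB : Q.SU B) : Q.SU (A * B) :=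
  ⟨hA.1.mul hB.1, by rw [Q.cdet_mul hA.1.2, hA.2, hB.2, mul_one]⟩

lemma cdet_conj {A S : Matrix (Fin n) (Fin n) ℝ} (hA : Q.U A) (hS : Q.U S) :
    Q.cdet (A * S * Aᵀ) = Q.cdet S := by
  rw [Q.cdet_mul (hA.mul hS).2, Q.cdet_mul hA.2, mul_comm (Q.cdet A), mul_assoc,
    ← Q.cdet_mul hA.2, hA.ortho', Q.cdet_one, mul_one]

variable (Q)

/-- the complex reflection in the unit vector `a` -/
def rf (a : Fin n → ℝ) : Matrix (Fin n) (Fin n) ℝ := 1 - (2 : ℝ) • Q.pr a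

/-- multiplication by `i` on the complex line of `a` -/
def si (a : Fin n → ℝ) : Matrix (Fin n) (Fin n) ℝ := Q.rt a (Q.J *ᵥ a)

variable {Q}

lemma U_rf {a : Fin n → ℝ} (ha : a ⬝ᵥ a = 1) : Q.U (Q.rf a) :=
  Q.U_refl (by rw [ha]; norm_num)

lemma U_si {a : Fin n → ℝ} (ha : a ⬝ᵥ a = 1) : Q.U (Q.si a) :=
  Q.U_rt ha (by rw [Q.dot_JJ, ha]) (Q.pr_J ha)

lemma rf_conj {A : Matrix (Fin n) (Fin n) ℝ} (hA : Q.U A) (a : Fin n → ℝ) :
    A * Q.rf a * Aᵀ = Q.rf (A *ᵥ a) := by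
  unfold rf
  rw [mul_sub, sub_mul, Matrix.mul_one, hA.ortho', Matrix.mul_smul, Matrix.smul_mul, hA.pr]

lemma si_conj {A : Matrix (Fin n) (Fin n) ℝ} (hA : Q.U A) (a : Fin n → ℝ) :
    A * Q.si a * Aᵀ = Q.si (A *ᵥ a) := by
  unfold si rt
  rw [mul_add, add_mul, mul_sub, sub_mul, Matrix.mul_one, hA.ortho', hA.pr, hA.av, hA.J_vec]

lemma rf_sq {a : Fin n → ℝ} (ha : a ⬝ᵥ a = 1) : Q.rf a * Q.rf a = 1 := by
  have h := (U_rf (Q := Q) ha).1
  have h2 : (Q.rf a)ᵀ = Q.rf a := by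
    unfold rf
    rw [transpose_sub, transpose_one, transpose_smul, Q.pr_symm]
  rwa [h2] at h

lemma SU_rf {a b : Fin n → ℝ} (ha : a ⬝ᵥ a = 1) (hb : b ⬝ᵥ b = 1) :
    Q.SU (Q.rf a * Q.rf b) := by
  refine ⟨(U_rf ha).mul (U_rf hb), ?_⟩
  obtain ⟨A, hA, hAb⟩ := Q.transitive hb ha
  have h1 : Q.cdet (Q.rf a) = Q.cdet (Q.rf b) := by
    rw [← hAb, ← rf_conj hA, cdet_conj hA (U_rf hb)]
  rw [Q.cdet_mul (U_rf ha).2, h1, ← Q.cdet_mul (U_rf hb).2, rf_sq hb, Q.cdet_one]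

lemma SU_si {a b : Fin n → ℝ} (ha : a ⬝ᵥ a = 1) (hb : b ⬝ᵥ b = 1) :
    Q.SU (Q.si a * (Q.si b)ᵀ) := by
  refine ⟨(U_si ha).mul (U_si hb).transpose, ?_⟩
  obtain ⟨A, hA, hAb⟩ := Q.transitive hb ha
  have h1 : Q.cdet (Q.si a) = Q.cdet (Q.si b) := by
    rw [← hAb, ← si_conj hA, cdet_conj hA (U_si hb)]
  rw [Q.cdet_mul (U_si ha).2, h1, ← Q.cdet_mul (U_si hb).2, (U_si hb).ortho', Q.cdet_one]

variable (Q)

lemma exists_perp (hn : 5 ≤ n) (e f : Fin n → ℝ) :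
    ∃ g : Fin n → ℝ, g ⬝ᵥ g = 1 ∧ Q.Perp g e ∧ Q.Perp g f := by
  set M : Matrix (Fin 4) (Fin n) ℝ := Matrix.of ![e, Q.J *ᵥ e, f, Q.J *ᵥ f] with hM
  have h1 : LinearMap.ker M.mulVecLin ≠ ⊥ := by
    refine LinearMap.ker_ne_bot_of_finrank_lt ?_
    simp only [Module.finrank_fintype_fun_eq_card, Fintype.card_fin]
    omega
  obtain ⟨u, hu, hu0⟩ := Submodule.exists_mem_ne_zero_of_ne_bot h1
  rw [LinearMap.mem_ker, Matrix.mulVecLin_apply] at hu
  have k0 : e ⬝ᵥ u = 0 := congrFun hu 0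
  have k1 : (Q.J *ᵥ e) ⬝ᵥ u = 0 := congrFun hu 1
  have k2 : f ⬝ᵥ u = 0 := congrFun hu 2
  have k3 : (Q.J *ᵥ f) ⬝ᵥ u = 0 := congrFun hu 3
  have hp := dot_self_pos hu0
  have hpe : Q.Perp u e := by
    refine ⟨by rw [dotProduct_comm]; exact k0, ?_⟩
    rw [Q.Jdot, dotProduct_comm, k1, neg_zero]
  have hpf : Q.Perp u f := by
    refine ⟨by rw [dotProduct_comm]; exact k2, ?_⟩
    rw [Q.Jdot, dotProduct_comm, k3, neg_zero]
  refine ⟨(√(u ⬝ᵥ u))⁻¹ • u, ?_, hpe.smul _, hpf.smul _⟩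
  rw [smul_dotProduct, dotProduct_smul, smul_eq_mul, smul_eq_mul]
  have hs : 0 < √(u ⬝ᵥ u) := Real.sqrt_pos.2 hp
  field_simp
  rw [Real.sq_sqrt hp.le]

variable {Q}

section two

variable {w v : Fin n → ℝ} (hw : w ⬝ᵥ w = 1) (hv : v ⬝ᵥ v = 1) (hvw : Q.Perp v w)
include hw hv hvw

omit hw hv in
lemma pr_av_left (f : Fin n → ℝ) : Q.pr w * Q.av (vecMulVec v f) = 0 := by
  rw [← Q.av_mul_left (Q.pr_comm w), mul_vecMulVec, hvw.symm.pr]
  simp [av]

/-- the midpoint -/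
def mid (w v : Fin n → ℝ) : Fin n → ℝ := (√2)⁻¹ • (w + v)

omit hv hvw in
lemma pr_av_self (f : Fin n → ℝ) : Q.pr w * Q.av (vecMulVec w f) = Q.av (vecMulVec w f) := by
  rw [← Q.av_mul_left (Q.pr_comm w), mul_vecMulVec, Q.pr_self hw]

lemma mid_unit : mid w v ⬝ᵥ mid w v = 1 := by
  have h1 : w ⬝ᵥ v = 0 := by rw [dotProduct_comm]; exact hvw.1
  unfold mid
  rw [smul_dotProduct, dotProduct_smul, smul_eq_mul, smul_eq_mul]
  simp only [add_dotProduct, dotProduct_add, hw, hv, hvw.1, h1]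
  have h2 : (√2 : ℝ) ^ 2 = 2 := Real.sq_sqrt (by norm_num)
  field_simp
  rw [h2]
  norm_num

omit hw hv hvw in
lemma pr_mid : (2 : ℝ) • Q.pr (mid w v) = Q.pr w + Q.pr v + Q.av (vecMulVec w v) +
    Q.av (vecMulVec v w) := by
  have h2 : (√2 : ℝ)⁻¹ * (√2)⁻¹ = 1 / 2 := by
    rw [← mul_inv, Real.mul_self_sqrt (by norm_num)]; norm_num
  have h1 : vecMulVec (mid w v) (mid w v) = (1 / 2 : ℝ) • (vecMulVec w w + vecMulVec v v +
      vecMulVec w v + vecMulVec v w) := by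
    ext i j
    simp only [mid, vecMulVec_apply, Matrix.smul_apply, Matrix.add_apply, Pi.smul_apply,
      Pi.add_apply, smul_eq_mul]
    linear_combination ((w i + v i) * (w j + v j)) * h2
  unfold pr
  rw [h1]
  simp only [av, Matrix.mul_smul, Matrix.smul_mul, mul_add, add_mul]
  ext i j
  simp only [Matrix.smul_apply, Matrix.add_apply, Matrix.sub_apply, smul_eq_mul]
  ring

lemma rf_rf : Q.rf w * Q.rf v = 1 - (2 : ℝ) • (Q.pr w + Q.pr v) := by
  have h1 : Q.pr w * Q.pr v = 0 := pr_av_left hvw v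
  unfold rf
  rw [sub_mul, Matrix.one_mul, mul_sub, Matrix.mul_one, Matrix.smul_mul, Matrix.mul_smul, h1]
  simp only [smul_zero, sub_zero, smul_add]
  abel

lemma rf_mid : Q.rf w * Q.rf (mid w v) = 1 - (Q.pr w + Q.pr v) +
    (Q.av (vecMulVec w v) - Q.av (vecMulVec v w)) := by
  have h1 : Q.pr w * Q.pr v = 0 := pr_av_left hvw v
  have h2 : Q.pr w * Q.av (vecMulVec v w) = 0 := pr_av_left hvw w
  have h3 : Q.pr w * Q.av (vecMulVec w v) = Q.av (vecMulVec w v) := pr_av_self hw v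
  unfold rf
  rw [pr_mid, sub_mul, Matrix.one_mul, Matrix.smul_mul, mul_sub, Matrix.mul_one]
  simp only [mul_add, h1, h2, h3, Q.pr_sq hw, add_zero]
  simp only [two_smul]
  abel

lemma skew_mid : (Q.av (vecMulVec w v) - Q.av (vecMulVec v w))ᵀ =
    -(Q.av (vecMulVec w v) - Q.av (vecMulVec v w)) := by
  rw [transpose_sub, av_transpose, av_transpose, transpose_vecMulVec, transpose_vecMulVec]
  abel

lemma skew_mid_w : (Q.av (vecMulVec w v) - Q.av (vecMulVec v w)) *ᵥ w = -v := by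
  rw [sub_mulVec, hvw.av, Q.av_vec_self hw, zero_sub]

lemma skew_mid_v : (Q.av (vecMulVec w v) - Q.av (vecMulVec v w)) *ᵥ v = w := by
  rw [sub_mulVec, hvw.symm.av, Q.av_vec_self hv, sub_zero]

lemma rf_mid_v : (Q.rf w * Q.rf (mid w v)) *ᵥ v = w := by
  rw [rf_mid hw hv hvw, add_mulVec, skew_mid_v hw hv hvw, sub_mulVec, one_mulVec, add_mulVec,
    hvw.symm.pr, Q.pr_self hv]
  simp

lemma si_si : Q.si w * (Q.si v)ᵀ = 1 - (Q.pr w + Q.pr v) +
    (Q.av (vecMulVec (Q.J *ᵥ w) w) - Q.av (vecMulVec (Q.J *ᵥ v) v)) := by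
  have h1 : Q.pr w * Q.pr v = 0 := pr_av_left hvw v
  have hJ : Q.Perp (Q.J *ᵥ v) w := hvw.J_left
  have h2 : Q.pr w * Q.av (vecMulVec (Q.J *ᵥ v) v) = 0 := by
    rw [← Q.av_mul_left (Q.pr_comm w), mul_vecMulVec, hJ.symm.pr]
    simp [av]
  have h3 : Q.av (vecMulVec (Q.J *ᵥ w) w) * Q.pr v = 0 := by
    have : Q.av (vecMulVec (Q.J *ᵥ w) w) * Q.pr v =
        Q.av (Q.av (vecMulVec (Q.J *ᵥ w) w) * vecMulVec v v) :=
      (Q.av_mul_left (Q.av_comm _) _).symm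
    rw [this, mul_vecMulVec, hvw.symm.av]
    simp [av]
  have h4 : Q.av (vecMulVec (Q.J *ᵥ w) w) * Q.av (vecMulVec (Q.J *ᵥ v) v) = 0 := by
    rw [← Q.av_mul_left (Q.av_comm _), mul_vecMulVec, hJ.symm.av]
    simp [av]
  unfold si rt
  rw [transpose_add, transpose_sub, transpose_one, Q.pr_symm, av_Jw_skew]
  simp only [add_mul, mul_add, sub_mul, mul_sub, Matrix.one_mul, Matrix.mul_one, Matrix.mul_neg,
    h1, h2, h3, h4]
  abel

end two

lemma rf_fix {w e : Fin n → ℝ} (h : Q.Perp w e) : Q.rf w *ᵥ e = e := by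
  unfold rf
  rw [sub_mulVec, one_mulVec, smul_mulVec, h.pr, smul_zero, sub_zero]

lemma si_fix {w e : Fin n → ℝ} (h : Q.Perp w e) : Q.si w *ᵥ e = e := by
  unfold si rt
  rw [add_mulVec, sub_mulVec, one_mulVec, h.pr, h.av, sub_zero, add_zero]

lemma siT_fix {w e : Fin n → ℝ} (hw : w ⬝ᵥ w = 1) (h : Q.Perp w e) :
    (Q.si w)ᵀ *ᵥ e = e := by
  conv_lhs => rw [← si_fix h]
  rw [mulVec_mulVec, (U_si hw).1, one_mulVec]

lemma comm_P2 {e : Fin n → ℝ} {M : Matrix (Fin n) (Fin n) ℝ} (h : StabInv Q.SU e M)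
    {w v : Fin n → ℝ} (hw : w ⬝ᵥ w = 1) (hv : v ⬝ᵥ v = 1) (hvw : Q.Perp v w)
    (hwe : Q.Perp w e) (hve : Q.Perp v e) :
    (Q.pr w + Q.pr v) * M = M * (Q.pr w + Q.pr v) := by
  have hS := SU_rf (Q := Q) hw hv
  have h1 := h.comm hS hS.1 (by rw [← mulVec_mulVec, rf_fix hve, rf_fix hwe])
  rw [rf_rf hw hv hvw, sub_mul, mul_sub, Matrix.one_mul, Matrix.mul_one, Matrix.smul_mul,
    Matrix.mul_smul] at h1
  exact smul_right_injective _ (two_ne_zero (α := ℝ)) (sub_right_injective h1)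

lemma stab_v {e : Fin n → ℝ} {M : Matrix (Fin n) (Fin n) ℝ} (h : StabInv Q.SU e M)
    {w v : Fin n → ℝ} (hw : w ⬝ᵥ w = 1) (hv : v ⬝ᵥ v = 1) (hvw : Q.Perp v w)
    (hwe : Q.Perp w e) (hve : Q.Perp v e) : v ⬝ᵥ (M *ᵥ w) = 0 := by
  have hm := mid_unit hw hv hvw
  have hme : Q.Perp (mid w v) e := (hwe.add hve).smul _
  have hS := SU_rf (Q := Q) hw hm
  have h1 := h.comm hS hS.1 (by rw [← mulVec_mulVec, rf_fix hme, rf_fix hwe])
  rw [rf_mid hw hv hvw, add_mul, mul_add, sub_mul, mul_sub, Matrix.one_mul, Matrix.mul_one,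
    comm_P2 h hw hv hvw hwe hve] at h1
  have h2 := skew_comm h.1 (skew_mid hw hv hvw) (add_right_injective _ h1) w
  rw [skew_mid_w hw hv hvw, neg_dotProduct] at h2
  linarith

/-- The special unitary group `SU(m)`, `m ≥ 3`, has few invariants. -/
theorem full_SU (hn : 5 ≤ n) : Q.Full Q.SU where
  unitary := fun _ h => h.1
  trans := by
    intro e f he hf
    obtain ⟨g, hg, hge, hgf⟩ := Q.exists_perp hn e f
    have s1 := SU_rf (Q := Q) hg (mid_unit hg he hge.symm)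
    have s2 := SU_rf (Q := Q) hf (mid_unit hf hg hgf)
    refine ⟨_, s2.mul s1, ?_⟩
    rw [← mulVec_mulVec, rf_mid_v hg he hge.symm, rf_mid_v hf hg hgf]
  stab := by
    intro e M he h w hwe hw
    obtain ⟨v, hv, hve, hvw⟩ := Q.exists_perp hn e w
    have a1 := stab_v h hw hv hvw hwe hve
    have a2 := stab_v h hw (v := Q.J *ᵥ v) (by rw [Q.dot_JJ, hv]) hvw.J_left hwe hve.J_left
    have hS := SU_si (Q := Q) hw hv
    have h1 := h.comm hS hS.1 (by rw [← mulVec_mulVec, siT_fix hv hve, si_fix hwe])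
    have hP := comm_P2 h hw hv hvw hwe hve
    rw [si_si hw hv hvw, add_mul, mul_add, sub_mul, mul_sub, Matrix.one_mul, Matrix.mul_one,
      hP] at h1
    have hsk : (Q.av (vecMulVec (Q.J *ᵥ w) w) - Q.av (vecMulVec (Q.J *ᵥ v) v))ᵀ =
        -(Q.av (vecMulVec (Q.J *ᵥ w) w) - Q.av (vecMulVec (Q.J *ᵥ v) v)) := by
      rw [transpose_sub, av_Jw_skew, av_Jw_skew]; abel
    have a3 := skew_comm h.1 hsk (add_right_injective _ h1) w
    rw [sub_mulVec, Q.av_vec_self hw, hvw.av, sub_zero] at a3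
    have h2 : M *ᵥ w = (Q.pr w + Q.pr v) *ᵥ (M *ᵥ w) := by
      rw [mulVec_mulVec, hP, ← mulVec_mulVec, add_mulVec, Q.pr_self hw, hvw.pr, add_zero]
    rw [add_mulVec, pr_mulVec, pr_mulVec, a1, a2, a3] at h2
    simpa using h2

end Cpx

end Vale.Agent.U1
end
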