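import Vale.Agent.P366.T2.U1.Alg

/-! Pointwise algebra and first derivatives of the invariant tensors without shift. -/

open MeasureTheory Metric Filter Topology Set
open scoped ContDiff ENNReal

noncomputable section
namespace Vale.Agent.U1
open Vale.Agent.P366.Stmt
open Vale.Agent.P366.T2 (HP)

variable {n : ℕ}

/-- inner product of families of numbers -/
def dt (u w : Fin n → ℝ) : ℝ := ∑ i, u i * w i

theorem dt_comm (u w : Fin n → ℝ) : dt u w = dt w u :=
  Finset.sum_congr rfl fun _ _ => mul_comm _ _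

/-- unit radial vector -/
def Nn (x : E n) (i : Fin n) : ℝ := x i / len x

/-- projection to the tangent space of the sphere -/
def P0 (x : E n) (i j : Fin n) : ℝ := (if i = j then 1 else 0) - Nn x i * Nn x j

theorem P0_symm (x : E n) (i j : Fin n) : P0 x i j = P0 x j i := by
  unfold P0
  rw [mul_comm (Nn x i)]
  simp only [eq_comm (a := i) (b := j)]

theorem NN {x : E n} (hx : x ≠ 0) : dt (Nn x) (Nn x) = 1 := by
  have hr : len x ≠ 0 := len_ne hx
  have h : ∀ i, Nn x i * Nn x i = (x i * x i) / len x ^ 2 := by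
    intro i; unfold Nn; field_simp
  unfold dt
  simp only [h, ← Finset.sum_div, sum_sq]
  exact div_self (pow_ne_zero 2 hr)

theorem P0_dt (x : E n) (k : Fin n) (u : Fin n → ℝ) :
    dt (fun i => P0 x i k) u = u k - Nn x k * dt (Nn x) u := by
  unfold dt
  have h : ∀ i, P0 x i k * u i = (if i = k then u i else 0) - Nn x k * (Nn x i * u i) := by
    intro i; unfold P0; split_ifs <;> ring
  simp only [h, Finset.sum_sub_distrib, ← Finset.mul_sum]
  simp

theorem P0_N {x : E n} (hx : x ≠ 0) (k : Fin n) : dt (fun i => P0 x i k) (Nn x) = 0 := by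
  rw [P0_dt, NN hx]; ring

theorem P0_P0 {x : E n} (hx : x ≠ 0) (k l : Fin n) :
    dt (fun i => P0 x i k) (fun i => P0 x i l) = P0 x k l := by
  rw [P0_dt, dt_comm, P0_N hx]; ring

theorem tr_P0 {x : E n} (hx : x ≠ 0) : ∑ i, P0 x i i = (n : ℝ) - 1 := by
  unfold P0
  simp only [if_true, Finset.sum_sub_distrib]
  have := NN hx
  unfold dt at this
  rw [this]
  simp

namespace Cpx

variable (Q : Cpx n)

/-- unit fibre vector -/
def ff (x : E n) (i : Fin n) : ℝ := Q.Y x i / len x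

/-- `r ∂_j f_i` -/
def tau (x : E n) (i j : Fin n) : ℝ := Q.J i j - Q.ff x i * Nn x j

theorem f_f {x : E n} (hx : x ≠ 0) : dt (Q.ff x) (Q.ff x) = 1 := by
  have hr : len x ≠ 0 := len_ne hx
  have h : ∀ i, Q.ff x i * Q.ff x i = (Q.Y x i * Q.Y x i) / len x ^ 2 := by
    intro i; unfold ff; field_simp
  unfold dt
  simp only [h, ← Finset.sum_div, Q.Y_Y]
  exact div_self (pow_ne_zero 2 hr)

theorem N_f (x : E n) : dt (Nn x) (Q.ff x) = 0 := by
  have h : ∀ i, Nn x i * Q.ff x i = (x i * Q.Y x i) / len x ^ 2 := by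
    intro i; unfold Nn ff; ring
  unfold dt
  simp only [h, ← Finset.sum_div, Q.x_Y]
  simp

theorem f_N (x : E n) : dt (Q.ff x) (Nn x) = 0 := by rw [dt_comm, Q.N_f]

theorem J_N (x : E n) (i : Fin n) : dt (fun j => Q.J i j) (Nn x) = Q.ff x i := by
  unfold dt Nn ff Cpx.Y
  rw [Finset.sum_div]
  exact Finset.sum_congr rfl fun j _ => by ring

theorem JT_N (x : E n) (i : Fin n) : dt (fun j => Q.J j i) (Nn x) = -Q.ff x i := by
  rw [← Q.J_N]
  unfold dt
  rw [← Finset.sum_neg_distrib]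
  refine Finset.sum_congr rfl fun j _ => ?_
  have := Q.skew_apply i j
  change Q.J j i * Nn x j = -(Q.J i j * Nn x j)
  rw [this]; ring

theorem J_f (x : E n) (i : Fin n) : dt (fun j => Q.J i j) (Q.ff x) = -Nn x i := by
  have h : dt (fun j => Q.J i j) (Q.ff x) = (∑ j, Q.J i j * Q.Y x j) / len x := by
    unfold dt ff
    rw [Finset.sum_div]
    exact Finset.sum_congr rfl fun j _ => by ring
  rw [h, Q.J_Y]; unfold Nn; ring

theorem JT_f (x : E n) (i : Fin n) : dt (fun j => Q.J j i) (Q.ff x) = Nn x i := by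
  have h : dt (fun j => Q.J j i) (Q.ff x) = -dt (fun j => Q.J i j) (Q.ff x) := by
    unfold dt
    rw [← Finset.sum_neg_distrib]
    refine Finset.sum_congr rfl fun j _ => ?_
    have := Q.skew_apply i j
    change Q.J j i * Q.ff x j = -(Q.J i j * Q.ff x j)
    rw [this]; ring
  rw [h, Q.J_f, neg_neg]

theorem P0_f (x : E n) (k : Fin n) : dt (fun i => P0 x i k) (Q.ff x) = Q.ff x k := by
  rw [P0_dt, Q.N_f]; ring

/-- columns of `tau` -/
theorem tau_dt (x : E n) (k : Fin n) (u : Fin n → ℝ) :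
    dt (fun i => Q.tau x i k) u = dt (fun i => Q.J i k) u - Nn x k * dt (Q.ff x) u := by
  unfold dt tau
  rw [Finset.mul_sum, ← Finset.sum_sub_distrib]
  exact Finset.sum_congr rfl fun i _ => by ring

/-- rows of `tau` -/
theorem tau_dt' (x : E n) (k : Fin n) (u : Fin n → ℝ) :
    dt (fun i => Q.tau x k i) u = dt (fun i => Q.J k i) u - Q.ff x k * dt (Nn x) u := by
  unfold dt tau
  rw [Finset.mul_sum, ← Finset.sum_sub_distrib]
  exact Finset.sum_congr rfl fun i _ => by ring

theorem tau_N (x : E n) (k : Fin n) : dt (fun i => Q.tau x i k) (Nn x) = -Q.ff x k := by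
  rw [tau_dt, Q.JT_N, Q.f_N]; ring

theorem tau_f {x : E n} (hx : x ≠ 0) (k : Fin n) : dt (fun i => Q.tau x i k) (Q.ff x) = 0 := by
  rw [tau_dt, Q.JT_f, Q.f_f hx]; ring

theorem tau_N' {x : E n} (hx : x ≠ 0) (k : Fin n) : dt (fun i => Q.tau x k i) (Nn x) = 0 := by
  rw [tau_dt', Q.J_N, NN hx]; ring

theorem tau_f' (x : E n) (k : Fin n) : dt (fun i => Q.tau x k i) (Q.ff x) = -Nn x k := by
  rw [tau_dt', Q.J_f, Q.N_f]; ring

theorem tau_tauT {x : E n} (hx : x ≠ 0) (k l : Fin n) :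
    dt (fun i => Q.tau x i k) (fun i => Q.tau x i l) = P0 x k l := by
  rw [tau_dt, dt_comm (Q.ff x), Q.tau_f hx, dt_comm, tau_dt, dt_comm (Q.ff x), Q.JT_f]
  have : dt (fun i => Q.J i l) (fun i => Q.J i k) = if k = l then 1 else 0 := by
    have := Q.JTJ l k
    unfold dt
    rw [this]
    simp only [eq_comm (a := l) (b := k)]
  rw [this]
  unfold P0
  ring

/-- projection to the horizontal space -/
def Ph (x : E n) (i j : Fin n) : ℝ := P0 x i j - Q.ff x i * Q.ff x j

theorem tau_tau (x : E n) (k l : Fin n) :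
    dt (fun i => Q.tau x k i) (fun i => Q.tau x i l) = -Q.Ph x k l := by
  rw [dt_comm, tau_dt, dt_comm, tau_dt', dt_comm (Q.ff x), tau_dt', Q.J_f, Q.N_f,
    dt_comm (Nn x), Q.JT_N]
  have : dt (fun i => Q.J k i) (fun i => Q.J i l) = -(if k = l then 1 else 0) := Q.JJ k l
  rw [this]
  unfold Ph P0
  ring

theorem tr_tau (x : E n) : ∑ i, Q.tau x i i = 0 := by
  unfold tau
  rw [Finset.sum_sub_distrib, Q.trace_J]
  have := Q.f_N x
  unfold dt at this
  rw [this]; ring

/-- the invariant tensor without shift -/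
def tv (f u s : ℝ) (x : E n) (i j : Fin n) : ℝ :=
  f * (if i = j then 1 else 0) + (u - f) * (Nn x i * Nn x j) + (s - f) * (Q.ff x i * Q.ff x j)

theorem tv_symm (f u s : ℝ) (x : E n) (i j : Fin n) : Q.tv f u s x i j = Q.tv f u s x j i := by
  unfold tv
  rw [mul_comm (Nn x i), mul_comm (Q.ff x i)]
  simp only [eq_comm (a := i) (b := j)]

theorem tv_dt (f u s : ℝ) (x : E n) (k : Fin n) (w : Fin n → ℝ) :
    dt (fun i => Q.tv f u s x i k) w = f * w k + (u - f) * (Nn x k * dt (Nn x) w) +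
      (s - f) * (Q.ff x k * dt (Q.ff x) w) := by
  unfold dt
  have h : ∀ i, Q.tv f u s x i k * w i = f * (if i = k then w i else 0) +
      (u - f) * (Nn x k * (Nn x i * w i)) + (s - f) * (Q.ff x k * (Q.ff x i * w i)) := by
    intro i; unfold tv; split_ifs <;> ring
  simp only [h, Finset.sum_add_distrib, ← Finset.mul_sum]
  simp

theorem tv_N {x : E n} (hx : x ≠ 0) (f u s : ℝ) (k : Fin n) :
    dt (fun i => Q.tv f u s x i k) (Nn x) = u * Nn x k := by
  rw [tv_dt, NN hx, Q.f_N]; ring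

theorem tv_f {x : E n} (hx : x ≠ 0) (f u s : ℝ) (k : Fin n) :
    dt (fun i => Q.tv f u s x i k) (Q.ff x) = s * Q.ff x k := by
  rw [tv_dt, Q.f_f hx, Q.N_f]; ring

theorem tv_mul {x : E n} (hx : x ≠ 0) (f u s f' u' s' : ℝ) (i k : Fin n) :
    ∑ j, Q.tv f u s x i j * Q.tv f' u' s' x j k = Q.tv (f * f') (u * u') (s * s') x i k := by
  have h : ∑ j, Q.tv f u s x i j * Q.tv f' u' s' x j k =
      dt (fun j => Q.tv f u s x j i) (fun j => Q.tv f' u' s' x j k) :=
    Finset.sum_congr rfl fun j _ => by rw [Q.tv_symm f u s x i j]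
  rw [h, tv_dt, dt_comm (Nn x), Q.tv_N hx, dt_comm (Q.ff x), Q.tv_f hx]
  unfold tv
  ring

theorem trace_tv {x : E n} (hx : x ≠ 0) (f u s : ℝ) :
    ∑ i, Q.tv f u s x i i = ((n : ℝ) - 2) * f + u + s := by
  have h : ∀ i, Q.tv f u s x i i = f + (u - f) * (Nn x i * Nn x i) +
      (s - f) * (Q.ff x i * Q.ff x i) := by
    intro i; unfold tv; simp
  have h1 := NN hx
  have h2 := Q.f_f hx
  unfold dt at h1 h2
  simp only [h, Finset.sum_add_distrib, ← Finset.mul_sum, h1, h2]
  simp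
  ring

theorem C_tv {x : E n} (hx : x ≠ 0) (cf cu cs f u s : ℝ) :
    ∑ k, ∑ l, Q.tv cf cu cs x k l * Q.tv f u s x k l =
      ((n : ℝ) - 2) * (cf * f) + cu * u + cs * s := by
  rw [← Q.trace_tv hx]
  refine Finset.sum_congr rfl fun k _ => ?_
  rw [← Q.tv_mul hx]
  exact Finset.sum_congr rfl fun l _ => by rw [Q.tv_symm f u s x k l]

/-- contraction of `tv` with a product -/
theorem C_prod (f u s : ℝ) (x : E n) (v w : Fin n → ℝ) :
    ∑ k, ∑ l, Q.tv f u s x k l * (v k * w l) =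
      f * dt v w + (u - f) * (dt (Nn x) v * dt (Nn x) w) +
      (s - f) * (dt (Q.ff x) v * dt (Q.ff x) w) := by
  have h : ∀ k, ∑ l, Q.tv f u s x k l * (v k * w l) =
      v k * dt (fun l => Q.tv f u s x l k) w := by
    intro k
    unfold dt
    rw [Finset.mul_sum]
    exact Finset.sum_congr rfl fun l _ => by rw [Q.tv_symm f u s x k l]; ring
  simp only [h, tv_dt]
  have h2 : ∀ k, v k * (f * w k + (u - f) * (Nn x k * dt (Nn x) w) +
      (s - f) * (Q.ff x k * dt (Q.ff x) w)) = f * (v k * w k) +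
      (u - f) * dt (Nn x) w * (Nn x k * v k) + (s - f) * dt (Q.ff x) w * (Q.ff x k * v k) := by
    intro k; ring
  simp only [h2, Finset.sum_add_distrib, ← Finset.mul_sum]
  unfold dt
  ring

/-- contraction of `tv` with `P0` -/
theorem C_P0 {x : E n} (hx : x ≠ 0) (f u s : ℝ) :
    ∑ k, ∑ l, Q.tv f u s x k l * P0 x k l = ((n : ℝ) - 2) * f + s := by
  have h : ∀ k l, P0 x k l = Q.tv 1 0 1 x k l := by
    intro k l; unfold P0 tv; ring
  simp only [h, Q.C_tv hx]
  ring

/-- contraction of `tv` with `Ph` -/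
theorem C_Ph {x : E n} (hx : x ≠ 0) (f u s : ℝ) :
    ∑ k, ∑ l, Q.tv f u s x k l * Q.Ph x k l = ((n : ℝ) - 2) * f := by
  have h : ∀ k l, Q.Ph x k l = Q.tv 1 0 0 x k l := by
    intro k l; unfold Ph P0 tv; ring
  simp only [h, Q.C_tv hx]
  ring

/-! ### the derivative tensor -/

/-- the derivative of an invariant tensor -/
def gT (f u s om be : ℝ) (x : E n) (k i j : Fin n) : ℝ :=
  Nn x k * Q.tv f u s x i j + om * (P0 x i k * Nn x j + Nn x i * P0 x j k) +
    be * (Q.tau x i k * Q.ff x j + Q.ff x i * Q.tau x j k)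

end Cpx

/-! ### derivatives -/

theorem HP_eq {k : Fin n} {f : E n → ℝ} {d e : ℝ} {x : E n} (h : HP k f d x) (hde : d = e) :
    HP k f e x := hde ▸ h

theorem HP_radial {φ : ℝ → ℝ} {φ' : ℝ} {x : E n} (hx : x ≠ 0) (hφ : HasDerivAt φ φ' (len x))
    (k : Fin n) : HP k (fun y => φ (len y)) (φ' * Nn x k) x :=
  HP_eq (HP.radial hx hφ k) (by unfold Nn; ring)

theorem HP_Nn {x : E n} (hx : x ≠ 0) (k i : Fin n) :
    HP k (fun y => Nn y i) (P0 x i k / len x) x := by
  have hr : len x ≠ 0 := len_ne hx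
  have h1 : HasDerivAt (fun t : ℝ => t⁻¹) (-(len x ^ 2)⁻¹) (len x) := hasDerivAt_inv hr
  have h := (HP.coord k i x).mul (HP_radial hx h1 k)
  refine (HP_eq h ?_).congr ?_
  · unfold P0 Nn; field_simp; ring
  · exact Eventually.of_forall fun y => by unfold Nn; ring

namespace Cpx

variable (Q : Cpx n)

theorem HP_Yc (k i : Fin n) (x : E n) : HP k (fun y => Q.Y y i) (Q.J i k) x := by
  have h := HP.sum (k := k) (x := x) Finset.univ (f := fun j y => Q.J i j * y j)
    (d := fun j => Q.J i j * (if j = k then 1 else 0))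
    (fun j _ => (HP.coord k j x).const_mul _)
  exact HP_eq h (by simp)

theorem HP_ff {x : E n} (hx : x ≠ 0) (k i : Fin n) :
    HP k (fun y => Q.ff y i) (Q.tau x i k / len x) x := by
  have hr : len x ≠ 0 := len_ne hx
  have h1 : HasDerivAt (fun t : ℝ => t⁻¹) (-(len x ^ 2)⁻¹) (len x) := hasDerivAt_inv hr
  have h := (Q.HP_Yc k i x).mul (HP_radial hx h1 k)
  refine (HP_eq h ?_).congr ?_
  · unfold tau ff Nn; field_simp; ring
  · exact Eventually.of_forall fun y => by unfold ff; ring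

theorem HP_tv {x : E n} (hx : x ≠ 0) {f u s : ℝ → ℝ} {f' u' s' : ℝ}
    (hf : HasDerivAt f f' (len x)) (hu : HasDerivAt u u' (len x)) (hs : HasDerivAt s s' (len x))
    (k i j : Fin n) :
    HP k (fun y => Q.tv (f (len y)) (u (len y)) (s (len y)) y i j)
      (Q.gT f' u' s' ((u (len x) - f (len x)) / len x) ((s (len x) - f (len x)) / len x)
        x k i j) x := by
  have hr : len x ≠ 0 := len_ne hx
  have h1 := HP_radial hx hf k
  have h2 := HP_radial hx (hu.fun_sub hf) k
  have h3 := HP_radial hx (hs.fun_sub hf) k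
  have h := ((h1.mul (HP.const k (if i = j then (1 : ℝ) else 0) x)).add
    (h2.mul ((HP_Nn hx k i).mul (HP_Nn hx k j)))).add
    (h3.mul ((Q.HP_ff hx k i).mul (Q.HP_ff hx k j)))
  refine HP_eq h ?_
  unfold gT tv
  field_simp
  ring

end Cpx

end Vale.Agent.U1
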