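import Vale.Agent.P366.T2.U1.Loc

/-! Quadratic contractions of the derivative tensors. -/

open MeasureTheory Metric Filter Topology Set
open scoped ContDiff ENNReal

noncomputable section
namespace Vale.Agent.U1
open Vale.Agent.P366.Stmt
open Vale.Agent.P366.T2 (HP)

variable {n : ℕ}

/-- bilinear form of `H` -/
def cH (H : Fin n → Fin n → ℝ) (u w : Fin n → ℝ) : ℝ := ∑ i, ∑ j, u i * w j * H i j

theorem cH_eq (H : Fin n → Fin n → ℝ) (u w : Fin n → ℝ) :
    cH H u w = dt u (fun i => dt w (fun j => H i j)) := by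
  unfold cH dt
  refine Finset.sum_congr rfl fun i _ => ?_
  rw [Finset.mul_sum]
  exact Finset.sum_congr rfl fun j _ => by ring

theorem dt_add (u w w' : Fin n → ℝ) : dt u (fun i => w i + w' i) = dt u w + dt u w' := by
  unfold dt
  rw [← Finset.sum_add_distrib]
  exact Finset.sum_congr rfl fun i _ => by ring

theorem dt_smul (c : ℝ) (u w : Fin n → ℝ) : dt u (fun i => c * w i) = c * dt u w := by
  unfold dt
  rw [Finset.mul_sum]
  exact Finset.sum_congr rfl fun i _ => by ring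

theorem dt_smul' (c : ℝ) (u w : Fin n → ℝ) : dt u (fun i => w i * c) = c * dt u w := by
  unfold dt
  rw [Finset.mul_sum]
  exact Finset.sum_congr rfl fun i _ => by ring

theorem dt_zero (u : Fin n → ℝ) : dt u (fun _ => 0) = 0 := by simp [dt]

theorem dt_neg (u w : Fin n → ℝ) : dt u (fun i => -w i) = -dt u w := by
  unfold dt
  rw [← Finset.sum_neg_distrib]
  exact Finset.sum_congr rfl fun i _ => by ring

namespace Cpx

variable (Q : Cpx n)

/-- contraction of the derivative tensor with a tensor -/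
theorem gT_H (f u s om be : ℝ) (x : E n) (H : Fin n → Fin n → ℝ) (k : Fin n) :
    ∑ i, ∑ j, Q.gT f u s om be x k i j * H i j =
      Nn x k * (f * ∑ i, H i i + (u - f) * cH H (Nn x) (Nn x) + (s - f) * cH H (Q.ff x) (Q.ff x)) +
      om * (cH H (fun i => P0 x i k) (Nn x) + cH H (Nn x) (fun i => P0 x i k)) +
      be * (cH H (fun i => Q.tau x i k) (Q.ff x) + cH H (Q.ff x) (fun i => Q.tau x i k)) := by
  have h : ∀ i j, Q.gT f u s om be x k i j * H i j =
      Nn x k * (f * (if i = j then H i j else 0) + (u - f) * (Nn x i * Nn x j * H i j) +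
        (s - f) * (Q.ff x i * Q.ff x j * H i j)) +
      om * (P0 x i k * Nn x j * H i j + Nn x i * P0 x j k * H i j) +
      be * (Q.tau x i k * Q.ff x j * H i j + Q.ff x i * Q.tau x j k * H i j) := by
    intro i j
    unfold gT tv
    split_ifs <;> ring
  have h2 : ∑ i, ∑ j, (if i = j then H i j else 0) = ∑ i, H i i := by
    refine Finset.sum_congr rfl fun i _ => ?_
    rw [Finset.sum_ite_eq, if_pos (Finset.mem_univ i)]
  simp only [h, Finset.sum_add_distrib, ← Finset.mul_sum, h2]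
  rfl

/-- first two indices -/
theorem gT_12 (f u s om be : ℝ) (x : E n) (l : Fin n) (v w : Fin n → ℝ) :
    cH (fun i j => Q.gT f u s om be x i j l) v w =
      dt v (Nn x) * dt (fun j => Q.tv f u s x j l) w +
      om * (dt v (fun i => dt (fun j => P0 x j i) w) * Nn x l +
        dt w (Nn x) * dt (fun i => P0 x i l) v) +
      be * (dt v (fun i => dt (fun j => Q.tau x j i) w) * Q.ff x l +
        dt w (Q.ff x) * dt (fun i => Q.tau x l i) v) := by
  rw [cH_eq]
  have h : ∀ i, dt w (fun j => Q.gT f u s om be x i j l) =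
      Nn x i * dt (fun j => Q.tv f u s x j l) w +
      om * (dt (fun j => P0 x j i) w * Nn x l + dt w (Nn x) * P0 x i l) +
      be * (dt (fun j => Q.tau x j i) w * Q.ff x l + dt w (Q.ff x) * Q.tau x l i) := by
    intro i
    unfold dt gT
    simp only [Finset.mul_sum, Finset.sum_mul, ← Finset.sum_add_distrib]
    exact Finset.sum_congr rfl fun j _ => by rw [P0_symm x l i]; ring
  simp only [h, dt_add, dt_smul, dt_smul']
  rw [dt_comm v (fun i => P0 x i l), dt_comm v (fun i => Q.tau x l i)]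
  ring

/-- last two indices -/
theorem gT_23 (f u s om be : ℝ) (x : E n) (l : Fin n) (v w : Fin n → ℝ) :
    cH (fun i j => Q.gT f u s om be x l i j) v w =
      Nn x l * dt v (fun i => dt (fun j => Q.tv f u s x j i) w) +
      om * (dt (fun i => P0 x i l) v * dt w (Nn x) + dt v (Nn x) * dt (fun i => P0 x i l) w) +
      be * (dt (fun i => Q.tau x i l) v * dt w (Q.ff x) +
        dt v (Q.ff x) * dt (fun i => Q.tau x i l) w) := by
  rw [cH_eq]
  have h : ∀ i, dt w (fun j => Q.gT f u s om be x l i j) =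
      Nn x l * dt (fun j => Q.tv f u s x j i) w +
      om * (P0 x i l * dt w (Nn x) + Nn x i * dt (fun j => P0 x j l) w) +
      be * (Q.tau x i l * dt w (Q.ff x) + Q.ff x i * dt (fun j => Q.tau x j l) w) := by
    intro i
    unfold dt gT
    simp only [Finset.mul_sum, ← Finset.sum_add_distrib]
    exact Finset.sum_congr rfl fun j _ => by rw [Q.tv_symm f u s x i j]; ring
  simp only [h, dt_add, dt_smul, dt_smul']
  rw [dt_comm v (fun i => P0 x i l), dt_comm v (fun i => Q.tau x i l)]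
  ring

theorem gT_tr12 {x : E n} (hx : x ≠ 0) (f u s om be : ℝ) (l : Fin n) :
    ∑ i, Q.gT f u s om be x i i l = (u + om * ((n : ℝ) - 1) - be) * Nn x l := by
  have h : ∀ i, Q.gT f u s om be x i i l = Nn x i * Q.tv f u s x i l +
      om * (P0 x i i * Nn x l + P0 x i l * Nn x i) +
      be * (Q.tau x i i * Q.ff x l + Q.tau x l i * Q.ff x i) := by
    intro i; unfold gT; rw [P0_symm x l i]; ring
  have h1 := Q.tv_N hx f u s l
  have h2 := P0_N hx l
  have h3 := Q.tau_f' x l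
  unfold dt at h1 h2 h3
  simp only [mul_comm (Nn x _)] at h
  simp only [h, Finset.sum_add_distrib, ← Finset.mul_sum, ← Finset.sum_mul, h1, h2, h3,
    tr_P0 hx, Q.tr_tau]
  ring

theorem gT_tr23 {x : E n} (hx : x ≠ 0) (f u s om be : ℝ) (l : Fin n) :
    ∑ i, Q.gT f u s om be x l i i = (((n : ℝ) - 2) * f + u + s) * Nn x l := by
  have h : ∀ i, Q.gT f u s om be x l i i = Nn x l * Q.tv f u s x i i +
      (2 * om) * (P0 x i l * Nn x i) + (2 * be) * (Q.tau x i l * Q.ff x i) := by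
    intro i; unfold gT; ring
  have h2 := P0_N hx l
  have h3 := Q.tau_f hx l
  unfold dt at h2 h3
  simp only [h, Finset.sum_add_distrib, ← Finset.mul_sum, h2, h3, Q.trace_tv hx]
  ring

section
variable {x : E n}

theorem N_P0 (hx : x ≠ 0) (k : Fin n) : dt (Nn x) (fun i => P0 x i k) = 0 := by
  rw [dt_comm, P0_N hx]

theorem ff_P0 (k : Fin n) : dt (Q.ff x) (fun i => P0 x i k) = Q.ff x k := by
  rw [dt_comm, Q.P0_f]

theorem N_tau (k : Fin n) : dt (Nn x) (fun i => Q.tau x i k) = -Q.ff x k := by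
  rw [dt_comm, Q.tau_N]

theorem ff_tau (hx : x ≠ 0) (k : Fin n) : dt (Q.ff x) (fun i => Q.tau x i k) = 0 := by
  rw [dt_comm, Q.tau_f hx]

theorem tau_P0 (i k : Fin n) :
    dt (fun j => Q.tau x j i) (fun j => P0 x j k) = Q.tau x k i + Q.ff x i * Nn x k := by
  rw [dt_comm, P0_dt, Q.N_tau]; ring

theorem P0_tau (i k : Fin n) :
    dt (fun j => P0 x j i) (fun j => Q.tau x j k) = Q.tau x i k + Nn x i * Q.ff x k := by
  rw [P0_dt, Q.N_tau]; ring

theorem tau'_P0 (hx : x ≠ 0) (i k : Fin n) :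
    dt (fun j => Q.tau x i j) (fun j => P0 x j k) = Q.tau x i k := by
  rw [dt_comm, P0_dt, dt_comm (Nn x), Q.tau_N' hx]; ring

theorem tau'_tau (k l : Fin n) :
    dt (fun i => Q.tau x k i) (fun i => Q.tau x i l) = -Q.Ph x k l := Q.tau_tau x k l

theorem tv_P0 (hx : x ≠ 0) (f u s : ℝ) (k l : Fin n) :
    dt (fun j => Q.tv f u s x j l) (fun j => P0 x j k) =
      f * Q.Ph x l k + s * (Q.ff x l * Q.ff x k) := by
  rw [Q.tv_dt, N_P0 hx, Q.ff_P0]
  unfold Ph
  ring

theorem tv_tau (hx : x ≠ 0) (f u s : ℝ) (k l : Fin n) :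
    dt (fun j => Q.tv f u s x j l) (fun j => Q.tau x j k) =
      f * Q.tau x l k - (u - f) * (Nn x l * Q.ff x k) := by
  rw [Q.tv_dt, Q.N_tau, Q.ff_tau hx]
  ring

theorem Ph_symm (k l : Fin n) : Q.Ph x k l = Q.Ph x l k := by
  unfold Ph; rw [P0_symm x k l]; ring

theorem P0_Ph (k l : Fin n) : P0 x k l = Q.Ph x k l + Q.ff x k * Q.ff x l := by
  unfold Ph; ring

theorem inner1 (hx : x ≠ 0) (f' u' s' om' be' f u s om be : ℝ) (k l : Fin n) :
    ∑ i, ∑ j, Q.gT f' u' s' om' be' x k i j * Q.gT f u s om be x i j l =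
      (u' * u + f' * (((n : ℝ) - 2) * om) + s' * (om - be)) * (Nn x k * Nn x l) +
      (om' * om + om' * f - be' * be) * Q.Ph x k l +
      (om' * om - om' * be + om' * s - be' * s - be' * om + be' * be) *
        (Q.ff x k * Q.ff x l) := by
  rw [Q.gT_H f' u' s' om' be' x (fun i j => Q.gT f u s om be x i j l) k]
  rw [Q.gT_tr12 hx]
  have c1 : cH (fun i j => Q.gT f u s om be x i j l) (Nn x) (Nn x) = u * Nn x l := by
    rw [Q.gT_12]
    simp only [P0_N hx, Q.tau_N, NN hx, Q.N_f, dt_zero, dt_neg, Q.tv_N hx]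
    ring
  have c2 : cH (fun i j => Q.gT f u s om be x i j l) (Q.ff x) (Q.ff x) =
      (om - be) * Nn x l := by
    rw [Q.gT_12]
    simp only [Q.P0_f, Q.f_N, Q.f_f hx, Q.tau_f hx, dt_zero, Q.tau_f']
    ring
  have c3 : cH (fun i j => Q.gT f u s om be x i j l) (fun i => P0 x i k) (Nn x) =
      om * P0 x l k - be * (Q.ff x k * Q.ff x l) := by
    rw [Q.gT_12]
    simp only [P0_N hx, Q.tau_N, NN hx, Q.N_f, dt_zero, dt_neg, P0_P0 hx, Q.P0_f]
    ring
  have c4 : cH (fun i j => Q.gT f u s om be x i j l) (Nn x) (fun i => P0 x i k) =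
      f * Q.Ph x l k + s * (Q.ff x l * Q.ff x k) := by
    rw [Q.gT_12]
    simp only [P0_N hx, NN hx, P0_P0 hx, Q.tv_P0 hx, Q.tau_P0, Q.P0_f, dt_add]
    have h1 : dt (Nn x) (fun i => P0 x i k) = 0 := N_P0 hx k
    have h2 : dt (Nn x) (fun i => Q.tau x k i) = 0 := by rw [dt_comm, Q.tau_N' hx]
    have h3 : dt (Nn x) (fun i => Q.ff x i * Nn x k) = 0 := by rw [dt_smul', Q.N_f]; ring
    rw [h1, h2, h3, Q.tau_N' hx]
    ring
  have c5 : cH (fun i j => Q.gT f u s om be x i j l) (fun i => Q.tau x i k) (Q.ff x) =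
      -(s * (Q.ff x k * Q.ff x l)) - be * Q.Ph x l k := by
    rw [Q.gT_12]
    simp only [Q.tau_N, Q.tv_f hx, Q.P0_f, Q.f_N, Q.tau_f hx, dt_zero, Q.f_f hx, Q.tau'_tau]
    ring
  have c6 : cH (fun i j => Q.gT f u s om be x i j l) (Q.ff x) (fun i => Q.tau x i k) =
      (be - om) * (Q.ff x k * Q.ff x l) := by
    rw [Q.gT_12]
    simp only [Q.f_N, Q.tau_N, Q.P0_tau, Q.P0_f, Q.tau_f hx, Q.tau_tauT hx, dt_add]
    have h1 : dt (Q.ff x) (fun i => Q.tau x i k) = 0 := Q.ff_tau hx k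
    have h2 : dt (Q.ff x) (fun i => Nn x i * Q.ff x k) = 0 := by rw [dt_smul', Q.f_N]; ring
    have h3 : dt (Q.ff x) (fun i => P0 x i k) = Q.ff x k := Q.ff_P0 k
    rw [h1, h2, h3]
    ring
  rw [c1, c2, c3, c4, c5, c6, Q.P0_Ph, Q.Ph_symm l k]
  ring

theorem inner2 (hx : x ≠ 0) (f' u' s' om' be' f u s om be : ℝ) (k l : Fin n) :
    ∑ i, ∑ j, Q.gT f' u' s' om' be' x k i j * Q.gT f u s om be x l i j =
      (((n : ℝ) - 2) * (f' * f) + u' * u + s' * s) * (Nn x k * Nn x l) +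
      2 * (om' * om + be' * be) * P0 x k l -
      2 * (om' * be + be' * om) * (Q.ff x k * Q.ff x l) := by
  rw [Q.gT_H f' u' s' om' be' x (fun i j => Q.gT f u s om be x l i j) k]
  rw [Q.gT_tr23 hx]
  have hN : dt (Nn x) (fun i => Nn x i) = 1 := NN hx
  have hf : dt (Q.ff x) (fun i => Q.ff x i) = 1 := Q.f_f hx
  have c1 : cH (fun i j => Q.gT f u s om be x l i j) (Nn x) (Nn x) = u * Nn x l := by
    rw [Q.gT_23]
    simp only [P0_N hx, Q.N_f, Q.tv_N hx, dt_smul, hN]
    ring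
  have c2 : cH (fun i j => Q.gT f u s om be x l i j) (Q.ff x) (Q.ff x) = s * Nn x l := by
    rw [Q.gT_23]
    simp only [Q.f_N, Q.tv_f hx, dt_smul, hf, Q.tau_f hx]
    ring
  have c3 : cH (fun i j => Q.gT f u s om be x l i j) (fun i => P0 x i k) (Nn x) =
      om * P0 x l k - be * (Q.ff x k * Q.ff x l) := by
    rw [Q.gT_23]
    simp only [Q.tv_N hx, dt_smul, P0_N hx, NN hx, P0_P0 hx, Q.N_f, Q.P0_f, Q.tau_N]
    ring
  have c4 : cH (fun i j => Q.gT f u s om be x l i j) (Nn x) (fun i => P0 x i k) =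
      om * P0 x l k - be * (Q.ff x k * Q.ff x l) := by
    rw [Q.gT_23]
    simp only [Q.tv_P0 hx, dt_add, dt_smul, dt_smul', P0_N hx, NN hx, P0_P0 hx, Q.N_f, Q.P0_f,
      Q.tau_N]
    have h1 : dt (Nn x) (fun i => Q.Ph x i k) = 0 := by
      have e : (fun i => Q.Ph x i k) = fun i => P0 x i k + (-Q.ff x k) * Q.ff x i := by
        funext i; unfold Ph; ring
      have h2 : dt (Nn x) (fun i => Q.ff x i) = 0 := Q.N_f x
      rw [e, dt_add, dt_smul, N_P0 hx, h2]
      ring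
    rw [h1]
    ring
  have c5 : cH (fun i j => Q.gT f u s om be x l i j) (fun i => Q.tau x i k) (Q.ff x) =
      be * P0 x l k - om * (Q.ff x k * Q.ff x l) := by
    rw [Q.gT_23]
    simp only [Q.tv_f hx, dt_smul, Q.f_N, Q.tau_N, Q.P0_f, Q.tau_tauT hx, Q.f_f hx, Q.tau_f hx]
    ring
  have c6 : cH (fun i j => Q.gT f u s om be x l i j) (Q.ff x) (fun i => Q.tau x i k) =
      be * P0 x l k - om * (Q.ff x k * Q.ff x l) := by
    rw [Q.gT_23]
    simp only [Q.tv_tau hx, Q.f_N, Q.tau_N, Q.P0_f, Q.tau_tauT hx, Q.f_f hx, Q.tau_f hx]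
    have h1 : dt (Q.ff x) (fun i => f * Q.tau x i k - (u - f) * (Nn x i * Q.ff x k)) = 0 := by
      have e : (fun i => f * Q.tau x i k - (u - f) * (Nn x i * Q.ff x k)) =
          fun i => f * Q.tau x i k + (-(u - f) * Q.ff x k) * Nn x i := by
        funext i; ring
      have h2 : dt (Q.ff x) (fun i => Nn x i) = 0 := Q.f_N x
      rw [e, dt_add, dt_smul, dt_smul, Q.ff_tau hx, h2]
      ring
    rw [h1]
    ring
  rw [c1, c2, c3, c4, c5, c6, P0_symm x l k]
  ring

theorem C_NN (hx : x ≠ 0) (cf cu cs : ℝ) :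
    ∑ k, ∑ l, Q.tv cf cu cs x k l * (Nn x k * Nn x l) = cu := by
  rw [Q.C_prod, NN hx, Q.f_N]; ring

theorem C_ff (hx : x ≠ 0) (cf cu cs : ℝ) :
    ∑ k, ∑ l, Q.tv cf cu cs x k l * (Q.ff x k * Q.ff x l) = cs := by
  rw [Q.C_prod, Q.f_f hx, Q.N_f]; ring

theorem quad1 (hx : x ≠ 0) (cf cu cs f' u' s' om' be' f u s om be : ℝ) :
    ∑ k, ∑ l, Q.tv cf cu cs x k l *
      ∑ i, ∑ j, Q.gT f' u' s' om' be' x k i j * Q.gT f u s om be x i j l =
      cu * (u' * u + f' * (((n : ℝ) - 2) * om) + s' * (om - be)) +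
      ((n : ℝ) - 2) * cf * (om' * om + om' * f - be' * be) +
      cs * (om' * om - om' * be + om' * s - be' * s - be' * om + be' * be) := by
  have h : ∀ k l, Q.tv cf cu cs x k l *
      ∑ i, ∑ j, Q.gT f' u' s' om' be' x k i j * Q.gT f u s om be x i j l =
      (u' * u + f' * (((n : ℝ) - 2) * om) + s' * (om - be)) *
        (Q.tv cf cu cs x k l * (Nn x k * Nn x l)) +
      (om' * om + om' * f - be' * be) * (Q.tv cf cu cs x k l * Q.Ph x k l) +
      (om' * om - om' * be + om' * s - be' * s - be' * om + be' * be) *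
        (Q.tv cf cu cs x k l * (Q.ff x k * Q.ff x l)) := by
    intro k l
    rw [Q.inner1 hx]
    ring
  simp only [h, Finset.sum_add_distrib, ← Finset.mul_sum, Q.C_NN hx, Q.C_ff hx, Q.C_Ph hx]
  ring

theorem quad2 (hx : x ≠ 0) (cf cu cs f' u' s' om' be' f u s om be : ℝ) :
    ∑ k, ∑ l, Q.tv cf cu cs x k l *
      ∑ i, ∑ j, Q.gT f' u' s' om' be' x k i j * Q.gT f u s om be x l i j =
      cu * (((n : ℝ) - 2) * (f' * f) + u' * u + s' * s) +
      2 * (om' * om + be' * be) * (((n : ℝ) - 2) * cf + cs) -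
      2 * (om' * be + be' * om) * cs := by
  have h : ∀ k l, Q.tv cf cu cs x k l *
      ∑ i, ∑ j, Q.gT f' u' s' om' be' x k i j * Q.gT f u s om be x l i j =
      (((n : ℝ) - 2) * (f' * f) + u' * u + s' * s) *
        (Q.tv cf cu cs x k l * (Nn x k * Nn x l)) +
      2 * (om' * om + be' * be) * (Q.tv cf cu cs x k l * P0 x k l) -
      2 * (om' * be + be' * om) * (Q.tv cf cu cs x k l * (Q.ff x k * Q.ff x l)) := by
    intro k l
    rw [Q.inner2 hx]
    ring
  simp only [h, Finset.sum_add_distrib, Finset.sum_sub_distrib, ← Finset.mul_sum, Q.C_NN hx,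
    Q.C_ff hx, Q.C_P0 hx]
  ring

/-! ### contractions of the derivative tensor with `tv`, divergences -/

theorem C_gT (hx : x ≠ 0) (cf cu cs f u s om be : ℝ) (i : Fin n) :
    ∑ k, ∑ l, Q.tv cf cu cs x k l * Q.gT f u s om be x i k l =
      (((n : ℝ) - 2) * (cf * f) + cu * u + cs * s) * Nn x i := by
  have h : ∀ k l, Q.tv cf cu cs x k l * Q.gT f u s om be x i k l =
      Nn x i * (Q.tv cf cu cs x k l * Q.tv f u s x k l) +
      om * (Q.tv cf cu cs x k l * (P0 x k i * Nn x l) +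
        Q.tv cf cu cs x k l * (Nn x k * P0 x l i)) +
      be * (Q.tv cf cu cs x k l * (Q.tau x k i * Q.ff x l) +
        Q.tv cf cu cs x k l * (Q.ff x k * Q.tau x l i)) := by
    intro k l; unfold gT; ring
  simp only [h, Finset.sum_add_distrib, ← Finset.mul_sum, Q.C_tv hx, Q.C_prod]
  simp only [N_P0 hx, Q.ff_P0, Q.N_tau, Q.ff_tau hx, P0_N hx, Q.tau_f hx, NN hx, Q.f_f hx,
    Q.N_f, Q.f_N]
  ring

/-- divergence -/
theorem div_gT (hx : x ≠ 0) (f u s om be : ℝ) (k : Fin n) :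
    ∑ j, Q.gT f u s om be x j k j = (u + om * ((n : ℝ) - 1) - be) * Nn x k := by
  rw [← Q.gT_tr12 hx f u s om be k]
  refine Finset.sum_congr rfl fun j _ => ?_
  unfold gT
  rw [Q.tv_symm f u s x k j]
  ring

end

end Cpx

end Vale.Agent.U1
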