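import Vale.Agent.P366.T2.U1.Quad
import Vale.Agent.P366.T2.U1.Key
import Vale.Agent.P366.T2.A765.SCStmt

/-! The scalar curvature of `U(m)`-invariant metrics without shift. -/

open MeasureTheory Metric Filter Topology Set
open scoped ContDiff ENNReal

noncomputable section
namespace Vale.Agent.U1
open Vale.Agent.P366.Stmt
open Vale.Agent.P366.T2 (HP Lg Vg scal_div)

variable {n : ℕ}

theorem isOpen_out (R : ℝ) : IsOpen {x : E n | R < len x} :=
  isOpen_lt continuous_const continuous_norm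

/-- the metric without shift -/
structure FitsT (D : Data n) (g : Field n) : Prop where
  smooth : ∀ i j, Smooth (fun x => g x i j)
  hg : ∀ x, D.R ≤ len x → ∀ i j,
    g x i j = D.Q.tv (D.al (len x)) (D.p (len x)) (D.q (len x)) x i j

variable {D : Data n} {g : Field n}

theorem tv_one (Q : Cpx n) (x : E n) (i j : Fin n) :
    Q.tv 1 1 1 x i j = if i = j then 1 else 0 := by
  unfold Cpx.tv; ring

theorem mat_mul_inv (h : FitsT D g) {x : E n} (hx : D.R ≤ len x) :
    mat g x * Matrix.of (fun i j =>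
      D.Q.tv (D.al (len x))⁻¹ (D.p (len x))⁻¹ (D.q (len x))⁻¹ x i j) = 1 := by
  have h0 := ne_zero_of_le hx
  ext i k
  rw [Matrix.mul_apply, Matrix.one_apply]
  have e : ∀ j, mat g x i j * Matrix.of (fun i j =>
      D.Q.tv (D.al (len x))⁻¹ (D.p (len x))⁻¹ (D.q (len x))⁻¹ x i j) j k =
      D.Q.tv (D.al (len x)) (D.p (len x)) (D.q (len x)) x i j *
      D.Q.tv (D.al (len x))⁻¹ (D.p (len x))⁻¹ (D.q (len x))⁻¹ x j k := by
    intro j
    rw [Matrix.of_apply, show mat g x i j = g x i j from rfl, h.hg x hx]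
  simp only [e]
  rw [D.Q.tv_mul h0, mul_inv_cancel₀ (D.al_pos _ hx).ne', mul_inv_cancel₀ (D.p_pos _ hx).ne',
    mul_inv_cancel₀ (D.q_pos _ hx).ne', tv_one]

theorem detT_ne (h : FitsT D g) {x : E n} (hx : D.R ≤ len x) : (mat g x).det ≠ 0 := by
  have h1 := congrArg Matrix.det (mat_mul_inv h hx)
  rw [Matrix.det_mul, Matrix.det_one] at h1
  exact left_ne_zero_of_mul_eq_one h1

theorem upT_eq (h : FitsT D g) {x : E n} (hx : D.R ≤ len x) (i j : Fin n) :
    up g i j x = D.Q.tv (D.al (len x))⁻¹ (D.p (len x))⁻¹ (D.q (len x))⁻¹ x i j := by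
  have h1 := Matrix.inv_eq_right_inv (mat_mul_inv h hx)
  change (mat g x)⁻¹ i j = _
  rw [h1]
  rfl

/-- first derivatives of `g` -/
theorem pdT_g (h : FitsT D g) {x : E n} (hx : D.R < len x) (k i j : Fin n) :
    pd k (fun y => g y i j) x =
      D.Q.gT (deriv D.al (len x)) (deriv D.p (len x)) (deriv D.q (len x))
        ((D.p (len x) - D.al (len x)) / len x) ((D.q (len x) - D.al (len x)) / len x)
        x k i j := by
  have h0 := ne_zero_of_le hx.le
  have h1 := D.Q.HP_tv h0 (hasDeriv D.al_smooth (len x)) (hasDeriv D.p_smooth (len x))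
    (hasDeriv D.q_smooth (len x)) k i j
  refine (h1.congr ?_).pd
  filter_upwards [(isOpen_out D.R).mem_nhds hx] with y hy
  exact h.hg y (le_of_lt hy) i j

/-- first derivatives of the inverse metric -/
theorem pdT_up (h : FitsT D g) {x : E n} (hx : D.R < len x) (k i j : Fin n) :
    pd k (up g i j) x =
      D.Q.gT (-deriv D.al (len x) / D.al (len x) ^ 2)
        (-deriv D.p (len x) / D.p (len x) ^ 2) (-deriv D.q (len x) / D.q (len x) ^ 2)
        (((D.p (len x))⁻¹ - (D.al (len x))⁻¹) / len x)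
        (((D.q (len x))⁻¹ - (D.al (len x))⁻¹) / len x) x k i j := by
  have h0 := ne_zero_of_le hx.le
  have hal := (D.al_pos _ hx.le).ne'
  have hp := (D.p_pos _ hx.le).ne'
  have hq := (D.q_pos _ hx.le).ne'
  have h1 := D.Q.HP_tv h0 (f := fun r => (D.al r)⁻¹) (u := fun r => (D.p r)⁻¹)
    (s := fun r => (D.q r)⁻¹) ((hasDeriv D.al_smooth (len x)).fun_inv hal)
    ((hasDeriv D.p_smooth (len x)).fun_inv hp) ((hasDeriv D.q_smooth (len x)).fun_inv hq) k i j
  refine (h1.congr ?_).pd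
  filter_upwards [(isOpen_out D.R).mem_nhds hx] with y hy
  exact upT_eq h (le_of_lt hy) i j

namespace Data

/-- `L = ell N` -/
def ell (D : Data n) (r : ℝ) : ℝ :=
  (1 / 2) * (((n : ℝ) - 2) * (deriv D.al r / D.al r) + deriv D.p r / D.p r +
    deriv D.q r / D.q r)

/-- `V = vel N` -/
def vel (D : Data n) (r : ℝ) : ℝ :=
  -(D.ell r / D.p r) + deriv D.p r / D.p r ^ 2 - ((n : ℝ) - 1) / (D.p r * r) +
    (1 / D.q r + ((n : ℝ) - 2) / D.al r) / r

end Data

theorem LgT_eq (h : FitsT D g) {x : E n} (hx : D.R < len x) (i : Fin n) :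
    Lg g i x = D.ell (len x) * Nn x i := by
  have h0 := ne_zero_of_le hx.le
  have hal := (D.al_pos _ hx.le).ne'
  have hp := (D.p_pos _ hx.le).ne'
  have hq := (D.q_pos _ hx.le).ne'
  unfold Lg
  simp only [upT_eq h hx.le, pdT_g h hx, D.Q.C_gT h0]
  unfold Data.ell
  field_simp

theorem VgT_eq (h : FitsT D g) {x : E n} (hx : D.R < len x) (k : Fin n) :
    Vg g k x = D.vel (len x) * Nn x k := by
  have h0 := ne_zero_of_le hx.le
  have hr : 0 < len x := lt_trans D.hR hx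
  have hal := (D.al_pos _ hx.le).ne'
  have hp := (D.p_pos _ hx.le).ne'
  have hq := (D.q_pos _ hx.le).ne'
  unfold Vg
  simp only [upT_eq h hx.le, LgT_eq h hx, pdT_up h hx, D.Q.div_gT h0]
  have e1 : ∑ j, D.Q.tv (D.al (len x))⁻¹ (D.p (len x))⁻¹ (D.q (len x))⁻¹ x k j *
      (D.ell (len x) * Nn x j) = D.ell (len x) * ((D.p (len x))⁻¹ * Nn x k) := by
    rw [← D.Q.tv_N h0 (D.al (len x))⁻¹ (D.p (len x))⁻¹ (D.q (len x))⁻¹ k]
    unfold dt
    rw [Finset.mul_sum]
    exact Finset.sum_congr rfl fun j _ => by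
      rw [D.Q.tv_symm (D.al (len x))⁻¹ (D.p (len x))⁻¹ (D.q (len x))⁻¹ x k j]; ring
  rw [e1]
  unfold Data.vel
  field_simp
  ring

/-- second-order quantities -/
theorem ell_deriv (D : Data n) {r : ℝ} (hr : D.R ≤ r) : HasDerivAt D.ell
    ((1 / 2) * (((n : ℝ) - 2) * (deriv (deriv D.al) r / D.al r - (deriv D.al r / D.al r) ^ 2) +
      (deriv (deriv D.p) r / D.p r - (deriv D.p r / D.p r) ^ 2) +
      (deriv (deriv D.q) r / D.q r - (deriv D.q r / D.q r) ^ 2))) r := by
  have hal := (D.al_pos _ hr).ne'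
  have hp := (D.p_pos _ hr).ne'
  have hq := (D.q_pos _ hr).ne'
  have h1 := ((((hasDeriv2 D.al_smooth r).fun_div (hasDeriv D.al_smooth r) hal).const_mul
    ((n : ℝ) - 2)).fun_add
    ((hasDeriv2 D.p_smooth r).fun_div (hasDeriv D.p_smooth r) hp)).fun_add
    ((hasDeriv2 D.q_smooth r).fun_div (hasDeriv D.q_smooth r) hq)
  refine ((h1.const_mul (1 / 2 : ℝ)).congr_deriv ?_)
  field_simp

theorem vel_deriv (D : Data n) {r : ℝ} (hr : D.R ≤ r) {e1 : ℝ} (he : HasDerivAt D.ell e1 r) :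
    HasDerivAt D.vel
    (-(e1 / D.p r - D.ell r * deriv D.p r / D.p r ^ 2) +
      (deriv (deriv D.p) r / D.p r ^ 2 - 2 * deriv D.p r ^ 2 / D.p r ^ 3) +
      ((n : ℝ) - 1) * (D.p r + deriv D.p r * r) / (D.p r * r) ^ 2 +
      (-(deriv D.q r / D.q r ^ 2) - ((n : ℝ) - 2) * deriv D.al r / D.al r ^ 2) / r -
      (1 / D.q r + ((n : ℝ) - 2) / D.al r) / r ^ 2) r := by
  have hr0 : 0 < r := lt_of_lt_of_le D.hR hr
  have hal := (D.al_pos _ hr).ne'
  have hp := (D.p_pos _ hr).ne'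
  have hq := (D.q_pos _ hr).ne'
  have hid := hasDerivAt_id' r
  have h1 := (he.fun_div (hasDeriv D.p_smooth r) hp).fun_neg
  have h2 := (hasDeriv2 D.p_smooth r).fun_div ((hasDeriv D.p_smooth r).fun_pow 2)
    (pow_ne_zero 2 hp)
  have h3 := (hasDerivAt_const r ((n : ℝ) - 1)).fun_div ((hasDeriv D.p_smooth r).fun_mul hid)
    (mul_ne_zero hp hr0.ne')
  have h4 := (((hasDerivAt_const r (1 : ℝ)).fun_div (hasDeriv D.q_smooth r) hq).fun_add
    ((hasDerivAt_const r ((n : ℝ) - 2)).fun_div (hasDeriv D.al_smooth r) hal)).fun_div hid hr0.ne'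
  refine (((h1.fun_add h2).fun_sub h3).fun_add h4).congr_deriv ?_
  simp only [Nat.cast_ofNat, Nat.add_one_sub_one, pow_one]
  field_simp
  ring

/-! ### the mean curvature -/

namespace Data

/-- `H √p` -/
def hh (D : Data n) (r : ℝ) : ℝ :=
  ((n : ℝ) - 2) * (1 / r + deriv D.al r / (2 * D.al r)) + (1 / r + deriv D.q r / (2 * D.q r))

variable (D : Data n)

theorem yb_eq {r : ℝ} (hr : D.R ≤ r) : D.yb r = 1 / r + deriv D.al r / (2 * D.al r) := by
  have hr0 : 0 < r := lt_of_lt_of_le D.hR hr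
  have hal := D.al_pos r hr
  have hsq : HasDerivAt (fun t : ℝ => t ^ 2) (2 * r) r := by
    simpa using hasDerivAt_pow 2 r
  have h1 : deriv D.Yb r = 2 * r * D.al r + r ^ 2 * deriv D.al r :=
    (hsq.mul (hasDeriv D.al_smooth r)).deriv
  unfold yb
  rw [h1]
  unfold Yb
  field_simp

theorem yf_eq {r : ℝ} (hr : D.R ≤ r) : D.yf r = 1 / r + deriv D.q r / (2 * D.q r) := by
  have hr0 : 0 < r := lt_of_lt_of_le D.hR hr
  have hq := D.q_pos r hr
  have hsq : HasDerivAt (fun t : ℝ => t ^ 2) (2 * r) r := by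
    simpa using hasDerivAt_pow 2 r
  have h1 : deriv D.Yf r = 2 * r * D.q r + r ^ 2 * deriv D.q r :=
    (hsq.mul (hasDeriv D.q_smooth r)).deriv
  unfold yf
  rw [h1]
  unfold Yf
  field_simp

theorem H_eq {r : ℝ} (hr : D.R ≤ r) : D.H r = D.hh r / √(D.p r) := by
  unfold H hh lp b
  rw [D.yb_eq hr, D.yf_eq hr]

theorem hh_deriv {r : ℝ} (hr : D.R ≤ r) : HasDerivAt D.hh
    (((n : ℝ) - 2) * (-(1 / r ^ 2) +
      (deriv (deriv D.al) r / D.al r - (deriv D.al r / D.al r) ^ 2) / 2) +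
     (-(1 / r ^ 2) + (deriv (deriv D.q) r / D.q r - (deriv D.q r / D.q r) ^ 2) / 2)) r := by
  have hr0 : 0 < r := lt_of_lt_of_le D.hR hr
  have hal := (D.al_pos _ hr).ne'
  have hq := (D.q_pos _ hr).ne'
  have hid := hasDerivAt_id' r
  have h0 := (hasDerivAt_const r (1 : ℝ)).fun_div hid hr0.ne'
  have h1 := (hasDeriv2 D.al_smooth r).fun_div ((hasDeriv D.al_smooth r).const_mul 2)
    (mul_ne_zero two_ne_zero hal)
  have h2 := (hasDeriv2 D.q_smooth r).fun_div ((hasDeriv D.q_smooth r).const_mul 2)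
    (mul_ne_zero two_ne_zero hq)
  refine ((((h0.fun_add h1).const_mul ((n : ℝ) - 2)).fun_add (h0.fun_add h2)).congr_deriv ?_)
  field_simp
  ring

theorem H_deriv {r : ℝ} (hr : D.R < r) {h1 : ℝ} (hh1 : HasDerivAt D.hh h1 r) :
    HasDerivAt D.H (h1 / √(D.p r) - D.hh r * deriv D.p r / (2 * D.p r * √(D.p r))) r := by
  have hp := D.p_pos _ hr.le
  have hs : √(D.p r) ≠ 0 := (Real.sqrt_pos.2 hp).ne'
  have hs2 : √(D.p r) ^ 2 = D.p r := Real.sq_sqrt hp.le
  have h2 := (hasDeriv D.p_smooth r).sqrt hp.ne'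
  have h3 := hh1.fun_div h2 hs
  have h4 : D.H =ᶠ[𝓝 r] fun t => D.hh t / √(D.p t) := by
    filter_upwards [isOpen_Ioi.mem_nhds hr] with t ht
    exact D.H_eq (le_of_lt ht)
  refine (h3.congr_deriv ?_).congr_of_eventuallyEq h4
  rw [hs2]
  have e : D.p r = √(D.p r) ^ 2 := hs2.symm
  generalize √(D.p r) = s at *
  rw [e]
  field_simp

theorem Rg_eq {r : ℝ} (hr : D.R < r) {h1 : ℝ} (hh1 : HasDerivAt D.hh h1 r) :
    D.Rg r = D.Rh r - (((n : ℝ) - 2) * (1 / r + deriv D.al r / (2 * D.al r)) ^ 2 +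
      (1 / r + deriv D.q r / (2 * D.q r)) ^ 2) / D.p r - D.hh r ^ 2 / D.p r -
      2 * h1 / D.p r + D.hh r * deriv D.p r / D.p r ^ 2 := by
  have hp := D.p_pos _ hr.le
  have hs : √(D.p r) ≠ 0 := (Real.sqrt_pos.2 hp).ne'
  have hs2 : √(D.p r) ^ 2 = D.p r := Real.sq_sqrt hp.le
  unfold Rg II2 lp b
  rw [(D.H_deriv hr hh1).deriv, D.H_eq hr.le, D.yb_eq hr.le, D.yf_eq hr.le, div_pow, hs2]
  have e : D.p r = √(D.p r) ^ 2 := hs2.symm
  generalize √(D.p r) = s at *
  rw [e]
  field_simp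
  ring

end Data

/-- **The scalar curvature without shift.** -/
theorem scalT_eq (h : FitsT D g) {x : E n} (hx : D.R < len x) : scal g x = D.Rg (len x) := by
  have h0 := ne_zero_of_le hx.le
  have hr : 0 < len x := lt_trans D.hR hx
  have hal := D.al_pos _ hx.le
  have hp := D.p_pos _ hx.le
  have hq := D.q_pos _ hx.le
  have hU := isOpen_out (n := n) D.R
  rw [scal_div hU h.smooth
    (fun y hy i j => by
      rw [h.hg y (le_of_lt hy), h.hg y (le_of_lt hy), D.Q.tv_symm])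
    (fun y hy => detT_ne h (le_of_lt hy)) hx]
  have hell := ell_deriv D hx.le
  set e1 := (1 / 2 : ℝ) * (((n : ℝ) - 2) * (deriv (deriv D.al) (len x) / D.al (len x) -
      (deriv D.al (len x) / D.al (len x)) ^ 2) +
      (deriv (deriv D.p) (len x) / D.p (len x) - (deriv D.p (len x) / D.p (len x)) ^ 2) +
      (deriv (deriv D.q) (len x) / D.q (len x) - (deriv D.q (len x) / D.q (len x)) ^ 2))
    with he1
  have hvel := vel_deriv D hx.le hell
  set v1 := (-(e1 / D.p (len x) - D.ell (len x) * deriv D.p (len x) / D.p (len x) ^ 2) +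
      (deriv (deriv D.p) (len x) / D.p (len x) ^ 2 -
        2 * deriv D.p (len x) ^ 2 / D.p (len x) ^ 3) +
      ((n : ℝ) - 1) * (D.p (len x) + deriv D.p (len x) * len x) / (D.p (len x) * len x) ^ 2 +
      (-(deriv D.q (len x) / D.q (len x) ^ 2) -
        ((n : ℝ) - 2) * deriv D.al (len x) / D.al (len x) ^ 2) / len x -
      (1 / D.q (len x) + ((n : ℝ) - 2) / D.al (len x)) / len x ^ 2) with hv1
  -- divergence of V
  have hpV : ∀ k, pd k (Vg g k) x = v1 * (Nn x k * Nn x k) +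
      D.vel (len x) / len x * P0 x k k := by
    intro k
    have h1 := (HP_radial h0 hvel k).mul (HP_Nn h0 k k)
    refine ((HP_eq h1 ?_).congr ?_).pd
    · ring
    · filter_upwards [hU.mem_nhds hx] with y hy
      exact VgT_eq h hy k
  have hNN := NN h0
  unfold dt at hNN
  have hdiv : ∑ k, pd k (Vg g k) x = v1 + ((n : ℝ) - 1) * D.vel (len x) / len x := by
    simp only [hpV, Finset.sum_add_distrib, ← Finset.mul_sum, hNN, tr_P0 h0]
    ring
  -- derivative of L
  have hpL : ∀ i j, pd j (Lg g i) x = e1 * (Nn x i * Nn x j) +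
      D.ell (len x) / len x * P0 x i j := by
    intro i j
    have h1 := (HP_radial h0 hell j).mul (HP_Nn h0 j i)
    refine ((HP_eq h1 ?_).congr ?_).pd
    · ring
    · filter_upwards [hU.mem_nhds hx] with y hy
      exact LgT_eq h hy i
  have hgL : ∑ i, ∑ j, up g i j x * pd j (Lg g i) x =
      e1 * (D.p (len x))⁻¹ + D.ell (len x) / len x *
        (((n : ℝ) - 2) * (D.al (len x))⁻¹ + (D.q (len x))⁻¹) := by
    have e : ∀ i j, up g i j x * pd j (Lg g i) x =
        e1 * (D.Q.tv (D.al (len x))⁻¹ (D.p (len x))⁻¹ (D.q (len x))⁻¹ x i j *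
          (Nn x i * Nn x j)) +
        D.ell (len x) / len x * (D.Q.tv (D.al (len x))⁻¹ (D.p (len x))⁻¹ (D.q (len x))⁻¹ x i j *
          P0 x i j) := by
      intro i j
      rw [upT_eq h hx.le, hpL]
      ring
    simp only [e, Finset.sum_add_distrib, ← Finset.mul_sum, D.Q.C_NN h0, D.Q.C_P0 h0]
  have hLV : ∑ l, Lg g l x * Vg g l x = D.ell (len x) * D.vel (len x) := by
    have e : ∀ l, Lg g l x * Vg g l x = D.ell (len x) * D.vel (len x) * (Nn x l * Nn x l) := by
      intro l; rw [LgT_eq h hx, VgT_eq h hx]; ring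
    simp only [e, ← Finset.mul_sum, hNN, mul_one]
  rw [hdiv, hgL, hLV]
  simp only [upT_eq h hx.le, pdT_up h hx, pdT_g h hx]
  rw [D.Q.quad1 h0, D.Q.quad2 h0]
  have hhh := D.hh_deriv hx.le
  rw [D.Rg_eq hx hhh]
  simp only [hv1, he1]
  unfold Data.vel Data.ell Data.hh Data.Rh Data.Yb Data.Yf Data.b
  generalize deriv (deriv D.al) (len x) = a2
  generalize deriv (deriv D.p) (len x) = p2
  generalize deriv (deriv D.q) (len x) = c2
  generalize deriv D.al (len x) = a1
  generalize deriv D.p (len x) = p1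
  generalize deriv D.q (len x) = c1
  generalize D.al (len x) = a at *
  generalize D.p (len x) = p at *
  generalize D.q (len x) = c at *
  generalize len x = r at *
  generalize (n : ℝ) = m at *
  field_simp
  ring

end Vale.Agent.U1
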